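import Vale.Agent.P012.Growth

namespace Vale.Agent.P012

open Finset

/-- From sums of divisors to unit fractions. -/
theorem assemble (N h a b : ℕ) (hG : Good N h) (ha : 1 ≤ a) (hab : a < b) (hbN : b ≤ N) :
    ∃ S : Finset ℕ, (∀ n ∈ S, 2 ≤ n) ∧ ∑ n ∈ S, (1 : ℚ) / n = (a : ℚ) / b ∧
      S.card ≤ 2 * h := by
  classical
  have hb : 0 < b := by omega
  have hN : 0 < N := by omega
  set q := a * N / b with hq
  set r := a * N % b with hr
  have hdm : b * q + r = a * N := Nat.div_add_mod _ _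
  have hrb : r < b := Nat.mod_lt _ hb
  have hqN : q < N := by
    have : b * q < b * N := by
      have h1 : a * N < b * N := Nat.mul_lt_mul_of_pos_right hab hN
      omega
    exact Nat.lt_of_mul_lt_mul_left this
  obtain ⟨S1, a1, a2, a3⟩ := hG q hqN
  obtain ⟨S2, b1, b2, b3⟩ := hG r (by omega)
  have hdvd1 : ∀ d ∈ S1, d ∣ N := fun d hd => (Nat.mem_divisors.mp (a1 hd)).1
  have hdvd2 : ∀ d ∈ S2, d ∣ N := fun d hd => (Nat.mem_divisors.mp (b1 hd)).1
  have hpos1 : ∀ d ∈ S1, 0 < d := fun d hd => Nat.pos_of_dvd_of_pos (hdvd1 d hd) hN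
  have hpos2 : ∀ d ∈ S2, 0 < d := fun d hd => Nat.pos_of_dvd_of_pos (hdvd2 d hd) hN
  have hle1 : ∀ d ∈ S1, d ≤ q := by
    intro d hd
    rw [← a3]
    exact Finset.single_le_sum (f := fun x => x) (fun _ _ => Nat.zero_le _) hd
  have hle2 : ∀ d ∈ S2, d ≤ r := by
    intro d hd
    rw [← b3]
    exact Finset.single_le_sum (f := fun x => x) (fun _ _ => Nat.zero_le _) hd
  have hinj : ∀ d e : ℕ, d ∣ N → e ∣ N → N / d = N / e → d = e := by
    intro d e hd he hde
    have h1 : d * (N / d) = N := Nat.mul_div_cancel' hd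
    have h2 : e * (N / e) = N := Nat.mul_div_cancel' he
    have h3 : 0 < N / d := by
      rcases Nat.eq_zero_or_pos (N / d) with h0 | h0
      · rw [h0] at h1; omega
      · exact h0
    rw [← hde] at h2
    exact Nat.eq_of_mul_eq_mul_right h3 (h1.trans h2.symm)
  have hinj1 : Set.InjOn (fun d => N / d) (S1 : Set ℕ) := by
    intro d hd e he hde
    exact hinj d e (hdvd1 d hd) (hdvd1 e he) hde
  have hinj2 : Set.InjOn (fun d => b * (N / d)) (S2 : Set ℕ) := by
    intro d hd e he hde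
    exact hinj d e (hdvd2 d hd) (hdvd2 e he) (Nat.eq_of_mul_eq_mul_left hb hde)
  have hdisj : Disjoint (S1.image fun d => N / d) (S2.image fun d => b * (N / d)) := by
    rw [Finset.disjoint_left]
    intro x hx hx'
    obtain ⟨d, hd, rfl⟩ := Finset.mem_image.mp hx
    obtain ⟨e, he, hde⟩ := Finset.mem_image.mp hx'
    have h1 : d * (N / d) = N := Nat.mul_div_cancel' (hdvd1 d hd)
    have h2 : e * (N / e) = N := Nat.mul_div_cancel' (hdvd2 e he)
    have h3 : 0 < N / e := by
      rcases Nat.eq_zero_or_pos (N / e) with h0 | h0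
      · rw [h0] at h2; omega
      · exact h0
    rw [← hde] at h1
    have h4 : (d * b) * (N / e) = e * (N / e) := by
      rw [h2]
      calc d * b * (N / e) = d * (b * (N / e)) := by ring
        _ = N := h1
    have h5 : d * b = e := Nat.eq_of_mul_eq_mul_right h3 h4
    have h6 : b ≤ d * b := Nat.le_mul_of_pos_left _ (hpos1 d hd)
    have h7 := hle2 e he
    omega
  refine ⟨(S1.image fun d => N / d) ∪ (S2.image fun d => b * (N / d)), ?_, ?_, ?_⟩
  · intro n hn
    rcases Finset.mem_union.mp hn with hn | hn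
    · obtain ⟨d, hd, rfl⟩ := Finset.mem_image.mp hn
      have h1 : d * (N / d) = N := Nat.mul_div_cancel' (hdvd1 d hd)
      have h2 := hle1 d hd
      by_contra hlt
      have h3 : N / d ≤ 1 := by omega
      have h4 : d * (N / d) ≤ d * 1 := Nat.mul_le_mul_left _ h3
      omega
    · obtain ⟨e, he, rfl⟩ := Finset.mem_image.mp hn
      have h2 : e * (N / e) = N := Nat.mul_div_cancel' (hdvd2 e he)
      have h3 : 0 < N / e := by
        rcases Nat.eq_zero_or_pos (N / e) with h0 | h0
        · rw [h0] at h2; omega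
        · exact h0
      have h4 : b ≤ b * (N / e) := Nat.le_mul_of_pos_right _ h3
      omega
  · rw [Finset.sum_union hdisj, Finset.sum_image hinj1, Finset.sum_image hinj2]
    have hNq : (N : ℚ) ≠ 0 := by exact_mod_cast hN.ne'
    have hbq : (b : ℚ) ≠ 0 := by exact_mod_cast hb.ne'
    have h1 : ∑ d ∈ S1, (1 : ℚ) / ((N / d : ℕ) : ℚ) = (q : ℚ) / N := by
      rw [← a3]
      push_cast
      rw [Finset.sum_div]
      refine Finset.sum_congr rfl fun d hd => ?_
      have hdq : (d : ℚ) ≠ 0 := by exact_mod_cast (hpos1 d hd).ne'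
      rw [Nat.cast_div (hdvd1 d hd) hdq]
      field_simp
    have h2 : ∑ d ∈ S2, (1 : ℚ) / ((b * (N / d) : ℕ) : ℚ) = (r : ℚ) / (b * N) := by
      rw [← b3]
      push_cast
      rw [Finset.sum_div]
      refine Finset.sum_congr rfl fun d hd => ?_
      have hdq : (d : ℚ) ≠ 0 := by exact_mod_cast (hpos2 d hd).ne'
      rw [Nat.cast_div (hdvd2 d hd) hdq]
      field_simp
    rw [h1, h2]
    have h3 : (b : ℚ) * q + r = a * N := by exact_mod_cast hdm
    field_simp
    linarith
  · calc _ ≤ (S1.image fun d => N / d).card + (S2.image fun d => b * (N / d)).card :=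
          Finset.card_union_le _ _
      _ ≤ S1.card + S2.card := add_le_add Finset.card_image_le Finset.card_image_le
      _ ≤ 2 * h := by omega

/-- The bound for all large denominators. -/
theorem short_expansions : ∃ C : ℝ, 0 < C ∧ ∀ b : ℕ, 16 ≤ b → ∀ a : ℕ, 1 ≤ a → a < b →
    ∃ S : Finset ℕ, (∀ n ∈ S, 2 ≤ n) ∧ ∑ n ∈ S, (1 : ℚ) / n = (a : ℚ) / b ∧
      (S.card : ℝ) ≤ C * (Real.log (Real.log b)) ^ 2 := by
  obtain ⟨h0, hgood⟩ := good_exists
  refine ⟨2 * h0 + 19200, by positivity, fun b hb a ha hab => ?_⟩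
  set Y := Nat.log 2 b + 1 with hY
  obtain ⟨N, h, hN, hG, hh⟩ := hgood Y (by omega)
  have hbN : b ≤ N := le_trans (Nat.lt_pow_succ_log_self (by norm_num) b).le hN
  obtain ⟨S, s1, s2, s3⟩ := assemble N h a b hG ha hab hbN
  refine ⟨S, s1, s2, ?_⟩
  have hbr : (16 : ℝ) ≤ b := by exact_mod_cast hb
  have hlog2a : (0.6931 : ℝ) < Real.log 2 := by
    have := Real.log_two_gt_d9
    linarith
  have hlog2b : Real.log 2 < 0.6932 := by
    have := Real.log_two_lt_d9
    linarith
  have hlogb : 4 * Real.log 2 ≤ Real.log b := by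
    have h1 : Real.log ((2 : ℝ) ^ 4) ≤ Real.log b := by
      apply Real.log_le_log (by norm_num)
      linarith
    rw [Real.log_pow] at h1
    exact_mod_cast h1
  have hlogb2 : Real.exp 1 ≤ Real.log b := by
    have := Real.exp_one_lt_d9
    linarith
  have hlogbpos : 0 < Real.log b := by linarith
  have hll : 1 ≤ Real.log (Real.log b) := by
    rw [Real.le_log_iff_exp_le hlogbpos]
    exact hlogb2
  -- the bound for `Y`
  have hYb : (Y : ℝ) ≤ 2 * Real.log b := by
    have h1 : ((Nat.log 2 b : ℕ) : ℝ) * Real.log 2 ≤ Real.log b := by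
      have h2 : 2 ^ Nat.log 2 b ≤ b := Nat.pow_log_le_self 2 (by omega)
      have h3 : Real.log ((2 : ℝ) ^ Nat.log 2 b) ≤ Real.log b := by
        apply Real.log_le_log (by positivity)
        exact_mod_cast h2
      rwa [Real.log_pow] at h3
    rw [hY]
    push_cast
    have h4 : (0 : ℝ) ≤ (Nat.log 2 b : ℕ) := Nat.cast_nonneg _
    nlinarith
  have hYpos : (0 : ℝ) < Y := by
    rw [hY]
    positivity
  have hlogY : Real.log Y ≤ 2 * Real.log (Real.log b) := by
    calc Real.log Y ≤ Real.log (2 * Real.log b) := Real.log_le_log hYpos hYb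
      _ = Real.log 2 + Real.log (Real.log b) := Real.log_mul (by norm_num) hlogbpos.ne'
      _ ≤ 2 * Real.log (Real.log b) := by linarith
  have hlogY0 : 0 ≤ Real.log Y := by
    apply Real.log_nonneg
    rw [hY]
    push_cast
    have : (0 : ℝ) ≤ (Nat.log 2 b : ℕ) := Nat.cast_nonneg _
    linarith
  have hsq : (Real.log Y) ^ 2 ≤ 4 * (Real.log (Real.log b)) ^ 2 := by
    calc (Real.log Y) ^ 2 ≤ (2 * Real.log (Real.log b)) ^ 2 := by gcongr
      _ = _ := by ring
  have h1sq : 1 ≤ (Real.log (Real.log b)) ^ 2 := one_le_pow₀ hll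
  have hSr : (S.card : ℝ) ≤ 2 * h := by exact_mod_cast s3
  have hh0 : (0 : ℝ) ≤ h0 := Nat.cast_nonneg _
  nlinarith

end Vale.Agent.P012
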