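import Mathlib

namespace Vale.Agent.P012

open Finset

theorem greedy_aux (Y K : ℕ) (hK : K + 1 ≤ Y) (k : ℕ) : ∀ j a b : ℕ, Y ≤ 2 ^ (j + k) → 1 ≤ a →
    a ≤ 2 ^ K → 2 ^ (2 ^ j) * a ≤ b → b ≤ 2 ^ (3 * Y) →
    ∃ S : Finset ℕ, S.card ≤ k ∧ (∀ n ∈ S, 2 ≤ n ∧ b ≤ a * n) ∧
      ((∑ n ∈ S, (1 : ℚ) / n = (a : ℚ) / b) ∨
        ∃ a' b' : ℕ, 1 ≤ a' ∧ 2 ^ Y * a' ≤ b' ∧ b' ≤ 2 ^ (3 * Y) ∧
          ∑ n ∈ S, (1 : ℚ) / n + (a' : ℚ) / b' = (a : ℚ) / b ∧ ∀ n ∈ S, a' * n < b') := by
  induction k with
  | zero =>
    intro j a b hj ha _ hR hb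
    refine ⟨∅, by simp, by simp, Or.inr ⟨a, b, ha, ?_, hb, by simp, by simp⟩⟩
    refine le_trans (Nat.mul_le_mul_right _ ?_) hR
    exact Nat.pow_le_pow_right (by norm_num) (by simpa using hj)
  | succ k ih =>
    intro j a b hj ha haK hR hb
    by_cases hfin : 2 ^ Y * a ≤ b
    · exact ⟨∅, by simp, by simp, Or.inr ⟨a, b, ha, hfin, hb, by simp, by simp⟩⟩
    · push Not at hfin
      set R := 2 ^ (2 ^ j) with hRdef
      have hR2 : 2 ≤ R := by
        have : 2 ^ 1 ≤ 2 ^ (2 ^ j) := Nat.pow_le_pow_right (by norm_num) Nat.one_le_two_pow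
        simpa using this
      have h2ab : 2 * a ≤ b := le_trans (Nat.mul_le_mul_right _ hR2) hR
      have hbpos : 0 < b := by omega
      set n := (b + a - 1) / a with hn
      have hn1 : a * n < b + a := by
        have := Nat.mul_div_le (b + a - 1) a
        rw [← hn] at this
        omega
      have hn2 : b ≤ a * n := by
        have h1 := Nat.lt_mul_div_succ (b + a - 1) (show 0 < a by omega)
        rw [← hn] at h1
        have h2 : a * (n + 1) = a * n + a := by ring
        omega
      have hn3 : 2 ≤ n := by
        have h1 : a * 2 ≤ a * n := by omega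
        exact Nat.le_of_mul_le_mul_left h1 (by omega)
      have hnq : (0 : ℚ) < n := by
        have : 0 < n := by omega
        exact_mod_cast this
      have haq : (0 : ℚ) < a := by exact_mod_cast ha
      have hbq : (0 : ℚ) < b := by exact_mod_cast hbpos
      by_cases he : a * n = b
      · refine ⟨{n}, by simp, ?_, Or.inl ?_⟩
        · intro n' hn'
          rw [Finset.mem_singleton] at hn'
          rw [hn']
          exact ⟨hn3, hn2⟩
        · rw [Finset.sum_singleton]
          have : (b : ℚ) = a * n := by exact_mod_cast he.symm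
          rw [this]
          field_simp
      · have hlt : b < a * n := lt_of_le_of_ne hn2 (Ne.symm he)
        set a1 := a * n - b with ha1
        have ha11 : 1 ≤ a1 := by omega
        have ha1a : a1 < a := by omega
        have hRn : R ≤ n := by
          have h1 : a * R ≤ a * n := by
            calc a * R = R * a := mul_comm _ _
              _ ≤ b := hR
              _ ≤ a * n := hn2
          exact Nat.le_of_mul_le_mul_left h1 (by omega)
        have hratio : 2 ^ (2 ^ (j + 1)) * a1 ≤ b * n := by
          have h1 : 2 ^ (2 ^ (j + 1)) = R * R := by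
            rw [hRdef, ← pow_add]
            congr 1
            rw [pow_succ]; ring
          rw [h1]
          calc R * R * a1 ≤ R * R * a := Nat.mul_le_mul_left _ ha1a.le
            _ = R * (R * a) := by ring
            _ ≤ n * b := Nat.mul_le_mul hRn hR
            _ = b * n := mul_comm _ _
        have hb1 : b * n ≤ 2 ^ (3 * Y) := by
          calc b * n ≤ (2 ^ Y * a) * n := Nat.mul_le_mul_right _ hfin.le
            _ = 2 ^ Y * (a * n) := by ring
            _ ≤ 2 ^ Y * (2 * b) := Nat.mul_le_mul_left _ (by omega)
            _ ≤ 2 ^ Y * (2 * (2 ^ Y * 2 ^ K)) := by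
                apply Nat.mul_le_mul_left
                apply Nat.mul_le_mul_left
                exact hfin.le.trans (Nat.mul_le_mul_left _ haK)
            _ = 2 ^ (Y + (1 + (Y + K))) := by
                rw [pow_add, pow_add, pow_add]; norm_num
            _ ≤ 2 ^ (3 * Y) := Nat.pow_le_pow_right (by norm_num) (by omega)
        obtain ⟨S, hS1, hS2, hS3⟩ := ih (j + 1) a1 (b * n)
          (by rw [show j + 1 + k = j + (k + 1) by ring]; exact hj) ha11
          (ha1a.le.trans haK) hratio hb1
        have hnS : n ∉ S := by
          intro hmem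
          have h1 := (hS2 n hmem).2
          have h2 : b ≤ a1 := Nat.le_of_mul_le_mul_right h1 (by omega)
          omega
        have hfrac : (a1 : ℚ) / ((b * n : ℕ) : ℚ) = (a : ℚ) / b - 1 / n := by
          have h1 : (a1 : ℚ) = a * n - b := by
            rw [ha1, Nat.cast_sub hn2]
            push_cast
            ring
          rw [h1]
          push_cast
          field_simp
        refine ⟨insert n S, ?_, ?_, ?_⟩
        · rw [Finset.card_insert_of_notMem hnS]
          omega
        · intro n' hn'
          rcases Finset.mem_insert.mp hn' with rfl | hn'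
          · exact ⟨hn3, hn2⟩
          · obtain ⟨h1, h2⟩ := hS2 n' hn'
            refine ⟨h1, ?_⟩
            calc b ≤ b * n := Nat.le_mul_of_pos_right _ (by omega)
              _ ≤ a1 * n' := h2
              _ ≤ a * n' := Nat.mul_le_mul_right _ ha1a.le
        · rw [Finset.sum_insert hnS]
          rcases hS3 with hS3 | ⟨a', b', h1, h2, h3, h4, h5⟩
          · left
            rw [hS3, hfrac]
            ring
          · right
            refine ⟨a', b', h1, h2, h3, ?_, ?_⟩
            · rw [hfrac] at h4
              linarith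
            · intro n' hn'
              rcases Finset.mem_insert.mp hn' with rfl | hn'
              · have hb'q : (0 : ℚ) < b' := by
                  have : 0 < b' := lt_of_lt_of_le (by positivity) h2
                  exact_mod_cast this
                have h6 : (a' : ℚ) / b' ≤ (a1 : ℚ) / ((b * n : ℕ) : ℚ) := by
                  rw [← h4]
                  have : 0 ≤ ∑ n ∈ S, (1 : ℚ) / n := Finset.sum_nonneg fun _ _ => by positivity
                  linarith
                have h7 : (a1 : ℚ) / ((b * n : ℕ) : ℚ) < 1 / n := by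
                  push_cast
                  rw [div_lt_div_iff₀ (by positivity) hnq]
                  have h8 : (a1 : ℚ) < b := by
                    have : a1 < b := by omega
                    exact_mod_cast this
                  nlinarith
                have h8 : (a' : ℚ) / b' < 1 / n := lt_of_le_of_lt h6 h7
                rw [div_lt_div_iff₀ hb'q hnq] at h8
                have h9 : (a' : ℚ) * n < b' := by linarith
                exact_mod_cast h9
              · exact h5 n' hn'

/-- Greedy preprocessing: make the remaining fraction tiny, with controlled denominator. -/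
theorem greedy (Y K a b k : ℕ) (ha : 1 ≤ a) (hab : a < b) (hb : b ≤ 2 ^ K) (hK : K + 1 ≤ Y)
    (hk : Y ≤ 2 ^ k) :
    ∃ S : Finset ℕ, S.card ≤ k + 1 ∧ (∀ n ∈ S, 2 ≤ n) ∧
      ((∑ n ∈ S, (1 : ℚ) / n = (a : ℚ) / b) ∨
        ∃ a' b' : ℕ, 1 ≤ a' ∧ 2 ^ Y * a' ≤ b' ∧ b' ≤ 2 ^ (3 * Y) ∧
          ∑ n ∈ S, (1 : ℚ) / n + (a' : ℚ) / b' = (a : ℚ) / b ∧ ∀ n ∈ S, a' * n < b') := by
  have hbK : 2 ^ K ≤ 2 ^ (3 * Y) := Nat.pow_le_pow_right (by norm_num) (by omega)
  by_cases h2 : 2 * a ≤ b
  · obtain ⟨S, s1, s2, s3⟩ := greedy_aux Y K hK k 0 a b (by simpa using hk) ha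
      (hab.le.trans hb) (by simpa using h2) (hb.trans hbK)
    exact ⟨S, by omega, fun n hn => (s2 n hn).1, s3⟩
  · push Not at h2
    set a1 := 2 * a - b with ha1
    have hfrac : (a1 : ℚ) / ((2 * b : ℕ) : ℚ) = (a : ℚ) / b - 1 / 2 := by
      have hbq : (0 : ℚ) < b := by
        have : 0 < b := by omega
        exact_mod_cast this
      have h1 : (a1 : ℚ) = 2 * a - b := by
        rw [ha1, Nat.cast_sub h2.le]
        push_cast
        ring
      rw [h1]
      push_cast
      field_simp
    have hb2 : 2 * b ≤ 2 ^ (3 * Y) := by
      calc 2 * b ≤ 2 * 2 ^ K := by omega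
        _ = 2 ^ (K + 1) := by rw [pow_succ]; ring
        _ ≤ 2 ^ (3 * Y) := Nat.pow_le_pow_right (by norm_num) (by omega)
    obtain ⟨S, s1, s2, s3⟩ := greedy_aux Y K hK k 0 a1 (2 * b) (by simpa using hk) (by omega)
      (by omega) (by simp; omega) hb2
    have h2S : 2 ∉ S := by
      intro hmem
      have := (s2 2 hmem).2
      omega
    refine ⟨insert 2 S, ?_, ?_, ?_⟩
    · rw [Finset.card_insert_of_notMem h2S]
      omega
    · intro n hn
      rcases Finset.mem_insert.mp hn with rfl | hn
      · exact le_rfl
      · exact (s2 n hn).1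
    · rw [Finset.sum_insert h2S]
      rcases s3 with s3 | ⟨a', b', h1, h3, h4, h5, h6⟩
      · left
        rw [s3, hfrac]
        push_cast
        ring
      · right
        refine ⟨a', b', h1, h3, h4, ?_, ?_⟩
        · rw [hfrac] at h5
          push_cast
          linarith
        · intro n hn
          rcases Finset.mem_insert.mp hn with rfl | hn
          · have hb'q : (0 : ℚ) < b' := by
              have : 0 < b' := lt_of_lt_of_le (by positivity) h3
              exact_mod_cast this
            have h7 : (a' : ℚ) / b' ≤ (a1 : ℚ) / ((2 * b : ℕ) : ℚ) := by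
              rw [← h5]
              have : 0 ≤ ∑ n ∈ S, (1 : ℚ) / n := Finset.sum_nonneg fun _ _ => by positivity
              linarith
            have hbq : (0 : ℚ) < b := by
              have : 0 < b := by omega
              exact_mod_cast this
            have h8 : (a1 : ℚ) / ((2 * b : ℕ) : ℚ) < 1 / 2 := by
              rw [hfrac]
              have : (a : ℚ) / b < 1 := by
                rw [div_lt_one hbq]
                exact_mod_cast hab
              linarith
            have h9 : (a' : ℚ) / b' < 1 / 2 := lt_of_le_of_lt h7 h8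
            rw [div_lt_div_iff₀ hb'q (by norm_num)] at h9
            have h10 : (a' : ℚ) * 2 < b' := by linarith
            exact_mod_cast h10
          · exact h6 n hn

end Vale.Agent.P012
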