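import Vale.Agent.P012.Levels2
import Vale.Agent.P012.Greedy

namespace Vale.Agent.P012

open Finset

/-- From sums of divisors to unit fractions, second form. -/
theorem assemble2 (N h a b : ℕ) (hN : 0 < N) (ha : 1 ≤ a) (hab : a < b)
    (hRq : Rep N h (a * N / b)) (hRr : Rep N h (a * N % b)) :
    ∃ S : Finset ℕ, (∀ n ∈ S, 2 ≤ n) ∧ ∑ n ∈ S, (1 : ℚ) / n = (a : ℚ) / b ∧
      S.card ≤ 2 * h := by
  classical
  have hb : 0 < b := by omega
  set q := a * N / b with hq
  set r := a * N % b with hr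
  have hdm : b * q + r = a * N := Nat.div_add_mod _ _
  have hrb : r < b := Nat.mod_lt _ hb
  have hqN : q < N := by
    have : b * q < b * N := by
      have h1 : a * N < b * N := Nat.mul_lt_mul_of_pos_right hab hN
      omega
    exact Nat.lt_of_mul_lt_mul_left this
  obtain ⟨S1, a1, a2, a3⟩ := hRq
  obtain ⟨S2, b1, b2, b3⟩ := hRr
  have hdvd1 : ∀ d ∈ S1, d ∣ N := fun d hd => (Nat.mem_divisors.mp (a1 hd)).1
  have hdvd2 : ∀ d ∈ S2, d ∣ N := fun d hd => (Nat.mem_divisors.mp (b1 hd)).1
  have hpos1 : ∀ d ∈ S1, 0 < d := fun d hd => Nat.pos_of_dvd_of_pos (hdvd1 d hd) hN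
  have hpos2 : ∀ d ∈ S2, 0 < d := fun d hd => Nat.pos_of_dvd_of_pos (hdvd2 d hd) hN
  have hle1 : ∀ d ∈ S1, d ≤ q := by
    intro d hd
    rw [← a3]
    exact Finset.single_le_sum (f := fun x => x) (fun _ _ => Nat.zero_le _) hd
  have hle2 : ∀ d ∈ S2, d ≤ r := by
    intro d hd
    rw [← b3]
    exact Finset.single_le_sum (f := fun x => x) (fun _ _ => Nat.zero_le _) hd
  have hinj : ∀ d e : ℕ, d ∣ N → e ∣ N → N / d = N / e → d = e := by
    intro d e hd he hde
    have h1 : d * (N / d) = N := Nat.mul_div_cancel' hd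
    have h2 : e * (N / e) = N := Nat.mul_div_cancel' he
    have h3 : 0 < N / d := by
      rcases Nat.eq_zero_or_pos (N / d) with h0 | h0
      · rw [h0] at h1; omega
      · exact h0
    rw [← hde] at h2
    exact Nat.eq_of_mul_eq_mul_right h3 (h1.trans h2.symm)
  have hinj1 : Set.InjOn (fun d => N / d) (S1 : Set ℕ) := by
    intro d hd e he hde
    exact hinj d e (hdvd1 d hd) (hdvd1 e he) hde
  have hinj2 : Set.InjOn (fun d => b * (N / d)) (S2 : Set ℕ) := by
    intro d hd e he hde
    exact hinj d e (hdvd2 d hd) (hdvd2 e he) (Nat.eq_of_mul_eq_mul_left hb hde)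
  have hdisj : Disjoint (S1.image fun d => N / d) (S2.image fun d => b * (N / d)) := by
    rw [Finset.disjoint_left]
    intro x hx hx'
    obtain ⟨d, hd, rfl⟩ := Finset.mem_image.mp hx
    obtain ⟨e, he, hde⟩ := Finset.mem_image.mp hx'
    have h1 : d * (N / d) = N := Nat.mul_div_cancel' (hdvd1 d hd)
    have h2 : e * (N / e) = N := Nat.mul_div_cancel' (hdvd2 e he)
    have h3 : 0 < N / e := by
      rcases Nat.eq_zero_or_pos (N / e) with h0 | h0
      · rw [h0] at h2; omega
      · exact h0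
    rw [← hde] at h1
    have h4 : (d * b) * (N / e) = e * (N / e) := by
      rw [h2]
      calc d * b * (N / e) = d * (b * (N / e)) := by ring
        _ = N := h1
    have h5 : d * b = e := Nat.eq_of_mul_eq_mul_right h3 h4
    have h6 : b ≤ d * b := Nat.le_mul_of_pos_left _ (hpos1 d hd)
    have h7 := hle2 e he
    omega
  refine ⟨(S1.image fun d => N / d) ∪ (S2.image fun d => b * (N / d)), ?_, ?_, ?_⟩
  · intro n hn
    rcases Finset.mem_union.mp hn with hn | hn
    · obtain ⟨d, hd, rfl⟩ := Finset.mem_image.mp hn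
      have h1 : d * (N / d) = N := Nat.mul_div_cancel' (hdvd1 d hd)
      have h2 := hle1 d hd
      by_contra hlt
      have h3 : N / d ≤ 1 := by omega
      have h4 : d * (N / d) ≤ d * 1 := Nat.mul_le_mul_left _ h3
      omega
    · obtain ⟨e, he, rfl⟩ := Finset.mem_image.mp hn
      have h2 : e * (N / e) = N := Nat.mul_div_cancel' (hdvd2 e he)
      have h3 : 0 < N / e := by
        rcases Nat.eq_zero_or_pos (N / e) with h0 | h0
        · rw [h0] at h2; omega
        · exact h0
      have h4 : b ≤ b * (N / e) := Nat.le_mul_of_pos_right _ h3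
      omega
  · rw [Finset.sum_union hdisj, Finset.sum_image hinj1, Finset.sum_image hinj2]
    have hNq : (N : ℚ) ≠ 0 := by exact_mod_cast hN.ne'
    have hbq : (b : ℚ) ≠ 0 := by exact_mod_cast hb.ne'
    have h1 : ∑ d ∈ S1, (1 : ℚ) / ((N / d : ℕ) : ℚ) = (q : ℚ) / N := by
      rw [← a3]
      push_cast
      rw [Finset.sum_div]
      refine Finset.sum_congr rfl fun d hd => ?_
      have hdq : (d : ℚ) ≠ 0 := by exact_mod_cast (hpos1 d hd).ne'
      rw [Nat.cast_div (hdvd1 d hd) hdq]
      field_simp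
    have h2 : ∑ d ∈ S2, (1 : ℚ) / ((b * (N / d) : ℕ) : ℚ) = (r : ℚ) / (b * N) := by
      rw [← b3]
      push_cast
      rw [Finset.sum_div]
      refine Finset.sum_congr rfl fun d hd => ?_
      have hdq : (d : ℚ) ≠ 0 := by exact_mod_cast (hpos2 d hd).ne'
      rw [Nat.cast_div (hdvd2 d hd) hdq]
      field_simp
    rw [h1, h2]
    have h3 : (b : ℚ) * q + r = a * N := by exact_mod_cast hdm
    field_simp
    linarith
  · calc _ ≤ (S1.image fun d => N / d).card + (S2.image fun d => b * (N / d)).card :=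
          Finset.card_union_le _ _
      _ ≤ S1.card + S2.card := add_le_add Finset.card_image_le Finset.card_image_le
      _ ≤ 2 * h := by omega

/-- The discrete form of the bound. -/
theorem discrete_bound (b l : ℕ) (hl25 : 25 ≤ l) (hK : Nat.log 2 b + 1 ≤ 2 ^ l) (hb : 2 ≤ b)
    (a : ℕ) (ha : 1 ≤ a) (hab : a < b) :
    ∃ S : Finset ℕ, (∀ n ∈ S, 2 ≤ n) ∧ ∑ n ∈ S, (1 : ℚ) / n = (a : ℚ) / b ∧
      (S.card : ℝ) ≤ 20003 * l * (1 + Real.log l) := by
  classical
  obtain ⟨V, h, A, Z, hV0, hPR, hVZ, hZ, hA1, hA2, hh⟩ := construct l hl25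
  set K := Nat.log 2 b + 1 with hKdef
  set Y := A / 3 with hY
  have hbK : b ≤ 2 ^ K := (Nat.lt_pow_succ_log_self (by norm_num) b).le
  have hAbig : 3200 * 2 ^ l ≤ A := by
    refine le_trans ?_ hA1
    apply Nat.mul_le_mul_right
    omega
  have hT1 : 1 ≤ 2 ^ l := Nat.one_le_two_pow
  have hKY : K + 1 ≤ Y := by omega
  have hY2l : Y ≤ 2 ^ (2 * l) := by
    have h1 : (2 ^ l) ^ 2 = 2 ^ (2 * l) := by
      rw [← pow_mul]
      congr 1
      ring
    rw [← h1]
    omega
  have hl0 : (25 : ℝ) ≤ l := by exact_mod_cast hl25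
  have hlog0 : 0 ≤ Real.log l := Real.log_nonneg (by linarith)
  have hlbound : (2 * l + 1 : ℝ) ≤ 3 * l * (1 + Real.log l) := by nlinarith
  obtain ⟨S1, s1, s2, s3⟩ := greedy Y K a b (2 * l) ha hab hbK hKY hY2l
  rcases s3 with s3 | ⟨a', b', h1, h2, h3, h4, h5⟩
  · refine ⟨S1, s2, s3, ?_⟩
    have : (S1.card : ℝ) ≤ 2 * l + 1 := by exact_mod_cast s1
    nlinarith
  · have hVpos : 0 < V := Nat.pos_of_ne_zero hV0
    have hb'pos : 0 < b' := lt_of_lt_of_le (by positivity) h2
    have h2Y : 2 ≤ 2 ^ Y := by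
      calc 2 = 2 ^ 1 := by norm_num
        _ ≤ 2 ^ Y := Nat.pow_le_pow_right (by norm_num) (by omega)
    have hab' : a' < b' := by
      have : 2 * a' ≤ 2 ^ Y * a' := Nat.mul_le_mul_right _ h2Y
      omega
    have hq : a' * V / b' < 2 ^ A := by
      rw [Nat.div_lt_iff_lt_mul hb'pos]
      calc a' * V ≤ a' * 2 ^ Z := Nat.mul_le_mul_left _ hVZ
        _ < a' * 2 ^ (A + Y) := by
            apply Nat.mul_lt_mul_of_pos_left _ (by omega)
            exact Nat.pow_lt_pow_right (by norm_num) hZ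
        _ = 2 ^ A * (2 ^ Y * a') := by rw [pow_add]; ring
        _ ≤ 2 ^ A * b' := Nat.mul_le_mul_left _ h2
    have hr : a' * V % b' < 2 ^ A := by
      refine lt_of_lt_of_le (Nat.mod_lt _ hb'pos) (h3.trans ?_)
      apply Nat.pow_le_pow_right (by norm_num)
      omega
    obtain ⟨S2, t1, t2, t3⟩ := assemble2 V h a' b' hVpos h1 hab' (hPR _ hq) (hPR _ hr)
    have hdisj : Disjoint S1 S2 := by
      rw [Finset.disjoint_left]
      intro n hn1 hn2
      have h6 := h5 n hn1
      have h7 : (1 : ℚ) / n ≤ (a' : ℚ) / b' := by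
        rw [← t2]
        exact Finset.single_le_sum (f := fun n : ℕ => (1 : ℚ) / n)
          (fun _ _ => by positivity) hn2
      have hn0 : (0 : ℚ) < n := by
        have := t1 n hn2
        have : 0 < n := by omega
        exact_mod_cast this
      have hb'q : (0 : ℚ) < b' := by exact_mod_cast hb'pos
      rw [div_le_div_iff₀ hn0 hb'q] at h7
      have h8 : (a' : ℚ) * n < b' := by exact_mod_cast h6
      linarith
    refine ⟨S1 ∪ S2, ?_, ?_, ?_⟩
    · intro n hn
      rcases Finset.mem_union.mp hn with hn | hn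
      · exact s2 n hn
      · exact t1 n hn
    · rw [Finset.sum_union hdisj, t2, h4]
    · have h6 : (S1 ∪ S2).card ≤ 2 * l + 1 + 2 * h := by
        have := Finset.card_union_le S1 S2
        omega
      have h7 : ((S1 ∪ S2).card : ℝ) ≤ 2 * l + 1 + 2 * h := by exact_mod_cast h6
      nlinarith

/-- The bound for all large denominators. -/
theorem short_expansions2 : ∃ C : ℝ, 0 < C ∧ ∀ b : ℕ, 2 ^ 32 ≤ b → ∀ a : ℕ, 1 ≤ a → a < b →
    ∃ S : Finset ℕ, (∀ n ∈ S, 2 ≤ n) ∧ ∑ n ∈ S, (1 : ℚ) / n = (a : ℚ) / b ∧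
      (S.card : ℝ) ≤ C * (Real.log (Real.log b) * Real.log (Real.log (Real.log b))) := by
  refine ⟨1100165, by norm_num, fun b hb a ha hab => ?_⟩
  set K := Nat.log 2 b + 1 with hK
  set l := 25 + Nat.log 2 K with hl
  have hKl : K ≤ 2 ^ l := by
    have h1 : K < 2 ^ (Nat.log 2 K + 1) := Nat.lt_pow_succ_log_self (by norm_num) K
    refine h1.le.trans ?_
    exact Nat.pow_le_pow_right (by norm_num) (by omega)
  obtain ⟨S, s1, s2, s3⟩ := discrete_bound b l (by omega) hKl (by omega) a ha hab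
  refine ⟨S, s1, s2, s3.trans ?_⟩
  have hbr : ((2 : ℝ) ^ 32) ≤ b := by exact_mod_cast hb
  have hlog2a : (0.6931 : ℝ) < Real.log 2 := by
    have := Real.log_two_gt_d9
    linarith
  have hlog2b : Real.log 2 < 0.6932 := by
    have := Real.log_two_lt_d9
    linarith
  have hlogb : 32 * Real.log 2 ≤ Real.log b := by
    have h1 : Real.log ((2 : ℝ) ^ 32) ≤ Real.log b := by
      apply Real.log_le_log (by norm_num)
      exact hbr
    rw [Real.log_pow] at h1
    exact_mod_cast h1
  have hlogbpos : 0 < Real.log b := by linarith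
  have hexp1 := Real.exp_one_lt_d9
  have hexp1pos := Real.exp_pos 1
  -- loglog b ≥ 3
  have hll : 3 ≤ Real.log (Real.log b) := by
    rw [Real.le_log_iff_exp_le hlogbpos]
    have h1 : Real.exp 3 = Real.exp 1 * Real.exp 1 * Real.exp 1 := by
      rw [← Real.exp_add, ← Real.exp_add]
      norm_num
    rw [h1]
    have h2 : Real.exp 1 * Real.exp 1 ≤ 2.7182818286 * 2.7182818286 := by
      apply mul_le_mul hexp1.le hexp1.le hexp1pos.le (by norm_num)
    have h3 : Real.exp 1 * Real.exp 1 * Real.exp 1 ≤ 2.7182818286 * 2.7182818286 * 2.7182818286 := by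
      apply mul_le_mul h2 hexp1.le hexp1pos.le (by norm_num)
    nlinarith
  set L := Real.log (Real.log b) with hL
  have hLpos : 0 < L := by linarith
  have hlll : 1 ≤ Real.log L := by
    rw [Real.le_log_iff_exp_le hLpos]
    linarith
  -- the bound for K
  have hKb : (K : ℝ) ≤ 2 * Real.log b := by
    have h1 : ((Nat.log 2 b : ℕ) : ℝ) * Real.log 2 ≤ Real.log b := by
      have h2 : 2 ^ Nat.log 2 b ≤ b := Nat.pow_log_le_self 2 (by omega)
      have h3 : Real.log ((2 : ℝ) ^ Nat.log 2 b) ≤ Real.log b := by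
        apply Real.log_le_log (by positivity)
        exact_mod_cast h2
      rwa [Real.log_pow] at h3
    rw [hK]
    push_cast
    have h4 : (0 : ℝ) ≤ (Nat.log 2 b : ℕ) := Nat.cast_nonneg _
    nlinarith
  have hKpos : (0 : ℝ) < K := by
    rw [hK]
    positivity
  have hlogK : Real.log K ≤ Real.log 2 + L := by
    calc Real.log K ≤ Real.log (2 * Real.log b) := Real.log_le_log hKpos hKb
      _ = Real.log 2 + Real.log (Real.log b) := Real.log_mul (by norm_num) hlogbpos.ne'
  have hlog2K : ((Nat.log 2 K : ℕ) : ℝ) * Real.log 2 ≤ Real.log K := by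
    have h2 : 2 ^ Nat.log 2 K ≤ K := Nat.pow_log_le_self 2 (by omega)
    have h3 : Real.log ((2 : ℝ) ^ Nat.log 2 K) ≤ Real.log K := by
      apply Real.log_le_log (by positivity)
      exact_mod_cast h2
    rwa [Real.log_pow] at h3
  have hlL : (l : ℝ) ≤ 11 * L := by
    rw [hl]
    push_cast
    have h4 : (0 : ℝ) ≤ (Nat.log 2 K : ℕ) := Nat.cast_nonneg _
    nlinarith
  have hlpos : (25 : ℝ) ≤ l := by
    rw [hl]
    push_cast
    have h4 : (0 : ℝ) ≤ (Nat.log 2 K : ℕ) := Nat.cast_nonneg _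
    linarith
  have hlogl : Real.log l ≤ 3 + Real.log L := by
    calc Real.log l ≤ Real.log (11 * L) := Real.log_le_log (by linarith) hlL
      _ = Real.log 11 + Real.log L := Real.log_mul (by norm_num) hLpos.ne'
      _ ≤ 3 + Real.log L := by
          have h16 : Real.log 11 ≤ Real.log ((2 : ℝ) ^ 4) := by
            apply Real.log_le_log (by norm_num)
            norm_num
          rw [Real.log_pow] at h16
          push_cast at h16
          linarith
  have hlogl0 : 0 ≤ Real.log l := Real.log_nonneg (by linarith)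
  have h1 : 1 + Real.log l ≤ 5 * Real.log L := by linarith
  calc 20003 * (l : ℝ) * (1 + Real.log l) ≤ 20003 * (11 * L) * (5 * Real.log L) := by
        apply mul_le_mul (by linarith) (by linarith) (by linarith) (by positivity)
    _ = 1100165 * (L * Real.log L) := by ring

end Vale.Agent.P012
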