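import Vale.Agent.P012.Chain
import Vale.Agent.P012.Greedy

namespace Vale.Agent.P012

open Finset

theorem UF.ofFinset (S : Finset ℕ) (hS : ∀ n ∈ S, 2 ≤ n) :
    UF S.card (∑ n ∈ S, (1 : ℚ) / n) := by
  have h1 := UF.sum S 1 (fun n : ℕ => (1 : ℚ) / n) (fun n hn => UF.unit (by
    have := hS n hn
    omega))
  rwa [mul_one] at h1

/-- The discrete form of the bound. -/
theorem discrete_bound3 (b l : ℕ) (hl25 : 25 ≤ l) (hK : Nat.log 2 b + 1 ≤ 2 ^ l)
    (a : ℕ) (ha : 1 ≤ a) (hab : a < b) :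
    ∃ S : Finset ℕ, (∀ n ∈ S, 2 ≤ n) ∧ ∑ n ∈ S, (1 : ℚ) / n = (a : ℚ) / b ∧
      S.card ≤ 40245 * l := by
  classical
  obtain ⟨V, h, A, Z, hVpos, hVZ, hUP, hZ, hA1, hA2, hh⟩ := construct3 l hl25
  set K := Nat.log 2 b + 1 with hKdef
  set Y := A / 3 with hY
  have hbK : b ≤ 2 ^ K := (Nat.lt_pow_succ_log_self (by norm_num) b).le
  have hAbig : 3200 * 2 ^ l ≤ A := by
    refine le_trans ?_ hA1
    apply Nat.mul_le_mul_right
    omega
  have hT1 : 1 ≤ 2 ^ l := Nat.one_le_two_pow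
  have hKY : K + 1 ≤ Y := by omega
  have hY2l : Y ≤ 2 ^ (2 * l) := by
    have h1 : (2 ^ l) ^ 2 = 2 ^ (2 * l) := by
      rw [← pow_mul]
      congr 1
      ring
    rw [← h1]
    omega
  have hbpos : 0 < b := by omega
  have hbq : (0 : ℚ) < b := by exact_mod_cast hbpos
  have hfrac0 : (0 : ℚ) < (a : ℚ) / b := by
    have : (0 : ℚ) < a := by exact_mod_cast ha
    positivity
  have hfrac1 : (a : ℚ) / b < 1 := by
    rw [div_lt_one hbq]
    exact_mod_cast hab
  obtain ⟨S1, s1, s2, s3⟩ := greedy Y K a b (2 * l) ha hab hbK hKY hY2l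
  rcases s3 with s3 | ⟨a', b', h1, h2, h3, h4, _⟩
  · exact ⟨S1, s2, s3, by omega⟩
  · have hb'pos : 0 < b' := lt_of_lt_of_le (by positivity) h2
    have hb'q : (b' : ℚ) ≠ 0 := by exact_mod_cast hb'pos.ne'
    have hVq : (V : ℚ) ≠ 0 := by exact_mod_cast hVpos.ne'
    obtain ⟨q, hqdef⟩ : ∃ q, q = a' * V / b' := ⟨_, rfl⟩
    obtain ⟨r, hrdef⟩ : ∃ r, r = a' * V % b' := ⟨_, rfl⟩
    have hqr : b' * q + r = a' * V := by
      rw [hqdef, hrdef]
      exact Nat.div_add_mod _ _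
    have hq : q < 2 ^ A := by
      rw [hqdef, Nat.div_lt_iff_lt_mul hb'pos]
      calc a' * V ≤ a' * 2 ^ Z := Nat.mul_le_mul_left _ hVZ
        _ < a' * 2 ^ (A + Y) := by
            apply Nat.mul_lt_mul_of_pos_left _ (by omega)
            exact Nat.pow_lt_pow_right (by norm_num) hZ
        _ = 2 ^ A * (2 ^ Y * a') := by rw [pow_add]; ring
        _ ≤ 2 ^ A * b' := Nat.mul_le_mul_left _ h2
    have hr : r < 2 ^ A := by
      rw [hrdef]
      refine lt_of_lt_of_le (Nat.mod_lt _ hb'pos) (h3.trans ?_)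
      apply Nat.pow_le_pow_right (by norm_num)
      omega
    have hUF : UF (S1.card + (h + h)) ((a : ℚ) / b) := by
      have e1 : (a : ℚ) / b = ∑ n ∈ S1, (1 : ℚ) / n + ((q : ℚ) / V + (r : ℚ) / V / b') := by
        rw [← h4]
        congr 1
        have h5 : (b' : ℚ) * q + r = a' * V := by exact_mod_cast hqr
        field_simp
        linarith
      rw [e1]
      exact (UF.ofFinset S1 s2).add ((hUP q hq).add ((hUP r hr).div hb'pos))
    obtain ⟨S, t1, t2, t3⟩ := distinct_of_UF hfrac0 hfrac1 hUF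
    exact ⟨S, t1, t2, by omega⟩

/-- The bound for all denominators `b ≥ 16`. -/
theorem short_expansions3 : ∃ C : ℝ, 0 < C ∧ ∀ b : ℕ, 16 ≤ b → ∀ a : ℕ, 1 ≤ a → a < b →
    ∃ S : Finset ℕ, (∀ n ∈ S, 2 ≤ n) ∧ ∑ n ∈ S, (1 : ℚ) / n = (a : ℚ) / b ∧
      (S.card : ℝ) ≤ C * Real.log (Real.log b) := by
  refine ⟨1126860, by norm_num, fun b hb a ha hab => ?_⟩
  set K := Nat.log 2 b + 1 with hK
  set l := 25 + Nat.log 2 K with hl
  have hKl : K ≤ 2 ^ l := by
    have h1 : K < 2 ^ (Nat.log 2 K + 1) := Nat.lt_pow_succ_log_self (by norm_num) K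
    refine h1.le.trans ?_
    exact Nat.pow_le_pow_right (by norm_num) (by omega)
  obtain ⟨S, s1, s2, s3⟩ := discrete_bound3 b l (by omega) hKl a ha hab
  refine ⟨S, s1, s2, ?_⟩
  have s3' : (S.card : ℝ) ≤ 40245 * l := by exact_mod_cast s3
  refine s3'.trans ?_
  have hbr : ((2 : ℝ) ^ 4) ≤ b := by
    have : ((16 : ℕ) : ℝ) ≤ b := by exact_mod_cast hb
    norm_num at this ⊢
    exact this
  have hlog2a : (0.6931 : ℝ) < Real.log 2 := by
    have := Real.log_two_gt_d9
    linarith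
  have hlog2b : Real.log 2 < 0.6932 := by
    have := Real.log_two_lt_d9
    linarith
  have hlogb : 4 * Real.log 2 ≤ Real.log b := by
    have h1 : Real.log ((2 : ℝ) ^ 4) ≤ Real.log b := by
      apply Real.log_le_log (by norm_num)
      exact hbr
    rw [Real.log_pow] at h1
    exact_mod_cast h1
  have hlogbpos : 0 < Real.log b := by linarith
  have hexp1 := Real.exp_one_lt_d9
  have hll : 1 ≤ Real.log (Real.log b) := by
    rw [Real.le_log_iff_exp_le hlogbpos]
    linarith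
  set L := Real.log (Real.log b) with hL
  have hKb : (K : ℝ) ≤ 2 * Real.log b := by
    have h1 : ((Nat.log 2 b : ℕ) : ℝ) * Real.log 2 ≤ Real.log b := by
      have h2 : 2 ^ Nat.log 2 b ≤ b := Nat.pow_log_le_self 2 (by omega)
      have h3 : Real.log ((2 : ℝ) ^ Nat.log 2 b) ≤ Real.log b := by
        apply Real.log_le_log (by positivity)
        exact_mod_cast h2
      rwa [Real.log_pow] at h3
    rw [hK]
    push_cast
    have h4 : (0 : ℝ) ≤ (Nat.log 2 b : ℕ) := Nat.cast_nonneg _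
    nlinarith
  have hKpos : (0 : ℝ) < K := by
    rw [hK]
    positivity
  have hlogK : Real.log K ≤ Real.log 2 + L := by
    calc Real.log K ≤ Real.log (2 * Real.log b) := Real.log_le_log hKpos hKb
      _ = Real.log 2 + Real.log (Real.log b) := Real.log_mul (by norm_num) hlogbpos.ne'
  have hlog2K : ((Nat.log 2 K : ℕ) : ℝ) * Real.log 2 ≤ Real.log K := by
    have h2 : 2 ^ Nat.log 2 K ≤ K := Nat.pow_log_le_self 2 (by omega)
    have h3 : Real.log ((2 : ℝ) ^ Nat.log 2 K) ≤ Real.log K := by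
      apply Real.log_le_log (by positivity)
      exact_mod_cast h2
    rwa [Real.log_pow] at h3
  have hlL : (l : ℝ) ≤ 28 * L := by
    rw [hl]
    push_cast
    have h4 : (0 : ℝ) ≤ (Nat.log 2 K : ℕ) := Nat.cast_nonneg _
    nlinarith
  calc (40245 : ℝ) * l ≤ 40245 * (28 * L) := by gcongr
    _ = 1126860 * L := by ring

end Vale.Agent.P012
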