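import Mathlib

namespace Vale.Agent.P012

open Finset

/-- The number of pairs with equal image is the sum of the squared fibre sizes. -/
theorem sum_fiber_sq {R : Type*} [Fintype R] [DecidableEq R] {α : Type*} [Fintype α]
    (f : α → R) :
    ∑ u : R, ((univ.filter fun x : α => f x = u).card : ℝ) ^ 2
      = ((univ.filter fun p : α × α => f p.1 = f p.2).card : ℝ) := by
  classical
  have h1 : ∀ u : R, ((univ.filter fun x : α => f x = u).card : ℝ)
      = ∑ x : α, if f x = u then (1 : ℝ) else 0 := by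
    intro u
    rw [Finset.sum_ite]
    simp
  have h2 : ((univ.filter fun p : α × α => f p.1 = f p.2).card : ℝ)
      = ∑ p : α × α, if f p.1 = f p.2 then (1 : ℝ) else 0 := by
    rw [Finset.sum_ite]
    simp
  rw [h2, Fintype.sum_prod_type]
  simp_rw [h1, sq, Finset.sum_mul_sum]
  rw [Finset.sum_comm]
  refine Finset.sum_congr rfl fun x _ => ?_
  rw [Finset.sum_comm]
  refine Finset.sum_congr rfl fun y _ => ?_
  have : ∀ u : R, ((if f x = u then (1 : ℝ) else 0) * if f y = u then (1 : ℝ) else 0)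
      = if f x = u then (if f x = f y then (1 : ℝ) else 0) else 0 := by
    intro u
    by_cases h : f x = u
    · subst h
      by_cases h' : f x = f y
      · simp [h']
      · have h'' : ¬ f y = f x := fun e => h' e.symm
        simp [h', h'']
    · simp [h]
  simp_rw [this]
  simp

theorem sum_norm_sq {R : Type*} [CommRing R] [Fintype R] [DecidableEq R]
    (ψ : AddChar R ℂ) (hψ : ψ.IsPrimitive) (c : R) (hc : IsUnit c)
    {β : Type*} [Fintype β] (g : β → R) :
    ∑ u : R, ‖∑ y, ψ (c * u * g y)‖ ^ 2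
      = (Fintype.card R : ℝ) * ((univ.filter fun p : β × β => g p.1 = g p.2).card : ℝ) := by
  classical
  have key : (((∑ u : R, ‖∑ y, ψ (c * u * g y)‖ ^ 2 : ℝ)) : ℂ)
      = ((Fintype.card R : ℝ) * ((univ.filter fun p : β × β => g p.1 = g p.2).card : ℝ) : ℝ) := by
    push_cast
    have h1 : ∀ u : R, ((‖∑ y, ψ (c * u * g y)‖ : ℂ)) ^ 2
        = ∑ y : β, ∑ y' : β, ψ (u * (c * (g y - g y'))) := by
      intro u
      rw [← Complex.mul_conj', map_sum, Finset.sum_mul_sum]
      refine Finset.sum_congr rfl fun y _ => Finset.sum_congr rfl fun y' _ => ?_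
      rw [← AddChar.inv_apply_eq_conj, ← AddChar.map_neg_eq_inv, ← AddChar.map_add_eq_mul]
      congr 1
      ring
    simp_rw [h1]
    rw [Finset.sum_comm]
    simp_rw [Finset.sum_comm (s := (univ : Finset R))]
    simp_rw [AddChar.sum_mulShift _ hψ]
    have h2 : ∀ y y' : β, (c * (g y - g y') = 0) ↔ g y = g y' := by
      intro y y'
      rw [hc.mul_right_eq_zero, sub_eq_zero]
    simp_rw [h2]
    have h3 : ((univ.filter fun p : β × β => g p.1 = g p.2).card : ℂ)
        = ∑ p : β × β, if g p.1 = g p.2 then (1 : ℂ) else 0 := by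
      rw [Finset.sum_ite]
      simp
    rw [h3, Fintype.sum_prod_type, Finset.mul_sum]
    refine Finset.sum_congr rfl fun y _ => ?_
    rw [Finset.mul_sum]
    refine Finset.sum_congr rfl fun y' _ => ?_
    split_ifs <;> simp
  exact_mod_cast key

/-- The bilinear estimate. -/
theorem bilinear {R : Type*} [CommRing R] [Fintype R] [DecidableEq R]
    (ψ : AddChar R ℂ) (hψ : ψ.IsPrimitive) (c : R) (hc : IsUnit c)
    {α β : Type*} [Fintype α] [Fintype β] (f : α → R) (g : β → R) :
    ‖∑ x, ∑ y, ψ (c * f x * g y)‖ ^ 2 ≤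
      (Fintype.card R : ℝ) * ((univ.filter fun p : α × α => f p.1 = f p.2).card : ℝ)
        * ((univ.filter fun p : β × β => g p.1 = g p.2).card : ℝ) := by
  classical
  have h1 : ∑ x, ∑ y, ψ (c * f x * g y)
      = ∑ u : R, ((univ.filter fun x : α => f x = u).card : ℂ) * ∑ y, ψ (c * u * g y) := by
    rw [← Finset.sum_fiberwise_of_maps_to (s := univ) (t := univ) (g := f)
      (fun _ _ => Finset.mem_univ _)]
    refine Finset.sum_congr rfl fun u _ => ?_
    rw [← nsmul_eq_mul, ← Finset.sum_const]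
    refine Finset.sum_congr rfl fun x hx => ?_
    rw [Finset.mem_filter] at hx
    rw [hx.2]
  have h2 : ‖∑ x, ∑ y, ψ (c * f x * g y)‖
      ≤ ∑ u : R, ((univ.filter fun x : α => f x = u).card : ℝ) * ‖∑ y, ψ (c * u * g y)‖ := by
    rw [h1]
    refine (norm_sum_le _ _).trans (le_of_eq ?_)
    refine Finset.sum_congr rfl fun u _ => ?_
    rw [norm_mul]
    simp
  calc ‖∑ x, ∑ y, ψ (c * f x * g y)‖ ^ 2
      ≤ (∑ u : R, ((univ.filter fun x : α => f x = u).card : ℝ) * ‖∑ y, ψ (c * u * g y)‖) ^ 2 := by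
        gcongr
    _ ≤ (∑ u : R, ((univ.filter fun x : α => f x = u).card : ℝ) ^ 2)
          * ∑ u : R, ‖∑ y, ψ (c * u * g y)‖ ^ 2 := Finset.sum_mul_sq_le_sq_mul_sq _ _ _
    _ = _ := by
        rw [sum_fiber_sq, sum_norm_sq ψ hψ c hc]
        ring

end Vale.Agent.P012
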