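import Vale.Agent.P012.Digit

namespace Vale.Agent.P012

open Finset

/-- Every numerator below `2 ^ A` over `V` is a sum of at most `h` unit fractions. -/
def UP (V h A : ℕ) : Prop := ∀ m : ℕ, m < 2 ^ A → UF h ((m : ℚ) / V)

/-- The state of the construction. -/
def CS (N h Z A : ℕ) : Prop := ∃ V, N ∣ V ∧ 0 < V ∧ V ≤ 2 ^ Z ∧ UP V h A

/-- `N` admits digits for the parameter `t`. -/
def DG (N l t : ℕ) : Prop :=
  ∃ B : ℕ, 2 ^ (29 * l * t) ≤ B ∧ B ≤ 2 ^ (30 * l * t) ∧ ∀ m : ℕ, ∃ C : ℕ,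
      C ≤ 5 * 2 ^ (60 * l * t) ∧ (B : ℤ) ∣ (m : ℤ) - C ∧ UF 20 ((C : ℚ) / N)

theorem UF.binary (e : ℕ) : ∀ m : ℕ, m < 2 ^ e → UF e ((m : ℚ) / 2 ^ e) := by
  induction e with
  | zero =>
    intro m hm
    have : m = 0 := by simpa using hm
    rw [this]
    simpa using UF.zero 0
  | succ e ih =>
    intro m hm
    obtain ⟨x, y, hxy, hy, hx⟩ : ∃ x y, m = 2 * x + y ∧ y < 2 ∧ x < 2 ^ e := by
      refine ⟨m / 2, m % 2, (Nat.div_add_mod m 2).symm, Nat.mod_lt _ (by norm_num), ?_⟩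
      rw [pow_succ] at hm
      omega
    have h1 := ih x hx
    have h2 : UF 1 ((y : ℚ) / 2 ^ (e + 1)) := by
      have h0 : y = 0 ∨ y = 1 := by omega
      rcases h0 with h | h
      · rw [h]
        simpa using UF.zero 1
      · rw [h]
        have := UF.unit (n := 2 ^ (e + 1)) (by positivity)
        push_cast at this ⊢
        exact this
    have h3 : (m : ℚ) / 2 ^ (e + 1) = (x : ℚ) / 2 ^ e + (y : ℚ) / 2 ^ (e + 1) := by
      rw [hxy, pow_succ]
      push_cast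
      field_simp
    rw [h3]
    exact h1.add h2

theorem cs_base (N E Z0 : ℕ) (hN : 0 < N) (hN2 : N ≤ 2 ^ Z0) : CS N E (E + Z0) E := by
  refine ⟨2 ^ E * N, dvd_mul_left _ _, by positivity, ?_, ?_⟩
  · rw [pow_add]
    exact Nat.mul_le_mul_left _ hN2
  · intro m hm
    have h1 := (UF.binary E m hm).div hN
    have h2 : (m : ℚ) / ((2 ^ E * N : ℕ) : ℚ) = (m : ℚ) / 2 ^ E / N := by
      push_cast
      rw [div_div]
    rw [h2]
    exact h1

theorem cs_step {N h Z A l t : ℕ} (hN : 0 < N) (hS : CS N h Z A) (hD : DG N l t)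
    (hA : 60 * l * t + 3 ≤ A) : CS N (h + 20) (Z + 30 * l * t) (A + 29 * l * t) := by
  obtain ⟨V, hNV, hV, hVZ, hUP⟩ := hS
  obtain ⟨B, hB1, hB2, hC⟩ := hD
  have hBpos : 0 < B := lt_of_lt_of_le (by positivity) hB1
  refine ⟨V * B, dvd_mul_of_dvd_left hNV _, by positivity, ?_, ?_⟩
  · rw [pow_add]
    exact Nat.mul_le_mul hVZ hB2
  · intro m hm
    have hVq : (V : ℚ) ≠ 0 := by exact_mod_cast hV.ne'
    have hBq : (B : ℚ) ≠ 0 := by exact_mod_cast hBpos.ne'
    have hNq : (N : ℚ) ≠ 0 := by exact_mod_cast hN.ne'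
    by_cases hmA : m < 2 ^ A
    · have h1 := (hUP m hmA).div hBpos
      have h2 : (m : ℚ) / ((V * B : ℕ) : ℚ) = (m : ℚ) / V / B := by
        push_cast
        rw [div_div]
      rw [h2]
      exact h1.mono (by omega)
    · push Not at hmA
      obtain ⟨C, hC1, hC2, hC3⟩ := hC m
      have hCm : C ≤ m := by
        refine le_trans hC1 (le_trans ?_ hmA)
        calc 5 * 2 ^ (60 * l * t) ≤ 2 ^ 3 * 2 ^ (60 * l * t) :=
              Nat.mul_le_mul_right _ (by norm_num)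
          _ = 2 ^ (60 * l * t + 3) := by rw [pow_add]; ring
          _ ≤ 2 ^ A := Nat.pow_le_pow_right (by norm_num) hA
      have hdvd : B ∣ m - C := by
        have h1 : ((m - C : ℕ) : ℤ) = (m : ℤ) - C := by
          push_cast [hCm]
          ring
        rw [← h1] at hC2
        exact_mod_cast hC2
      obtain ⟨m', hm'⟩ := hdvd
      have hm2 : m = C + B * m' := by omega
      have hm'lt : m' < 2 ^ A := by
        have h1 : 2 ^ (29 * l * t) * m' < 2 ^ (29 * l * t) * 2 ^ A := by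
          calc 2 ^ (29 * l * t) * m' ≤ B * m' := Nat.mul_le_mul_right _ hB1
            _ ≤ m := by omega
            _ < 2 ^ (A + 29 * l * t) := hm
            _ = _ := by rw [pow_add]; ring
        exact Nat.lt_of_mul_lt_mul_left h1
      obtain ⟨w, hw⟩ := hNV
      have hwpos : 0 < w := by
        rcases Nat.eq_zero_or_pos w with h0 | h0
        · rw [h0, mul_zero] at hw
          omega
        · exact h0
      have hwq : (w : ℚ) ≠ 0 := by exact_mod_cast hwpos.ne'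
      have h1 := hUP m' hm'lt
      have h2 := hC3.div (w := w * B) (by positivity)
      have h3 : (m : ℚ) / ((V * B : ℕ) : ℚ)
          = (m' : ℚ) / V + (C : ℚ) / N / ((w * B : ℕ) : ℚ) := by
        rw [hm2, hw]
        push_cast
        field_simp
        ring
      rw [h3]
      exact h1.add h2

theorem cs_iter {N l t : ℕ} (hN : 0 < N) (hD : DG N l t) (n : ℕ) : ∀ h Z A, CS N h Z A →
    60 * l * t + 3 ≤ A → CS N (h + 20 * n) (Z + 30 * (l * t * n)) (A + 29 * (l * t * n)) := by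
  induction n with
  | zero => intro h Z A hS _; simpa using hS
  | succ n ih =>
    intro h Z A hS hA
    have h1 := ih (h + 20) (Z + 30 * l * t) (A + 29 * l * t) (cs_step hN hS hD hA) (by omega)
    have e1 : h + 20 + 20 * n = h + 20 * (n + 1) := by ring
    have e2 : Z + 30 * l * t + 30 * (l * t * n) = Z + 30 * (l * t * (n + 1)) := by ring
    have e3 : A + 29 * l * t + 29 * (l * t * n) = A + 29 * (l * t * (n + 1)) := by ring
    rw [e1, e2, e3] at h1
    exact h1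

/-- The doubling phase. -/
theorem cs_double {N l Z0 vmax : ℕ} (hN : 0 < N) (hN2 : N ≤ 2 ^ Z0)
    (hD : ∀ v < vmax, DG N l (2 ^ v)) (v : ℕ) (hv : v ≤ vmax) :
    ∃ Y, Y + 3 * l = 3 * l * 2 ^ v ∧
      CS N (60 * l + 3 + 60 * v) (60 * l + 3 + Z0 + 30 * Y) (60 * l + 3 + 29 * Y) := by
  induction v with
  | zero =>
    refine ⟨0, by simp, ?_⟩
    have := cs_base N (60 * l + 3) Z0 hN hN2
    simpa using this
  | succ v ih =>
    obtain ⟨Y, hY, hS⟩ := ih (by omega)
    have h1 := cs_iter hN (hD v (by omega)) 3 _ _ _ hS (by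
      have h2 : 60 * l * 2 ^ v = 20 * (3 * l * 2 ^ v) := by ring
      omega)
    refine ⟨Y + l * 2 ^ v * 3, ?_, ?_⟩
    · rw [pow_succ]
      have h2 : 3 * l * (2 ^ v * 2) = 3 * l * 2 ^ v + l * 2 ^ v * 3 := by ring
      omega
    · have e1 : 60 * l + 3 + 60 * v + 20 * 3 = 60 * l + 3 + 60 * (v + 1) := by ring
      have e2 : 60 * l + 3 + Z0 + 30 * Y + 30 * (l * 2 ^ v * 3)
          = 60 * l + 3 + Z0 + 30 * (Y + l * 2 ^ v * 3) := by ring
      have e3 : 60 * l + 3 + 29 * Y + 29 * (l * 2 ^ v * 3)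
          = 60 * l + 3 + 29 * (Y + l * 2 ^ v * 3) := by ring
      rw [e1, e2, e3] at h1
      exact h1

/-- The final construction. -/
theorem construct3 (l : ℕ) (hl : 25 ≤ l) :
    ∃ V h A Z : ℕ, 0 < V ∧ V ≤ 2 ^ Z ∧ UP V h A ∧ Z < A + A / 3 ∧ 128 * l * 2 ^ l ≤ A ∧
      A ≤ (2 ^ l) ^ 2 ∧ h ≤ 20121 * l := by
  classical
  obtain ⟨g, hg⟩ : ∃ g, 2 * g = 2 ^ l := by
    refine ⟨2 ^ (l - 1), ?_⟩
    rw [← pow_succ']
    congr 1
    omega
  obtain ⟨T, hT⟩ : ∃ T, T = 2 ^ l := ⟨_, rfl⟩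
  have hll : 2 * g = T := by rw [hT, hg]
  -- the core
  have hbig : 1000 * (l + 1) ≤ T := by
    rw [hT]
    clear hg hll hT
    induction l, hl using Nat.le_induction with
    | base => norm_num
    | succ n hn ih =>
      rw [pow_succ]
      omega
  obtain ⟨P, hPinj, hP⟩ := pools3 l 1 T (by omega) hT (by omega)
  have hcard : Fintype.card (Fin g ⊕ Fin g) ≤ Fintype.card (Fin 1 × Fin (T ^ 28)) := by
    rw [Fintype.card_prod, Fintype.card_sum, Fintype.card_fin, Fintype.card_fin,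
      Fintype.card_fin]
    have h1 : T ^ 1 ≤ T ^ 28 := Nat.pow_le_pow_right (by omega) (by norm_num)
    rw [pow_one] at h1
    omega
  obtain ⟨e⟩ := Function.Embedding.nonempty_of_card_le hcard
  obtain ⟨E, hEdef⟩ : ∃ E : Fin g ⊕ Fin g → ℕ, ∀ i, E i = P (e i) := ⟨fun i => P (e i), fun _ => rfl⟩
  have hEinj : Function.Injective E := by
    intro a b hab
    rw [hEdef, hEdef] at hab
    exact e.injective (hPinj hab)
  have hE : ∀ i, (E i).Prime ∧ E i ≤ T ^ 30 := by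
    intro i
    rw [hEdef]
    exact ⟨(hP _).1, (hP _).2.2⟩
  have hN : 0 < ∏ i, E i := Finset.prod_pos fun i _ => (hE i).1.pos
  have hN2 : ∏ i, E i ≤ 2 ^ (30 * (l * T)) := by
    calc ∏ i, E i ≤ (T ^ 30) ^ (univ : Finset (Fin g ⊕ Fin g)).card :=
          Finset.prod_le_pow_card _ _ _ (fun k _ => (hE _).2)
      _ = 2 ^ (30 * (l * T)) := by
          have : (univ : Finset (Fin g ⊕ Fin g)).card = T := by
            rw [Finset.card_univ, Fintype.card_sum, Fintype.card_fin]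
            omega
          rw [this, ← pow_mul]
          nth_rewrite 1 [hT]
          rw [← pow_mul]
          congr 1
          ring
  obtain ⟨N, hNdef⟩ : ∃ N, N = ∏ i, E i := ⟨_, rfl⟩
  rw [← hNdef] at hN hN2
  have hDG : ∀ v, 5 + 182 * (l * 2 ^ v) ≤ 4 * g → DG N l (2 ^ v) := by
    intro v hv
    have h1 := digit l (2 ^ v) T g (by omega) Nat.one_le_two_pow hT hll (by
      have : 91 * l * (2 ^ v + 2 ^ v) = 182 * (l * 2 ^ v) := by ring
      omega) E hEinj hE
    rw [← hNdef] at h1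
    exact h1
  -- the largest admissible exponent
  have hex : ∃ v, 4 * g < 5 + 182 * (l * 2 ^ (v + 1)) := by
    refine ⟨l, ?_⟩
    have h1 : l * 2 ^ (l + 1) = 2 * (l * T) := by rw [hT, pow_succ]; ring
    rw [h1]
    have h2 : 1 * T ≤ l * T := Nat.mul_le_mul_right _ (by omega)
    omega
  obtain ⟨v, hv⟩ : ∃ v, v = Nat.find hex := ⟨_, rfl⟩
  have hv1 : 4 * g < 5 + 182 * (l * 2 ^ (v + 1)) := by rw [hv]; exact Nat.find_spec hex
  have hv2 : ∀ w < v, 5 + 182 * (l * 2 ^ (w + 1)) ≤ 4 * g := by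
    intro w hw
    have := Nat.find_min hex (hv ▸ hw)
    omega
  have hv3 : ∀ w ≤ v, 5 + 182 * (l * 2 ^ w) ≤ 4 * g := by
    intro w hw
    rcases Nat.eq_zero_or_pos w with h0 | h0
    · rw [h0, pow_zero]
      omega
    · have := hv2 (w - 1) (by omega)
      rw [Nat.sub_add_cancel h0] at this
      exact this
  have hvl : v ≤ l := by
    by_contra hcon
    push Not at hcon
    have h1 := hv3 l hcon.le
    have h2 : 1 * 2 ^ l ≤ l * 2 ^ l := Nat.mul_le_mul_right _ (by omega)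
    rw [← hT] at h1 h2
    omega
  obtain ⟨Y, hY, hS⟩ := cs_double hN hN2 (fun w hw => hDG w (hv3 w hw.le)) v le_rfl
  have h60 : 60 * l * 2 ^ v = 60 * (l * 2 ^ v) := by ring
  have h3v : 3 * l * 2 ^ v = 3 * (l * 2 ^ v) := by ring
  have hS2 := cs_iter hN (hDG v (hv3 v le_rfl)) (1000 * l) _ _ _ hS (by omega)
  obtain ⟨V, _, hVpos, hVZ, hUP⟩ := hS2
  have hpv : l * 2 ^ (v + 1) = 2 * (l * 2 ^ v) := by rw [pow_succ]; ring
  have hv4 := hv3 v le_rfl
  -- sizes
  obtain ⟨x, hx⟩ : ∃ x, x = l * 2 ^ v := ⟨_, rfl⟩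
  rw [hpv, ← hx] at hv1
  rw [← hx] at hv4
  rw [h3v, ← hx] at hY
  have hlow : 158 * (l * T) ≤ 29 * (x * (1000 * l)) := by
    -- 364 x > 2 T - 5
    have h1 : 2 * T < 5 + 364 * x := by omega
    have h2 : 158 * T ≤ 29000 * x := by omega
    calc 158 * (l * T) = l * (158 * T) := by ring
      _ ≤ l * (29000 * x) := Nat.mul_le_mul_left _ h2
      _ = _ := by ring
  have hup : x * (1000 * l) ≤ 11 * (l * T) := by
    have h1 : 1000 * x ≤ 11 * T := by omega
    calc x * (1000 * l) = l * (1000 * x) := by ring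
      _ ≤ l * (11 * T) := Nat.mul_le_mul_left _ h1
      _ = _ := by ring
  have hlT : 1000 * (l + 1) ≤ l * T := by
    calc 1000 * (l + 1) ≤ T := hbig
      _ = 1 * T := (one_mul T).symm
      _ ≤ l * T := Nat.mul_le_mul_right _ (by omega)
  have hTT : 1000 * (l * T) ≤ T ^ 2 := by
    rw [sq]
    calc 1000 * (l * T) = (1000 * l) * T := by ring
      _ ≤ T * T := Nat.mul_le_mul_right _ (by omega)
  have hxT : x ≤ T := by omega
  have hTlT : 25 * T ≤ l * T := Nat.mul_le_mul_right _ hl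
  rw [← hx] at hVZ hUP
  obtain ⟨y, hy⟩ : ∃ y, y = x * (1000 * l) := ⟨_, rfl⟩
  rw [← hy] at hVZ hUP hlow hup
  obtain ⟨z, hz⟩ : ∃ z, z = l * T := ⟨_, rfl⟩
  have hz2 : 128 * l * 2 ^ l = 128 * z := by rw [hz, hT]; ring
  rw [← hz] at hVZ hlow hup hlT hTT hTlT
  refine ⟨V, _, _, _, hVpos, hVZ, hUP, ?_, ?_, ?_, ?_⟩
  · omega
  · rw [hz2]
    omega
  · rw [← hT]
    omega
  · omega

end Vale.Agent.P012
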