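import Vale.Agent.P012.Step

namespace Vale.Agent.P012

open Finset

/-- There are many primes up to `T ^ 30`. -/
theorem param_four' (T : ℕ) (hT : 15 ≤ T) (ht : 91 * (Nat.log 2 T + 1) ≤ T) :
    2 * T ^ 29 + T ^ 2 ≤ Nat.primeCounting (T ^ 30) := by
  set l := Nat.log 2 T with hl
  have h1 : T < 2 ^ (l + 1) := Nat.lt_pow_succ_log_self (by norm_num) T
  have hT' : (15 : ℝ) ≤ T := by exact_mod_cast hT
  have hT0 : (0 : ℝ) < T := by linarith
  have hlog2 : 0 < Real.log 2 := Real.log_pos (by norm_num)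
  have hlogT : Real.log T ≤ (l + 1) * Real.log 2 := by
    have : Real.log T ≤ Real.log ((2 : ℝ) ^ (l + 1)) := by
      apply Real.log_le_log hT0
      exact_mod_cast h1.le
    rw [Real.log_pow] at this
    push_cast at this
    exact this
  have hlogTpos : 0 < Real.log T := Real.log_pos (by linarith)
  have h2 := Chebyshev.pi_ge (T ^ 30)
  have hX1 : Real.log ((T ^ 30 : ℕ) : ℝ) = 30 * Real.log T := by
    push_cast
    rw [Real.log_pow]
    norm_num
  have hlX : 0 < Real.log ((T ^ 30 : ℕ) : ℝ) := by rw [hX1]; positivity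
  have hXge : (2 : ℝ) ≤ ((T ^ 30 : ℕ) : ℝ) := by
    have : 2 ≤ T ^ 30 := by
      calc 2 ≤ T := by omega
        _ = T ^ 1 := (pow_one T).symm
        _ ≤ T ^ 30 := Nat.pow_le_pow_right (by omega) (by norm_num)
    exact_mod_cast this
  have h3 : Real.log (((T ^ 30 : ℕ) : ℝ) + 1) ≤ 2 * Real.log ((T ^ 30 : ℕ) : ℝ) := by
    have h4 : ((T ^ 30 : ℕ) : ℝ) + 1 ≤ ((T ^ 30 : ℕ) : ℝ) ^ 2 := by nlinarith
    calc Real.log (((T ^ 30 : ℕ) : ℝ) + 1) ≤ Real.log (((T ^ 30 : ℕ) : ℝ) ^ 2) :=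
          Real.log_le_log (by linarith) h4
      _ = _ := by rw [Real.log_pow]; norm_num
  have h5 : (((T ^ 30 : ℕ) : ℝ) * Real.log 2) / Real.log ((T ^ 30 : ℕ) : ℝ) - 2
      ≤ (Nat.primeCounting (T ^ 30) : ℝ) := by
    refine le_trans ?_ h2
    rw [sub_div]
    have : Real.log (((T ^ 30 : ℕ) : ℝ) + 1) / Real.log ((T ^ 30 : ℕ) : ℝ) ≤ 2 := by
      rw [div_le_iff₀ hlX]
      exact h3
    linarith
  have h6 : 3 * (T : ℝ) ^ 29 ≤ (((T ^ 30 : ℕ) : ℝ) * Real.log 2)
      / Real.log ((T ^ 30 : ℕ) : ℝ) := by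
    rw [le_div_iff₀ hlX, hX1]
    push_cast
    have h7 : (91 : ℝ) * ((l : ℝ) + 1) ≤ T := by exact_mod_cast ht
    have h8 : 90 * Real.log T ≤ T * Real.log 2 := by
      calc 90 * Real.log T ≤ 90 * ((l + 1) * Real.log 2) := by gcongr
        _ ≤ (91 * ((l : ℝ) + 1)) * Real.log 2 := by nlinarith
        _ ≤ T * Real.log 2 := by gcongr
    calc 3 * (T : ℝ) ^ 29 * (30 * Real.log T) = (T : ℝ) ^ 29 * (90 * Real.log T) := by ring
      _ ≤ (T : ℝ) ^ 29 * (T * Real.log 2) := by gcongr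
      _ = _ := by ring
  have h9 : 2 * (T : ℝ) ^ 29 + (T : ℝ) ^ 2 ≤ (Nat.primeCounting (T ^ 30) : ℝ) := by
    have h10 : (T : ℝ) ^ 2 + 2 ≤ (T : ℝ) ^ 29 := by
      calc (T : ℝ) ^ 2 + 2 ≤ (T : ℝ) ^ 3 := by nlinarith [sq_nonneg (T : ℝ)]
        _ ≤ (T : ℝ) ^ 29 := pow_le_pow_right₀ (by linarith) (by norm_num)
    linarith
  exact_mod_cast h9

/-- Existence of the pools in the range `(T ^ 29, T ^ 30]`. -/
theorem pools2 (T t V : ℕ) (hT : 15 ≤ T) (htT : t < T) (h91 : 91 * (Nat.log 2 T + 1) ≤ T)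
    (hV0 : V ≠ 0) (hV : V ≤ 2 ^ (T ^ 2)) :
    ∃ P : Fin t × Fin (T ^ 28) → ℕ, Function.Injective P ∧
      ∀ x, (P x).Prime ∧ T ^ 29 < P x ∧ P x ≤ T ^ 30 ∧ ¬ P x ∣ V := by
  classical
  have h1 := param_four' T hT h91
  rw [← Nat.primesLE_card_eq_primeCounting] at h1
  set Q := Nat.primesLE (T ^ 30) \ (V.primeFactors ∪ Finset.range (T ^ 29 + 1)) with hQ
  have h2 : V.primeFactors.card ≤ T ^ 2 := by
    have : V.primeFactors.card < T ^ 2 + 1 := by
      apply card_primeFactors_lt V (T ^ 2 + 1) hV0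
      calc V ≤ 2 ^ (T ^ 2) := hV
        _ < 2 ^ (T ^ 2 + 1) := Nat.pow_lt_pow_right (by norm_num) (by omega)
    omega
  have h3 : T ^ 29 ≤ Q.card + 1 := by
    have h4 := Finset.le_card_sdiff (V.primeFactors ∪ Finset.range (T ^ 29 + 1))
      (Nat.primesLE (T ^ 30))
    rw [← hQ] at h4
    have h5 := Finset.card_union_le V.primeFactors (Finset.range (T ^ 29 + 1))
    rw [Finset.card_range] at h5
    omega
  have h4 : Fintype.card (Fin t × Fin (T ^ 28)) ≤ Fintype.card Q := by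
    rw [Fintype.card_prod, Fintype.card_fin, Fintype.card_fin, Fintype.card_coe]
    have h5 : (t + 1) * T ^ 28 ≤ T * T ^ 28 := Nat.mul_le_mul_right _ htT
    have h6 : T * T ^ 28 = T ^ 29 := by ring
    have h7 : 1 ≤ T ^ 28 := Nat.one_le_pow _ _ (by omega)
    have h8 : (t + 1) * T ^ 28 = t * T ^ 28 + T ^ 28 := by ring
    omega
  obtain ⟨e⟩ := Function.Embedding.nonempty_of_card_le h4
  refine ⟨fun x => (e x : ℕ), ?_, ?_⟩
  · intro x y hxy
    exact e.injective (Subtype.ext hxy)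
  · intro x
    have hx : (e x : ℕ) ∈ Nat.primesLE (T ^ 30) \ (V.primeFactors ∪ Finset.range (T ^ 29 + 1)) :=
      (e x).2
    rw [Finset.mem_sdiff, Nat.mem_primesLE, Finset.mem_union, not_or, Finset.mem_range] at hx
    have h5 : T ^ 29 < (e x : ℕ) := by omega
    refine ⟨hx.1.2, h5, hx.1.1, ?_⟩
    intro hdvd
    exact hx.2.1 (Nat.mem_primeFactors.mpr ⟨hx.1.2, hdvd, hV0⟩)

theorem param_A (l t e : ℕ) (hl : 1 ≤ l) (h : 5 + 91 * l * t ≤ 4 * e) :
    32 * (1 + (((2 ^ l : ℕ) : ℝ) ^ 30) ^ 3) ^ t ≤ ((2 : ℝ) ^ e) ^ 4 := by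
  have h2 : 1 + ((2 ^ l) ^ 30) ^ 3 ≤ 2 ^ (91 * l) := by
    have h3 : ((2 ^ l) ^ 30) ^ 3 = 2 ^ (90 * l) := by
      rw [← pow_mul, ← pow_mul]
      congr 1
      ring
    have h4 : 1 ≤ 2 ^ (90 * l) := Nat.one_le_two_pow
    rw [h3]
    calc 1 + 2 ^ (90 * l) ≤ 2 ^ (90 * l) + 2 ^ (90 * l) := by omega
      _ = 2 ^ (90 * l + 1) := by rw [pow_succ]; ring
      _ ≤ 2 ^ (91 * l) := Nat.pow_le_pow_right (by norm_num) (by omega)
  have h5 : 32 * (1 + ((2 ^ l) ^ 30) ^ 3) ^ t ≤ (2 ^ e) ^ 4 := by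
    calc 32 * (1 + ((2 ^ l) ^ 30) ^ 3) ^ t ≤ 32 * (2 ^ (91 * l)) ^ t := by gcongr
      _ = 2 ^ (5 + 91 * l * t) := by rw [pow_add, ← pow_mul]; norm_num
      _ ≤ 2 ^ (e * 4) := by
          apply Nat.pow_le_pow_right (by norm_num)
          omega
      _ = _ := by rw [pow_mul]
  exact_mod_cast h5

/-- The core with divisors of controlled size. -/
theorem core2 (l u s t Nc V : ℕ) (hl : 10 ≤ l) (hpar : 5 + 91 * l * t ≤ 4 * (u * s))
    (htT : t < 2 ^ l) (hV0 : V ≠ 0) (hV : V ≤ 2 ^ ((2 ^ l) ^ 2)) (hNc : Nc ∣ V)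
    (hω : 2 * (s * 2 ^ u) + 4 ≤ Nc.primeFactors.card)
    (hNcX : ∀ p ∈ Nc.primeFactors, p ≤ (2 ^ l) ^ 30) :
    ∃ r : Fin t → ℕ, Function.Injective r ∧
      (∀ i, (r i).Prime ∧ (2 ^ l) ^ 29 < r i ∧ r i ≤ (2 ^ l) ^ 30 ∧ ¬ r i ∣ V) ∧
      ∀ m : ℕ, ∃ S : Finset ℕ, S ⊆ Nc.divisors ∧ S.card ≤ 4 ∧
        ∑ d ∈ S, d ≤ 4 * ((2 ^ l) ^ 30) ^ (2 * s + 1) ∧
        ∀ i, ((∑ d ∈ S, d : ℕ) : ZMod (r i)) = (m : ZMod (r i)) := by
  classical
  have hNc0 : Nc ≠ 0 := by
    rintro rfl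
    exact hV0 (zero_dvd_iff.mp hNc)
  have hNcpos : 0 < Nc := Nat.pos_of_ne_zero hNc0
  have hVpos : 0 < V := Nat.pos_of_ne_zero hV0
  set T := 2 ^ l with hTdef
  have hT1024 : 1024 ≤ T := by
    calc 1024 = 2 ^ 10 := by norm_num
      _ ≤ 2 ^ l := Nat.pow_le_pow_right (by norm_num) hl
  have hT : 15 ≤ T := by omega
  have hlogT : Nat.log 2 T = l := by
    rw [hTdef]
    exact Nat.log_pow (by norm_num) l
  have h91 : 91 * (Nat.log 2 T + 1) ≤ T := by
    rw [hlogT, hTdef]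
    clear_value T
    clear hlogT hT hT1024 hTdef htT hV hNcX
    induction l, hl using Nat.le_induction with
    | base => norm_num
    | succ n hn ih =>
      have h0 : 91 * (n + 1) ≤ 2 ^ n := by
        clear ih hpar
        induction n, hn using Nat.le_induction with
        | base => norm_num
        | succ k hk ihk =>
          rw [pow_succ]
          omega
      rw [pow_succ]
      omega
  obtain ⟨P, hPinj, hP⟩ := pools2 T t V hT htT h91 hV0 hV
  have hcard : Fintype.card (((Fin s × Fin (2 ^ u)) ⊕ (Fin s × Fin (2 ^ u))) ⊕ Fin 4)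
      ≤ Fintype.card Nc.primeFactors := by
    rw [Fintype.card_coe, Fintype.card_sum, Fintype.card_sum, Fintype.card_prod,
      Fintype.card_fin, Fintype.card_fin, Fintype.card_fin]
    omega
  obtain ⟨e⟩ := Function.Embedding.nonempty_of_card_le hcard
  let E : ((Fin s × Fin (2 ^ u)) ⊕ (Fin s × Fin (2 ^ u))) ⊕ Fin 4 → ℕ := fun k => (e k : ℕ)
  have hEinj : Function.Injective E := fun a b hab => e.injective (Subtype.ext hab)
  have hEmem : ∀ k, E k ∈ Nc.primeFactors := fun k => (e k).2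
  have hEp : ∀ k, (E k).Prime := fun k => Nat.prime_of_mem_primeFactors (hEmem k)
  have hEX : ∀ k, E k ≤ T ^ 30 := fun k => hNcX _ (hEmem k)
  let EA : Fin s × Fin (2 ^ u) → ℕ := fun i => E (Sum.inl (Sum.inl i))
  let EB : Fin s × Fin (2 ^ u) → ℕ := fun i => E (Sum.inl (Sum.inr i))
  let q : Fin 4 → ℕ := fun i => E (Sum.inr i)
  have hEAinj : Function.Injective EA := fun a b hab =>
    Sum.inl_injective (Sum.inl_injective (hEinj hab))
  have hEBinj : Function.Injective EB := fun a b hab =>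
    Sum.inr_injective (Sum.inl_injective (hEinj hab))
  have hEAp : ∀ i, (EA i).Prime := fun i => hEp _
  have hEBp : ∀ i, (EB i).Prime := fun i => hEp _
  let graph : (Fin s → Fin (2 ^ u)) → Finset (Fin s × Fin (2 ^ u)) :=
    fun x => univ.image fun i => (i, x i)
  have hgraph : Function.Injective graph := by
    intro x y hxy
    funext i
    have h1 : (i, x i) ∈ graph y := by
      rw [← hxy]
      exact Finset.mem_image.mpr ⟨i, Finset.mem_univ _, rfl⟩
    obtain ⟨j, _, hj⟩ := Finset.mem_image.mp h1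
    have h2 : j = i := (Prod.mk.inj hj).1
    have h3 : y j = x i := (Prod.mk.inj hj).2
    rw [h2] at h3
    exact h3.symm
  let f : (Fin s → Fin (2 ^ u)) → ℕ := fun x => ∏ k ∈ graph x, EA k
  let h : (Fin s → Fin (2 ^ u)) → ℕ := fun x => ∏ k ∈ graph x, EB k
  have hfinj : Function.Injective f := (prod_injective EA hEAinj hEAp).comp hgraph
  have hhinj : Function.Injective h := (prod_injective EB hEBinj hEBp).comp hgraph
  have hfdvd : ∀ x, f x ∣ Nc := fun x => prod_dvd EA hEAinj Nc (fun k => hEmem _) _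
  have hhdvd : ∀ x, h x ∣ Nc := fun x => prod_dvd EB hEBinj Nc (fun k => hEmem _) _
  have hgcard : ∀ x, (graph x).card ≤ s := by
    intro x
    exact Finset.card_image_le.trans (by simp)
  have hT30 : 1 ≤ T ^ 30 := Nat.one_le_pow _ _ (by omega)
  have hfle : ∀ x, f x ≤ (T ^ 30) ^ s := by
    intro x
    calc f x ≤ (T ^ 30) ^ (graph x).card :=
          Finset.prod_le_pow_card _ _ _ (fun k _ => hEX _)
      _ ≤ (T ^ 30) ^ s := Nat.pow_le_pow_right hT30 (hgcard x)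
  have hhle : ∀ x, h x ≤ (T ^ 30) ^ s := by
    intro x
    calc h x ≤ (T ^ 30) ^ (graph x).card :=
          Finset.prod_le_pow_card _ _ _ (fun k _ => hEX _)
      _ ≤ (T ^ 30) ^ s := Nat.pow_le_pow_right hT30 (hgcard x)
  -- selection
  let φ : Bool → (Fin s → Fin (2 ^ u)) → ℕ := fun b => if b then f else h
  have hφinj : ∀ b, Function.Injective (φ b) := by
    intro b
    cases b
    · exact hhinj
    · exact hfinj
  have hφdvd : ∀ b x, φ b x ∣ Nc := by
    intro b x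
    cases b
    · exact hhdvd x
    · exact hfdvd x
  let D : Fin t → Fin (T ^ 28) →
      (Bool × ((Fin s → Fin (2 ^ u)) × (Fin s → Fin (2 ^ u)))) → Prop :=
    fun i j z => z.2.1 ≠ z.2.2 ∧ (P (i, j) : ℤ) ∣ (φ z.1 z.2.1 : ℤ) - (φ z.1 z.2.2 : ℤ)
  have hNcV : Nc ≤ V := Nat.le_of_dvd hVpos hNc
  have hD : ∀ i z, (univ.filter fun j => D i j z).card ≤ T ^ 2 := by
    intro i z
    by_cases hz : z.2.1 = z.2.2
    · have : (univ.filter fun j => D i j z) = ∅ := by
        apply Finset.filter_eq_empty_iff.mpr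
        intro j _ hj
        exact hj.1 hz
      rw [this]
      simp
    · have hδ : (φ z.1 z.2.1 : ℤ) - (φ z.1 z.2.2 : ℤ) ≠ 0 := by
        intro h0
        apply hz
        apply hφinj z.1
        exact_mod_cast sub_eq_zero.mp h0
      have hδ2 : ((φ z.1 z.2.1 : ℤ) - (φ z.1 z.2.2 : ℤ)).natAbs < 2 ^ (T ^ 2) := by
        have h1 : φ z.1 z.2.1 ≤ Nc := Nat.le_of_dvd hNcpos (hφdvd _ _)
        have h2 : φ z.1 z.2.2 ≤ Nc := Nat.le_of_dvd hNcpos (hφdvd _ _)
        have h3 : 0 < φ z.1 z.2.1 := Nat.pos_of_dvd_of_pos (hφdvd _ _) hNcpos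
        have h4 : 0 < φ z.1 z.2.2 := Nat.pos_of_dvd_of_pos (hφdvd _ _) hNcpos
        omega
      have h5 := card_dvd_le (fun j => P (i, j)) (fun a b hab => (Prod.mk.inj (hPinj hab)).2)
        (fun j => (hP (i, j)).1) _ hδ _ hδ2
      refine le_trans (Finset.card_le_card ?_) h5
      intro j hj
      rw [Finset.mem_filter] at hj ⊢
      exact ⟨hj.1, hj.2.2⟩
  have hM : 0 < T ^ 28 := by positivity
  obtain ⟨σ, hσ⟩ := selection (t := t) (M := T ^ 28) hM D (T ^ 2) hD ((T : ℝ) ^ 24)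
    (by positivity) (param_three T t hT htT.le)
  have hcardα : (Fintype.card (Fin s → Fin (2 ^ u)) : ℝ) = (2 : ℝ) ^ (u * s) := by
    rw [Fintype.card_fun, Fintype.card_fin, Fintype.card_fin]
    push_cast
    rw [← pow_mul]
  have hcardΔ : (Fintype.card
      (Bool × ((Fin s → Fin (2 ^ u)) × (Fin s → Fin (2 ^ u)))) : ℝ)
      = 2 * ((2 : ℝ) ^ (u * s)) ^ 2 := by
    rw [Fintype.card_prod, Fintype.card_prod, Fintype.card_bool]
    push_cast
    rw [hcardα]
    ring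
  refine ⟨fun i => P (i, σ i), ?_, fun i => hP (i, σ i), ?_⟩
  · intro a b hab
    exact (Prod.mk.inj (hPinj hab)).1
  intro m
  have hTpos : (0 : ℝ) < (T : ℝ) ^ 24 := by positivity
  have hK : ∀ b : Bool, ∀ J : Finset (Fin t), J.Nonempty →
      ((univ.filter fun p : (Fin s → Fin (2 ^ u)) × (Fin s → Fin (2 ^ u)) =>
        ∀ i ∈ J, (φ b p.1 : ZMod (P (i, σ i))) = (φ b p.2 : ZMod (P (i, σ i)))).card : ℝ)
      ≤ 2 ^ (u * s) + 2 * ((2 : ℝ) ^ (u * s)) ^ 2 / ((T : ℝ) ^ 24) ^ J.card := by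
    intro b J hJ
    have h1 : (univ.filter fun p : (Fin s → Fin (2 ^ u)) × (Fin s → Fin (2 ^ u)) =>
        ∀ i ∈ J, (φ b p.1 : ZMod (P (i, σ i))) = (φ b p.2 : ZMod (P (i, σ i))))
        ⊆ (univ.image fun x : Fin s → Fin (2 ^ u) => (x, x)) ∪
          ((univ.filter fun z => ∀ i ∈ J, D i (σ i) z).image fun z => z.2) := by
      intro p hp
      rw [Finset.mem_filter] at hp
      rw [Finset.mem_union]
      by_cases hpe : p.1 = p.2
      · left
        rw [Finset.mem_image]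
        exact ⟨p.1, Finset.mem_univ _, Prod.ext rfl hpe⟩
      · right
        rw [Finset.mem_image]
        refine ⟨(b, p), ?_, rfl⟩
        rw [Finset.mem_filter]
        refine ⟨Finset.mem_univ _, fun i hi => ⟨hpe, ?_⟩⟩
        have h2 := hp.2 i hi
        have h3 : (((φ b p.1 : ℤ) - (φ b p.2 : ℤ) : ℤ) : ZMod (P (i, σ i))) = 0 := by
          push_cast
          rw [h2, sub_self]
        exact (ZMod.intCast_zmod_eq_zero_iff_dvd _ _).mp h3
    have h4 : ((univ.filter fun p : (Fin s → Fin (2 ^ u)) × (Fin s → Fin (2 ^ u)) =>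
        ∀ i ∈ J, (φ b p.1 : ZMod (P (i, σ i))) = (φ b p.2 : ZMod (P (i, σ i)))).card : ℝ)
        ≤ 2 ^ (u * s) + ((univ.filter fun z => ∀ i ∈ J, D i (σ i) z).card : ℝ) := by
      have h5 := (Finset.card_le_card h1).trans (Finset.card_union_le _ _)
      have h6 : (univ.image fun x : Fin s → Fin (2 ^ u) => (x, x)).card
          ≤ Fintype.card (Fin s → Fin (2 ^ u)) := Finset.card_image_le.trans (by simp)
      have h7 : ((univ.filter fun z => ∀ i ∈ J, D i (σ i) z).image fun z => z.2).card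
          ≤ (univ.filter fun z => ∀ i ∈ J, D i (σ i) z).card := Finset.card_image_le
      have h8 := h5.trans (add_le_add h6 h7)
      rw [← hcardα]
      exact_mod_cast h8
    have h5 : ((univ.filter fun z => ∀ i ∈ J, D i (σ i) z).card : ℝ)
        ≤ 2 * ((2 : ℝ) ^ (u * s)) ^ 2 / ((T : ℝ) ^ 24) ^ J.card := by
      rw [le_div_iff₀ (by positivity), mul_comm, ← hcardΔ]
      exact hσ J hJ
    linarith
  have hq : ∀ k i, ¬ P (i, σ i) ∣ q k := by
    intro k i hdvd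
    apply (hP (i, σ i)).2.2.2
    exact hdvd.trans ((Nat.dvd_of_mem_primeFactors (hEmem _)).trans hNc)
  have herr := error_bound t (fun i => P (i, σ i)) ((T : ℝ) ^ 30) ((2 : ℝ) ^ (u * s))
    ((T : ℝ) ^ 24) (one_le_pow₀ (by norm_num)) hTpos (by positivity)
    (fun i => by exact_mod_cast (hP (i, σ i)).2.2.1)
    (param_A l t (u * s) (by omega) hpar) (param_two T t hT htT.le)
  rw [← hcardα] at herr
  have hKf : ∀ J : Finset (Fin t), J.Nonempty →
      ((univ.filter fun p : (Fin s → Fin (2 ^ u)) × (Fin s → Fin (2 ^ u)) =>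
        ∀ i ∈ J, (f p.1 : ZMod (P (i, σ i))) = (f p.2 : ZMod (P (i, σ i)))).card : ℝ)
      ≤ 2 ^ (u * s) + 2 * ((2 : ℝ) ^ (u * s)) ^ 2 / ((T : ℝ) ^ 24) ^ J.card := by
    intro J hJ
    exact card_filter_le_of_iff _ _ _ _ (fun _ => by simp [φ]) _ (hK true J hJ)
  have hKh : ∀ J : Finset (Fin t), J.Nonempty →
      ((univ.filter fun p : (Fin s → Fin (2 ^ u)) × (Fin s → Fin (2 ^ u)) =>
        ∀ i ∈ J, (h p.1 : ZMod (P (i, σ i))) = (h p.2 : ZMod (P (i, σ i)))).card : ℝ)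
      ≤ 2 ^ (u * s) + 2 * ((2 : ℝ) ^ (u * s)) ^ 2 / ((T : ℝ) ^ 24) ^ J.card := by
    intro J hJ
    exact card_filter_le_of_iff _ _ _ _ (fun _ => by simp [φ]) _ (hK false J hJ)
  obtain ⟨p, hp⟩ := covering (fun i => P (i, σ i)) (fun i => (hP (i, σ i)).1) f h q hq
    (fun J => (Fintype.card (Fin s → Fin (2 ^ u)) : ℝ)
      + 2 * (Fintype.card (Fin s → Fin (2 ^ u)) : ℝ) ^ 2 / ((T : ℝ) ^ 24) ^ J.card)
    (fun J hJ => by
      rw [hcardα]
      exact card_filter_le_of_iff _ _ _ _ (fun _ => Iff.rfl) _ (hKf J hJ))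
    (fun J hJ => by
      rw [hcardα]
      exact card_filter_le_of_iff _ _ _ _ (fun _ => Iff.rfl) _ (hKh J hJ))
    herr m
  -- assemble the divisors
  let d : Fin 4 → ℕ := fun k => q k * f (p k).1 * h (p k).2
  have hddvd : ∀ k, d k ∣ Nc := by
    intro k
    have h1 := prod_dvd E hEinj Nc hEmem
      (((graph (p k).1).disjSum (graph (p k).2)).disjSum {k})
    rw [Finset.prod_disjSum, Finset.prod_disjSum, Finset.prod_singleton] at h1
    have h2 : d k = (f (p k).1 * h (p k).2) * q k := by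
      simp only [d]; ring
    rw [h2]
    exact h1
  have hdle : ∀ k, d k ≤ (T ^ 30) ^ (2 * s + 1) := by
    intro k
    calc d k = q k * f (p k).1 * h (p k).2 := rfl
      _ ≤ T ^ 30 * (T ^ 30) ^ s * (T ^ 30) ^ s :=
          Nat.mul_le_mul (Nat.mul_le_mul (hEX _) (hfle _)) (hhle _)
      _ = (T ^ 30) ^ (2 * s + 1) := by
          rw [pow_succ, two_mul, pow_add]
          ring
  have hdinj : Function.Injective d := by
    intro k j hkj
    have h1 : q k ∣ d j := by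
      rw [← hkj]
      exact ⟨f (p k).1 * h (p k).2, by simp only [d]; ring⟩
    simp only [d] at h1
    rw [(hEp _).dvd_mul, (hEp _).dvd_mul] at h1
    rcases h1 with (h1 | h1) | h1
    · have := (Nat.prime_dvd_prime_iff_eq (hEp _) (hEp _)).mp h1
      exact Sum.inr_injective (hEinj this)
    · exfalso
      have h1' : q k ∣ ∏ i ∈ graph (p j).1, EA i := h1
      rw [Prime.dvd_finsetProd_iff (hEp _).prime] at h1'
      obtain ⟨i, _, hi⟩ := h1'
      have := hEinj ((Nat.prime_dvd_prime_iff_eq (hEp _) (hEp _)).mp hi)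
      exact Sum.inr_ne_inl this
    · exfalso
      have h1' : q k ∣ ∏ i ∈ graph (p j).2, EB i := h1
      rw [Prime.dvd_finsetProd_iff (hEp _).prime] at h1'
      obtain ⟨i, _, hi⟩ := h1'
      have := hEinj ((Nat.prime_dvd_prime_iff_eq (hEp _) (hEp _)).mp hi)
      exact Sum.inr_ne_inl this
  have hsumd : ∑ x ∈ univ.image d, x = ∑ k, d k := by
    rw [Finset.sum_image]
    intro a _ b _ hab
    exact hdinj hab
  refine ⟨univ.image d, ?_, ?_, ?_, ?_⟩
  · intro x hx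
    obtain ⟨k, _, rfl⟩ := Finset.mem_image.mp hx
    exact Nat.mem_divisors.mpr ⟨hddvd k, hNc0⟩
  · exact Finset.card_image_le.trans (by simp)
  · rw [hsumd, Fin.sum_univ_four]
    have h0 := hdle 0
    have h1 := hdle 1
    have h2 := hdle 2
    have h3 := hdle 3
    omega
  · intro i
    rw [hsumd]
    exact hp i

end Vale.Agent.P012
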