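import Vale.Agent.P012.Bilinear

namespace Vale.Agent.P012

open Finset

/-- The product of the standard characters. -/
noncomputable def prodChar {ι : Type*} [Fintype ι] (r : ι → ℕ) [∀ i, NeZero (r i)] :
    AddChar (∀ i, ZMod (r i)) ℂ where
  toFun z := ∏ i, ZMod.stdAddChar (z i)
  map_zero_eq_one' := by simp
  map_add_eq_mul' := by
    intro x y
    simp [AddChar.map_add_eq_mul, Finset.prod_mul_distrib]

theorem prodChar_apply {ι : Type*} [Fintype ι] (r : ι → ℕ) [∀ i, NeZero (r i)]
    (z : ∀ i, ZMod (r i)) : prodChar r z = ∏ i, ZMod.stdAddChar (z i) := rfl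

theorem prodChar_primitive {ι : Type*} [Fintype ι] [DecidableEq ι] (r : ι → ℕ)
    [∀ i, NeZero (r i)] : (prodChar r).IsPrimitive := by
  intro a ha
  obtain ⟨i, hi⟩ := Function.ne_iff.mp ha
  have h := ZMod.isPrimitive_stdAddChar (r i) hi
  rw [AddChar.ne_one_iff] at h ⊢
  obtain ⟨x, hx⟩ := h
  refine ⟨Pi.single i x, ?_⟩
  rw [AddChar.mulShift_apply] at hx ⊢
  rw [prodChar_apply, Finset.prod_eq_single i]
  · simpa using hx
  · intro j _ hj
    simp [Pi.single_eq_of_ne hj]
  · intro h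
    exact absurd (Finset.mem_univ i) h

section

variable {ι : Type*} [Fintype ι] [DecidableEq ι] (r : ι → ℕ) (hr : ∀ i, (r i).Prime)

/-- Reduction to the support. -/
theorem prodChar_restrict [∀ i, NeZero (r i)] (a z : ∀ i, ZMod (r i)) (J : Finset ι)
    (hJ : ∀ i, i ∉ J → a i = 0) :
    prodChar r (a * z) = prodChar (fun i : J => r i) (fun i : J => a i * z i) := by
  rw [prodChar_apply, prodChar_apply]
  have h1 : ∏ i, ZMod.stdAddChar ((a * z) i) = ∏ i ∈ J, ZMod.stdAddChar ((a * z) i) := by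
    symm
    apply Finset.prod_subset (Finset.subset_univ J)
    intro i _ hi
    simp [hJ i hi]
  rw [h1]
  exact (Finset.prod_coe_sort J fun i => ZMod.stdAddChar ((a * z) i)).symm

theorem card_support_le [∀ i, NeZero (r i)] (J : Finset ι) :
    (univ.filter fun a : ∀ i, ZMod (r i) => (univ.filter fun i => a i ≠ 0) = J).card
      ≤ ∏ i ∈ J, r i := by
  classical
  have h1 : Fintype.card (∀ i : J, ZMod (r i)) = ∏ i ∈ J, r i := by
    rw [Fintype.card_pi]
    simp only [ZMod.card]
    exact Finset.prod_coe_sort J fun i => r i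
  rw [← h1, ← Finset.card_univ]
  apply Finset.card_le_card_of_injOn (fun a => fun i : J => a i)
  · intro a _
    exact Finset.mem_univ _
  · intro a ha b hb hab
    have ha' := (Finset.mem_filter.mp (Finset.mem_coe.mp ha)).2
    have hb' := (Finset.mem_filter.mp (Finset.mem_coe.mp hb)).2
    funext i
    by_cases hi : i ∈ J
    · exact congrFun hab ⟨i, hi⟩
    · have h2 : a i = 0 := by
        by_contra h
        exact hi (ha' ▸ Finset.mem_filter.mpr ⟨Finset.mem_univ i, h⟩)
      have h3 : b i = 0 := by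
        by_contra h
        exact hi (hb' ▸ Finset.mem_filter.mpr ⟨Finset.mem_univ i, h⟩)
      rw [h2, h3]

include hr in
theorem bilinear_bound [∀ i, NeZero (r i)] {α : Type*} [Fintype α] (f g : α → ℕ) (q : ℕ)
    (hq : ∀ i, ¬ r i ∣ q) (K : ℝ) (a : ∀ i, ZMod (r i)) (J : Finset ι)
    (hJ : (univ.filter fun i => a i ≠ 0) = J)
    (hf : ((univ.filter fun p : α × α =>
      ∀ i ∈ J, (f p.1 : ZMod (r i)) = (f p.2 : ZMod (r i))).card : ℝ) ≤ K)
    (hg : ((univ.filter fun p : α × α =>
      ∀ i ∈ J, (g p.1 : ZMod (r i)) = (g p.2 : ZMod (r i))).card : ℝ) ≤ K) :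
    ‖∑ x : α, ∑ y : α, prodChar r (a * ((q : ∀ i, ZMod (r i)) * f x * g y))‖ ^ 2
      ≤ ((∏ i ∈ J, r i : ℕ) : ℝ) * K ^ 2 := by
  classical
  have hK : 0 ≤ K := le_trans (Nat.cast_nonneg _) hf
  have ha0 : ∀ i, i ∉ J → a i = 0 := by
    intro i hi
    by_contra h
    exact hi (hJ ▸ Finset.mem_filter.mpr ⟨Finset.mem_univ i, h⟩)
  have ha1 : ∀ i, i ∈ J → a i ≠ 0 := by
    intro i hi
    rw [← hJ] at hi
    exact (Finset.mem_filter.mp hi).2
  have h1 : ∀ x y : α, prodChar r (a * ((q : ∀ i, ZMod (r i)) * f x * g y))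
      = prodChar (fun i : J => r i)
        ((fun i : J => a i * (q : ZMod (r i))) * (fun i : J => (f x : ZMod (r i)))
          * (fun i : J => (g y : ZMod (r i)))) := by
    intro x y
    rw [prodChar_restrict r a _ J ha0]
    congr 1
    funext i
    simp only [Pi.mul_apply, Pi.natCast_apply]
    ring
  simp_rw [h1]
  have hunit : IsUnit (fun i : J => a i * (q : ZMod (r i))) := by
    rw [Pi.isUnit_iff]
    intro i
    have : Fact (r i).Prime := ⟨hr i⟩
    rw [isUnit_iff_ne_zero]
    apply mul_ne_zero (ha1 i i.2)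
    intro h
    exact hq i ((ZMod.natCast_eq_zero_iff _ _).mp h)
  have h2 := bilinear (prodChar (fun i : J => r i)) (prodChar_primitive (fun i : J => r i))
    (fun i : J => a i * (q : ZMod (r i))) hunit
    (fun x : α => fun i : J => (f x : ZMod (r i))) (fun y : α => fun i : J => (g y : ZMod (r i)))
  have hcard : Fintype.card (∀ i : J, ZMod (r i)) = ∏ i ∈ J, r i := by
    rw [Fintype.card_pi]
    simp only [ZMod.card]
    exact Finset.prod_coe_sort J fun i => r i
  have hf' : ((univ.filter fun p : α × α =>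
      (fun i : J => (f p.1 : ZMod (r i))) = fun i : J => (f p.2 : ZMod (r i))).card : ℝ) ≤ K := by
    refine le_trans (le_of_eq ?_) hf
    congr 2
    apply Finset.filter_congr
    intro p _
    constructor
    · intro h i hi
      exact congrFun h ⟨i, hi⟩
    · intro h
      funext i
      exact h i i.2
  have hg' : ((univ.filter fun p : α × α =>
      (fun i : J => (g p.1 : ZMod (r i))) = fun i : J => (g p.2 : ZMod (r i))).card : ℝ) ≤ K := by
    refine le_trans (le_of_eq ?_) hg
    congr 2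
    apply Finset.filter_congr
    intro p _
    constructor
    · intro h i hi
      exact congrFun h ⟨i, hi⟩
    · intro h
      funext i
      exact h i i.2
  rw [hcard] at h2
  refine h2.trans ?_
  rw [sq, ← mul_assoc]
  gcongr

end

/-- Covering all residue classes by sums of four products. -/
theorem covering {ι : Type*} [Fintype ι] [DecidableEq ι] (r : ι → ℕ) (hr : ∀ i, (r i).Prime)
    {α : Type*} [Fintype α] (f g : α → ℕ) (q : Fin 4 → ℕ) (hq : ∀ k i, ¬ r i ∣ q k)
    (K : Finset ι → ℝ)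
    (hf : ∀ J : Finset ι, J.Nonempty → ((univ.filter fun p : α × α =>
      ∀ i ∈ J, (f p.1 : ZMod (r i)) = (f p.2 : ZMod (r i))).card : ℝ) ≤ K J)
    (hg : ∀ J : Finset ι, J.Nonempty → ((univ.filter fun p : α × α =>
      ∀ i ∈ J, (g p.1 : ZMod (r i)) = (g p.2 : ZMod (r i))).card : ℝ) ≤ K J)
    (hK : ∑ J ∈ univ.filter (fun J : Finset ι => J.Nonempty),
      ((∏ i ∈ J, r i : ℕ) : ℝ) ^ 3 * K J ^ 4 < (Fintype.card α : ℝ) ^ 8)
    (m : ℕ) :
    ∃ p : Fin 4 → α × α, ∀ i,
      ((∑ k, q k * f (p k).1 * g (p k).2 : ℕ) : ZMod (r i)) = (m : ZMod (r i)) := by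
  classical
  have : ∀ i, NeZero (r i) := fun i => ⟨(hr i).ne_zero⟩
  by_contra hcon
  push Not at hcon
  set R := ∀ i, ZMod (r i) with hR
  set ψ := prodChar r with hψ
  have hprim : ψ.IsPrimitive := prodChar_primitive r
  -- the values
  let v : (Fin 4 → α × α) → R := fun p =>
    (∑ k, ((q k : R) * (f (p k).1 : R) * (g (p k).2 : R))) - (m : R)
  have hv : ∀ p, v p ≠ 0 := by
    intro p hp
    obtain ⟨i, hi⟩ := hcon p
    apply hi
    have h1 := congrFun hp i
    simp only [v, Pi.sub_apply, Finset.sum_apply, Pi.mul_apply, Pi.natCast_apply,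
      Pi.zero_apply] at h1
    push_cast
    exact sub_eq_zero.mp h1
  let B : R → Fin 4 → ℂ := fun a k =>
    ∑ x : α, ∑ y : α, ψ (a * ((q k : R) * f x * g y))
  let T : R → ℂ := fun a => ψ (-(a * (m : R))) * ∏ k, B a k
  have hT : ∀ a, T a = ∑ p : Fin 4 → α × α, ψ (a * v p) := by
    intro a
    have h1 : ∏ k, B a k = ∑ p : Fin 4 → α × α, ∏ k, ψ (a * ((q k : R) * f (p k).1 * g (p k).2)) := by
      have h2 : ∀ k, B a k = ∑ z : α × α, ψ (a * ((q k : R) * f z.1 * g z.2)) := by
        intro k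
        exact (Fintype.sum_prod_type
          (fun z : α × α => ψ (a * ((q k : R) * f z.1 * g z.2)))).symm
      simp_rw [h2]
      rw [Finset.prod_univ_sum, Fintype.piFinset_univ]
    simp only [T]
    rw [h1, Finset.mul_sum]
    refine Finset.sum_congr rfl fun p _ => ?_
    have h3 : a * v p = -(a * (m : R)) + ∑ k, a * ((q k : R) * f (p k).1 * g (p k).2) := by
      simp only [v]
      rw [mul_sub, Finset.mul_sum]
      ring
    rw [h3, AddChar.map_add_eq_mul]
    congr 1
    exact (map_prod ψ.toMonoidHom (fun k => Multiplicative.ofAdd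
      (a * ((q k : R) * f (p k).1 * g (p k).2))) univ).symm
  have hsum0 : ∑ a : R, T a = 0 := by
    simp_rw [hT]
    rw [Finset.sum_comm]
    apply Finset.sum_eq_zero
    intro p _
    have := AddChar.sum_mulShift (ψ := ψ) (v p) hprim
    rw [this, if_neg (hv p)]
    simp
  have hT0 : T 0 = (Fintype.card α : ℂ) ^ 8 := by
    simp only [T, B, zero_mul, neg_zero, AddChar.map_zero_eq_one, one_mul]
    simp
    ring
  -- bound for the nonzero frequencies
  have hTb : ∀ a : R, ∀ J : Finset ι, (univ.filter fun i => a i ≠ 0) = J → J.Nonempty →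
      ‖T a‖ ≤ ((∏ i ∈ J, r i : ℕ) : ℝ) ^ 2 * K J ^ 4 := by
    intro a J hJ hJne
    have hKJ : 0 ≤ K J := le_trans (Nat.cast_nonneg _) (hf J hJne)
    have h1 : ∀ k, ‖B a k‖ ≤ Real.sqrt (((∏ i ∈ J, r i : ℕ) : ℝ) * K J ^ 2) := by
      intro k
      apply Real.le_sqrt_of_sq_le
      exact bilinear_bound r hr f g (q k) (hq k) (K J) a J hJ (hf J hJne) (hg J hJne)
    have h2 : ‖T a‖ = ∏ k, ‖B a k‖ := by
      simp only [T]
      rw [norm_mul, AddChar.norm_apply, one_mul, norm_prod]
    rw [h2]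
    calc ∏ k, ‖B a k‖ ≤ ∏ _k : Fin 4, Real.sqrt (((∏ i ∈ J, r i : ℕ) : ℝ) * K J ^ 2) :=
          Finset.prod_le_prod (fun _ _ => norm_nonneg _) (fun k _ => h1 k)
      _ = (((∏ i ∈ J, r i : ℕ) : ℝ) * K J ^ 2) ^ 2 := by
          rw [Finset.prod_const, Finset.card_univ, Fintype.card_fin]
          have : Real.sqrt (((∏ i ∈ J, r i : ℕ) : ℝ) * K J ^ 2) ^ 4
            = (Real.sqrt (((∏ i ∈ J, r i : ℕ) : ℝ) * K J ^ 2) ^ 2) ^ 2 := by ring
          rw [this, Real.sq_sqrt (by positivity)]
      _ = _ := by ring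
  -- conclusion
  have h0 : (Fintype.card α : ℝ) ^ 8 = ‖T 0‖ := by
    rw [hT0]
    simp
  have h1 : T 0 = - ∑ a ∈ univ.erase (0 : R), T a := by
    rw [← Finset.add_sum_erase univ T (Finset.mem_univ 0)] at hsum0
    exact eq_neg_of_add_eq_zero_left hsum0
  have h2 : ‖T 0‖ ≤ ∑ a ∈ univ.erase (0 : R), ‖T a‖ := by
    rw [h1, norm_neg]
    exact norm_sum_le _ _
  have h3 : ∑ a ∈ univ.erase (0 : R), ‖T a‖
      ≤ ∑ J ∈ univ.filter (fun J : Finset ι => J.Nonempty),
        ((∏ i ∈ J, r i : ℕ) : ℝ) ^ 3 * K J ^ 4 := by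
    have hmaps : ∀ a ∈ univ.erase (0 : R), (univ.filter fun i => a i ≠ 0)
        ∈ univ.filter (fun J : Finset ι => J.Nonempty) := by
      intro a ha
      rw [Finset.mem_filter]
      refine ⟨Finset.mem_univ _, ?_⟩
      obtain ⟨i, hi⟩ := Function.ne_iff.mp (Finset.ne_of_mem_erase ha)
      exact ⟨i, Finset.mem_filter.mpr ⟨Finset.mem_univ i, hi⟩⟩
    rw [← Finset.sum_fiberwise_of_maps_to hmaps]
    apply Finset.sum_le_sum
    intro J hJ
    have hJne : J.Nonempty := (Finset.mem_filter.mp hJ).2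
    have hKJ : 0 ≤ K J := le_trans (Nat.cast_nonneg _) (hf J hJne)
    calc ∑ a ∈ (univ.erase (0 : R)).filter (fun a => (univ.filter fun i => a i ≠ 0) = J), ‖T a‖
        ≤ ∑ a ∈ (univ.erase (0 : R)).filter (fun a => (univ.filter fun i => a i ≠ 0) = J),
          ((∏ i ∈ J, r i : ℕ) : ℝ) ^ 2 * K J ^ 4 := by
          apply Finset.sum_le_sum
          intro a ha
          exact hTb a J (Finset.mem_filter.mp ha).2 hJne
      _ = (((univ.erase (0 : R)).filter
            (fun a => (univ.filter fun i => a i ≠ 0) = J)).card : ℝ)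
            * (((∏ i ∈ J, r i : ℕ) : ℝ) ^ 2 * K J ^ 4) := by
          rw [Finset.sum_const, nsmul_eq_mul]
      _ ≤ ((∏ i ∈ J, r i : ℕ) : ℝ) * (((∏ i ∈ J, r i : ℕ) : ℝ) ^ 2 * K J ^ 4) := by
          apply mul_le_mul_of_nonneg_right _ (by positivity)
          have h4 : ((univ.erase (0 : R)).filter
            (fun a => (univ.filter fun i => a i ≠ 0) = J)).card
              ≤ (univ.filter fun a : ∀ i, ZMod (r i) =>
                (univ.filter fun i => a i ≠ 0) = J).card := by
            apply Finset.card_le_card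
            exact Finset.filter_subset_filter _ (Finset.erase_subset _ _)
          exact_mod_cast h4.trans (card_support_le r J)
      _ = _ := by ring
  linarith [h0, h2, h3, hK]

end Vale.Agent.P012
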