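import Mathlib

namespace Vale.Agent.P012

open Finset

theorem one_add_pow_le_linear (u : ℝ) (hu : 0 ≤ u) (n : ℕ) (h : n * u ≤ 1 / 2) :
    (1 + u) ^ n ≤ 1 + 2 * n * u := by
  induction n with
  | zero => simp
  | succ n ih =>
    have h1 : (n : ℝ) * u ≤ 1 / 2 := by
      push_cast at h
      nlinarith
    have h2 := ih h1
    calc (1 + u) ^ (n + 1) = (1 + u) ^ n * (1 + u) := pow_succ _ _
      _ ≤ (1 + 2 * n * u) * (1 + u) := by gcongr
      _ = 1 + 2 * n * u + u + 2 * (n * u) * u := by ring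
      _ ≤ 1 + 2 * n * u + u + 2 * (1 / 2) * u := by gcongr
      _ = 1 + 2 * ((n + 1 : ℕ) : ℝ) * u := by push_cast; ring

theorem sum_pow_card_univ (t : ℕ) (u : ℝ) :
    ∑ J : Finset (Fin t), u ^ J.card = (1 + u) ^ t := by
  have h := Fintype.sum_pow_mul_eq_add_pow (Fin t) u 1
  simp only [one_pow, mul_one, Fintype.card_fin] at h
  rw [h, add_comm]

theorem sum_pow_card_nonempty (t : ℕ) (u : ℝ) :
    ∑ J ∈ univ.filter (fun J : Finset (Fin t) => J.Nonempty), u ^ J.card = (1 + u) ^ t - 1 := by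
  rw [← sum_pow_card_univ t u]
  have h := Finset.sum_filter_add_sum_filter_not (univ : Finset (Finset (Fin t)))
    (fun J => J.Nonempty) (fun J => u ^ J.card)
  have h2 : (univ.filter fun J : Finset (Fin t) => ¬ J.Nonempty) = {∅} := by
    ext J
    simp [Finset.not_nonempty_iff_eq_empty]
  rw [h2] at h
  simp only [Finset.sum_singleton, Finset.card_empty, pow_zero] at h
  linarith

/-- The error terms are smaller than the main term. -/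
theorem error_bound (t : ℕ) (r : Fin t → ℕ) (X H L : ℝ) (hH : 1 ≤ H) (hL : 0 < L)
    (hX : 0 ≤ X) (hr : ∀ i, (r i : ℝ) ≤ X)
    (h1 : 32 * (1 + X ^ 3) ^ t ≤ H ^ 4)
    (h2 : (1 + X ^ 3 / L ^ 4) ^ t ≤ 1 + 1 / 512) :
    ∑ J ∈ univ.filter (fun J : Finset (Fin t) => J.Nonempty),
      ((∏ i ∈ J, r i : ℕ) : ℝ) ^ 3 * (H + 2 * H ^ 2 / L ^ J.card) ^ 4 < H ^ 8 := by
  have hterm : ∀ J ∈ univ.filter (fun J : Finset (Fin t) => J.Nonempty),
      ((∏ i ∈ J, r i : ℕ) : ℝ) ^ 3 * (H + 2 * H ^ 2 / L ^ J.card) ^ 4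
        ≤ 8 * H ^ 4 * (X ^ 3) ^ J.card + 128 * H ^ 8 * (X ^ 3 / L ^ 4) ^ J.card := by
    intro J _
    have h3 : ((∏ i ∈ J, r i : ℕ) : ℝ) ≤ X ^ J.card := by
      push_cast
      calc ∏ i ∈ J, (r i : ℝ) ≤ ∏ _i ∈ J, X :=
            Finset.prod_le_prod (fun _ _ => Nat.cast_nonneg _) (fun i _ => hr i)
        _ = _ := by simp
    have h4 : (H + 2 * H ^ 2 / L ^ J.card) ^ 4
        ≤ 8 * (H ^ 4 + (2 * H ^ 2 / L ^ J.card) ^ 4) := by
      have := add_pow_le (a := H) (b := 2 * H ^ 2 / L ^ J.card) (by positivity) (by positivity) 4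
      norm_num at this
      linarith
    calc ((∏ i ∈ J, r i : ℕ) : ℝ) ^ 3 * (H + 2 * H ^ 2 / L ^ J.card) ^ 4
        ≤ (X ^ J.card) ^ 3 * (8 * (H ^ 4 + (2 * H ^ 2 / L ^ J.card) ^ 4)) := by
          gcongr
      _ = 8 * H ^ 4 * (X ^ 3) ^ J.card + 128 * H ^ 8 * (X ^ 3 / L ^ 4) ^ J.card := by
          rw [div_pow, div_pow]
          have h5 : (X ^ J.card) ^ 3 = (X ^ 3) ^ J.card := by
            rw [← pow_mul, ← pow_mul, mul_comm]
          have h6 : (L ^ J.card) ^ 4 = (L ^ 4) ^ J.card := by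
            rw [← pow_mul, ← pow_mul, mul_comm]
          rw [h5, h6]
          ring
  have hsum := Finset.sum_le_sum hterm
  rw [Finset.sum_add_distrib, ← Finset.mul_sum, ← Finset.mul_sum, sum_pow_card_nonempty,
    sum_pow_card_nonempty] at hsum
  refine lt_of_le_of_lt hsum ?_
  have hH4 : 0 < H ^ 4 := by positivity
  have hH8 : 0 < H ^ 8 := by positivity
  have h7 : 8 * H ^ 4 * ((1 + X ^ 3) ^ t - 1) ≤ H ^ 8 / 4 := by
    have : 8 * H ^ 4 * ((1 + X ^ 3) ^ t - 1) ≤ 8 * H ^ 4 * (H ^ 4 / 32) := by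
      apply mul_le_mul_of_nonneg_left _ (by positivity)
      linarith
    calc _ ≤ _ := this
      _ = H ^ 8 / 4 := by ring
  have h8 : 128 * H ^ 8 * ((1 + X ^ 3 / L ^ 4) ^ t - 1) ≤ H ^ 8 / 4 := by
    have : 128 * H ^ 8 * ((1 + X ^ 3 / L ^ 4) ^ t - 1) ≤ 128 * H ^ 8 * (1 / 512) := by
      apply mul_le_mul_of_nonneg_left _ (by positivity)
      linarith
    calc _ ≤ _ := this
      _ = H ^ 8 / 4 := by ring
  linarith

/-- Parameter inequality for the main family sizes. -/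
theorem param_one (T t : ℕ) (hT : 15 ≤ T) (ht : 91 * (Nat.log 2 T + 1) * t ≤ T) :
    32 * (1 + ((T : ℝ) ^ 30) ^ 3) ^ t ≤ ((2 : ℝ) ^ ((T - 4) / 2)) ^ 4 := by
  set l := Nat.log 2 T with hl
  have h1 : T < 2 ^ (l + 1) := Nat.lt_pow_succ_log_self (by norm_num) T
  have h2 : 1 + (T ^ 30) ^ 3 ≤ 2 ^ (91 * (l + 1)) := by
    have h3 : (T ^ 30) ^ 3 ≤ 2 ^ (90 * (l + 1)) := by
      calc (T ^ 30) ^ 3 = T ^ 90 := by rw [← pow_mul]
        _ ≤ (2 ^ (l + 1)) ^ 90 := Nat.pow_le_pow_left h1.le 90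
        _ = 2 ^ (90 * (l + 1)) := by rw [← pow_mul, mul_comm]
    have h4 : 1 ≤ 2 ^ (90 * (l + 1)) := Nat.one_le_two_pow
    calc 1 + (T ^ 30) ^ 3 ≤ 2 ^ (90 * (l + 1)) + 2 ^ (90 * (l + 1)) := by omega
      _ = 2 ^ (90 * (l + 1) + 1) := by rw [pow_succ]; ring
      _ ≤ 2 ^ (91 * (l + 1)) := Nat.pow_le_pow_right (by norm_num) (by omega)
  have h5 : 32 * (1 + (T ^ 30) ^ 3) ^ t ≤ (2 ^ ((T - 4) / 2)) ^ 4 := by
    calc 32 * (1 + (T ^ 30) ^ 3) ^ t ≤ 32 * (2 ^ (91 * (l + 1))) ^ t := by gcongr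
      _ = 2 ^ (5 + 91 * (l + 1) * t) := by rw [pow_add, ← pow_mul]; norm_num
      _ ≤ 2 ^ (((T - 4) / 2) * 4) := by
          apply Nat.pow_le_pow_right (by norm_num)
          omega
      _ = _ := by rw [pow_mul]
  exact_mod_cast h5

theorem param_two (T t : ℕ) (hT : 15 ≤ T) (ht : t ≤ T) :
    (1 + ((T : ℝ) ^ 30) ^ 3 / ((T : ℝ) ^ 24) ^ 4) ^ t ≤ 1 + 1 / 512 := by
  have hT' : (15 : ℝ) ≤ T := by exact_mod_cast hT
  have ht' : (t : ℝ) ≤ T := by exact_mod_cast ht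
  have hT0 : (0 : ℝ) < T := by linarith
  have h1 : ((T : ℝ) ^ 30) ^ 3 / ((T : ℝ) ^ 24) ^ 4 = 1 / (T : ℝ) ^ 6 := by
    field_simp
  rw [h1]
  have h2 : (t : ℝ) * (1 / (T : ℝ) ^ 6) ≤ 1 / 1024 := by
    calc (t : ℝ) * (1 / (T : ℝ) ^ 6) ≤ T * (1 / (T : ℝ) ^ 6) := by gcongr
      _ = 1 / (T : ℝ) ^ 5 := by field_simp
      _ ≤ 1 / (15 : ℝ) ^ 5 := by gcongr
      _ ≤ 1 / 1024 := by norm_num
  have h3 := one_add_pow_le_linear (1 / (T : ℝ) ^ 6) (by positivity) t (by linarith)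
  linarith

theorem param_three (T t : ℕ) (hT : 15 ≤ T) (ht : t ≤ T) :
    (1 + ((T ^ 2 : ℕ) : ℝ) * (T : ℝ) ^ 24 / ((T ^ 28 : ℕ) : ℝ)) ^ t ≤ 2 := by
  have hT' : (15 : ℝ) ≤ T := by exact_mod_cast hT
  have ht' : (t : ℝ) ≤ T := by exact_mod_cast ht
  have hT0 : (0 : ℝ) < T := by linarith
  have h1 : ((T ^ 2 : ℕ) : ℝ) * (T : ℝ) ^ 24 / ((T ^ 28 : ℕ) : ℝ) = 1 / (T : ℝ) ^ 2 := by
    push_cast
    field_simp
  rw [h1]
  have h2 : (t : ℝ) * (1 / (T : ℝ) ^ 2) ≤ 1 / 15 := by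
    calc (t : ℝ) * (1 / (T : ℝ) ^ 2) ≤ T * (1 / (T : ℝ) ^ 2) := by gcongr
      _ = 1 / (T : ℝ) := by field_simp
      _ ≤ 1 / (15 : ℝ) := by gcongr
  have h3 := one_add_pow_le_linear (1 / (T : ℝ) ^ 2) (by positivity) t (by linarith)
  linarith

/-- There are many primes up to `T ^ 30`. -/
theorem param_four (T : ℕ) (hT : 15 ≤ T) (ht : 91 * (Nat.log 2 T + 1) ≤ T) :
    T ^ 29 + T ^ 2 ≤ Nat.primeCounting (T ^ 30) := by
  set l := Nat.log 2 T with hl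
  have h1 : T < 2 ^ (l + 1) := Nat.lt_pow_succ_log_self (by norm_num) T
  have hT' : (15 : ℝ) ≤ T := by exact_mod_cast hT
  have hT0 : (0 : ℝ) < T := by linarith
  have hlog2 : 0 < Real.log 2 := Real.log_pos (by norm_num)
  have hlogT : Real.log T ≤ (l + 1) * Real.log 2 := by
    have : Real.log T ≤ Real.log ((2 : ℝ) ^ (l + 1)) := by
      apply Real.log_le_log hT0
      exact_mod_cast h1.le
    rw [Real.log_pow] at this
    push_cast at this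
    exact this
  have hlogTpos : 0 < Real.log T := Real.log_pos (by linarith)
  have h2 := Chebyshev.pi_ge (T ^ 30)
  have hX1 : Real.log ((T ^ 30 : ℕ) : ℝ) = 30 * Real.log T := by
    push_cast
    rw [Real.log_pow]
    norm_num
  have hlX : 0 < Real.log ((T ^ 30 : ℕ) : ℝ) := by rw [hX1]; positivity
  have hXge : (2 : ℝ) ≤ ((T ^ 30 : ℕ) : ℝ) := by
    have : 2 ≤ T ^ 30 := by
      calc 2 ≤ T := by omega
        _ = T ^ 1 := (pow_one T).symm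
        _ ≤ T ^ 30 := Nat.pow_le_pow_right (by omega) (by norm_num)
    exact_mod_cast this
  have h3 : Real.log (((T ^ 30 : ℕ) : ℝ) + 1) ≤ 2 * Real.log ((T ^ 30 : ℕ) : ℝ) := by
    have h4 : ((T ^ 30 : ℕ) : ℝ) + 1 ≤ ((T ^ 30 : ℕ) : ℝ) ^ 2 := by nlinarith
    calc Real.log (((T ^ 30 : ℕ) : ℝ) + 1) ≤ Real.log (((T ^ 30 : ℕ) : ℝ) ^ 2) :=
          Real.log_le_log (by linarith) h4
      _ = _ := by rw [Real.log_pow]; norm_num
  have h5 : (((T ^ 30 : ℕ) : ℝ) * Real.log 2) / Real.log ((T ^ 30 : ℕ) : ℝ) - 2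
      ≤ (Nat.primeCounting (T ^ 30) : ℝ) := by
    refine le_trans ?_ h2
    rw [sub_div]
    have : Real.log (((T ^ 30 : ℕ) : ℝ) + 1) / Real.log ((T ^ 30 : ℕ) : ℝ) ≤ 2 := by
      rw [div_le_iff₀ hlX]
      exact h3
    linarith
  have h6 : 3 * (T : ℝ) ^ 29 ≤ (((T ^ 30 : ℕ) : ℝ) * Real.log 2)
      / Real.log ((T ^ 30 : ℕ) : ℝ) := by
    rw [le_div_iff₀ hlX, hX1]
    push_cast
    have h7 : (91 : ℝ) * ((l : ℝ) + 1) ≤ T := by exact_mod_cast ht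
    have h8 : 90 * Real.log T ≤ T * Real.log 2 := by
      calc 90 * Real.log T ≤ 90 * ((l + 1) * Real.log 2) := by gcongr
        _ ≤ (91 * ((l : ℝ) + 1)) * Real.log 2 := by nlinarith
        _ ≤ T * Real.log 2 := by gcongr
    calc 3 * (T : ℝ) ^ 29 * (30 * Real.log T) = (T : ℝ) ^ 29 * (90 * Real.log T) := by ring
      _ ≤ (T : ℝ) ^ 29 * (T * Real.log 2) := by gcongr
      _ = _ := by ring
  have h9 : (T : ℝ) ^ 29 + (T : ℝ) ^ 2 ≤ (Nat.primeCounting (T ^ 30) : ℝ) := by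
    have h10 : (T : ℝ) ^ 2 ≤ (T : ℝ) ^ 29 := pow_le_pow_right₀ (by linarith) (by norm_num)
    have h11 : (2 : ℝ) ≤ (T : ℝ) ^ 29 := by
      calc (2 : ℝ) ≤ T := by linarith
        _ = (T : ℝ) ^ 1 := (pow_one _).symm
        _ ≤ (T : ℝ) ^ 29 := pow_le_pow_right₀ (by linarith) (by norm_num)
    linarith
  exact_mod_cast h9

end Vale.Agent.P012
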