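import Vale.Agent.P012.Covering
import Vale.Agent.P012.Numeric

namespace Vale.Agent.P012

open Finset

/-- The error terms are at most half of the main term. -/
theorem error_bound_half (t : ℕ) {ι : Type*} [Fintype ι] [DecidableEq ι]
    (ht : Fintype.card ι = t) (r : ι → ℕ) (X H L : ℝ) (hH : 1 ≤ H) (hL : 0 < L)
    (hX : 0 ≤ X) (hr : ∀ i, (r i : ℝ) ≤ X)
    (h1 : 32 * (1 + X ^ 3) ^ t ≤ H ^ 4)
    (h2 : (1 + X ^ 3 / L ^ 4) ^ t ≤ 1 + 1 / 512) :
    ∑ J ∈ univ.filter (fun J : Finset ι => J.Nonempty),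
      ((∏ i ∈ J, r i : ℕ) : ℝ) ^ 3 * (H + 2 * H ^ 2 / L ^ J.card) ^ 4 ≤ H ^ 8 / 2 := by
  have hsumu : ∀ u : ℝ, ∑ J ∈ univ.filter (fun J : Finset ι => J.Nonempty), u ^ J.card
      = (1 + u) ^ t - 1 := by
    intro u
    have h0 := Fintype.sum_pow_mul_eq_add_pow ι u 1
    simp only [one_pow, mul_one, ht] at h0
    have h := Finset.sum_filter_add_sum_filter_not (univ : Finset (Finset ι))
      (fun J => J.Nonempty) (fun J => u ^ J.card)
    have h2 : (univ.filter fun J : Finset ι => ¬ J.Nonempty) = {∅} := by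
      ext J
      simp [Finset.not_nonempty_iff_eq_empty]
    rw [h2] at h
    simp only [Finset.sum_singleton, Finset.card_empty, pow_zero] at h
    rw [h0] at h
    rw [add_comm 1 u]
    linarith
  have hterm : ∀ J ∈ univ.filter (fun J : Finset ι => J.Nonempty),
      ((∏ i ∈ J, r i : ℕ) : ℝ) ^ 3 * (H + 2 * H ^ 2 / L ^ J.card) ^ 4
        ≤ 8 * H ^ 4 * (X ^ 3) ^ J.card + 128 * H ^ 8 * (X ^ 3 / L ^ 4) ^ J.card := by
    intro J _
    have h3 : ((∏ i ∈ J, r i : ℕ) : ℝ) ≤ X ^ J.card := by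
      push_cast
      calc ∏ i ∈ J, (r i : ℝ) ≤ ∏ _i ∈ J, X :=
            Finset.prod_le_prod (fun _ _ => Nat.cast_nonneg _) (fun i _ => hr i)
        _ = _ := by simp
    have h4 : (H + 2 * H ^ 2 / L ^ J.card) ^ 4
        ≤ 8 * (H ^ 4 + (2 * H ^ 2 / L ^ J.card) ^ 4) := by
      have := add_pow_le (a := H) (b := 2 * H ^ 2 / L ^ J.card) (by positivity) (by positivity) 4
      norm_num at this
      linarith
    calc ((∏ i ∈ J, r i : ℕ) : ℝ) ^ 3 * (H + 2 * H ^ 2 / L ^ J.card) ^ 4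
        ≤ (X ^ J.card) ^ 3 * (8 * (H ^ 4 + (2 * H ^ 2 / L ^ J.card) ^ 4)) := by
          gcongr
      _ = 8 * H ^ 4 * (X ^ 3) ^ J.card + 128 * H ^ 8 * (X ^ 3 / L ^ 4) ^ J.card := by
          rw [div_pow, div_pow]
          have h5 : (X ^ J.card) ^ 3 = (X ^ 3) ^ J.card := by
            rw [← pow_mul, ← pow_mul, mul_comm]
          have h6 : (L ^ J.card) ^ 4 = (L ^ 4) ^ J.card := by
            rw [← pow_mul, ← pow_mul, mul_comm]
          rw [h5, h6]
          ring
  have hsum := Finset.sum_le_sum hterm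
  rw [Finset.sum_add_distrib, ← Finset.mul_sum, ← Finset.mul_sum, hsumu, hsumu] at hsum
  refine le_trans hsum ?_
  have hH4 : 0 < H ^ 4 := by positivity
  have hH8 : 0 < H ^ 8 := by positivity
  have h7 : 8 * H ^ 4 * ((1 + X ^ 3) ^ t - 1) ≤ H ^ 8 / 4 := by
    have : 8 * H ^ 4 * ((1 + X ^ 3) ^ t - 1) ≤ 8 * H ^ 4 * (H ^ 4 / 32) := by
      apply mul_le_mul_of_nonneg_left _ (by positivity)
      linarith
    calc _ ≤ _ := this
      _ = H ^ 8 / 4 := by ring
  have h8 : 128 * H ^ 8 * ((1 + X ^ 3 / L ^ 4) ^ t - 1) ≤ H ^ 8 / 4 := by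
    have : 128 * H ^ 8 * ((1 + X ^ 3 / L ^ 4) ^ t - 1) ≤ 128 * H ^ 8 * (1 / 512) := by
      apply mul_le_mul_of_nonneg_left _ (by positivity)
      linarith
    calc _ ≤ _ := this
      _ = H ^ 8 / 4 := by ring
  linarith

/-- Fourth moment of the bilinear sums over the nonzero frequencies. -/
theorem sum_fourth {ι : Type*} [Fintype ι] [DecidableEq ι] (r : ι → ℕ) [∀ i, NeZero (r i)]
    (hr : ∀ i, (r i).Prime) {α : Type*} [Fintype α] (f g : α → ℕ) (K : Finset ι → ℝ)
    (hf : ∀ J : Finset ι, J.Nonempty → ((univ.filter fun p : α × α =>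
      ∀ i ∈ J, (f p.1 : ZMod (r i)) = (f p.2 : ZMod (r i))).card : ℝ) ≤ K J)
    (hg : ∀ J : Finset ι, J.Nonempty → ((univ.filter fun p : α × α =>
      ∀ i ∈ J, (g p.1 : ZMod (r i)) = (g p.2 : ZMod (r i))).card : ℝ) ≤ K J) :
    ∑ a ∈ univ.erase (0 : ∀ i, ZMod (r i)),
      ‖∑ z : α × α, prodChar r (a * ((f z.1 : ∀ i, ZMod (r i)) * g z.2))‖ ^ 4
      ≤ ∑ J ∈ univ.filter (fun J : Finset ι => J.Nonempty),
        ((∏ i ∈ J, r i : ℕ) : ℝ) ^ 3 * K J ^ 4 := by
  classical
  set R := ∀ i, ZMod (r i) with hR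
  set S : R → ℂ := fun a => ∑ z : α × α, prodChar r (a * ((f z.1 : R) * g z.2)) with hS
  have hSb : ∀ a : R, ∀ J : Finset ι, (univ.filter fun i => a i ≠ 0) = J → J.Nonempty →
      ‖S a‖ ^ 4 ≤ ((∏ i ∈ J, r i : ℕ) : ℝ) ^ 2 * K J ^ 4 := by
    intro a J hJ hJne
    have hKJ : 0 ≤ K J := le_trans (Nat.cast_nonneg _) (hf J hJne)
    have h1 := bilinear_bound r hr f g 1 (fun i h => (hr i).one_lt.ne' (Nat.dvd_one.mp h))
      (K J) a J hJ (hf J hJne) (hg J hJne)
    have h2 : ∑ x : α, ∑ y : α, prodChar r (a * (((1 : ℕ) : ∀ i, ZMod (r i)) * f x * g y))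
        = S a := by
      simp only [hS]
      rw [Fintype.sum_prod_type]
      refine Finset.sum_congr rfl fun x _ => Finset.sum_congr rfl fun y _ => ?_
      rw [Nat.cast_one, one_mul]
    rw [h2] at h1
    calc ‖S a‖ ^ 4 = (‖S a‖ ^ 2) ^ 2 := by ring
      _ ≤ (((∏ i ∈ J, r i : ℕ) : ℝ) * K J ^ 2) ^ 2 := by gcongr
      _ = _ := by ring
  have hmaps : ∀ a ∈ univ.erase (0 : R), (univ.filter fun i => a i ≠ 0)
      ∈ univ.filter (fun J : Finset ι => J.Nonempty) := by
    intro a ha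
    rw [Finset.mem_filter]
    refine ⟨Finset.mem_univ _, ?_⟩
    obtain ⟨i, hi⟩ := Function.ne_iff.mp (Finset.ne_of_mem_erase ha)
    exact ⟨i, Finset.mem_filter.mpr ⟨Finset.mem_univ i, hi⟩⟩
  rw [← Finset.sum_fiberwise_of_maps_to hmaps]
  apply Finset.sum_le_sum
  intro J hJ
  have hJne : J.Nonempty := (Finset.mem_filter.mp hJ).2
  have hKJ : 0 ≤ K J := le_trans (Nat.cast_nonneg _) (hf J hJne)
  calc ∑ a ∈ (univ.erase (0 : R)).filter (fun a => (univ.filter fun i => a i ≠ 0) = J), ‖S a‖ ^ 4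
      ≤ ∑ a ∈ (univ.erase (0 : R)).filter (fun a => (univ.filter fun i => a i ≠ 0) = J),
        ((∏ i ∈ J, r i : ℕ) : ℝ) ^ 2 * K J ^ 4 := by
        apply Finset.sum_le_sum
        intro a ha
        exact hSb a J (Finset.mem_filter.mp ha).2 hJne
    _ = (((univ.erase (0 : R)).filter
          (fun a => (univ.filter fun i => a i ≠ 0) = J)).card : ℝ)
          * (((∏ i ∈ J, r i : ℕ) : ℝ) ^ 2 * K J ^ 4) := by
        rw [Finset.sum_const, nsmul_eq_mul]
    _ ≤ ((∏ i ∈ J, r i : ℕ) : ℝ) * (((∏ i ∈ J, r i : ℕ) : ℝ) ^ 2 * K J ^ 4) := by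
        apply mul_le_mul_of_nonneg_right _ (by positivity)
        have h4 : ((univ.erase (0 : R)).filter
          (fun a => (univ.filter fun i => a i ≠ 0) = J)).card
            ≤ (univ.filter fun a : ∀ i, ZMod (r i) =>
              (univ.filter fun i => a i ≠ 0) = J).card := by
          apply Finset.card_le_card
          exact Finset.filter_subset_filter _ (Finset.erase_subset _ _)
        exact_mod_cast h4.trans (card_support_le r J)
    _ = _ := by ring

/-- The weighted counting identity. -/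
theorem weighted_count {R : Type*} [CommRing R] [Fintype R] [DecidableEq R]
    (ψ : AddChar R ℂ) (hψ : ψ.IsPrimitive) {β : Type*} [Fintype β] (c : β → R) (m : R)
    (u : Fin 5 → β → ℂ) :
    ∑ a : R, ψ (-(a * m)) * ∏ k, (∑ z : β, u k z * ψ (a * c z))
      = (Fintype.card R : ℂ) * ∑ p : Fin 5 → β,
        (∏ k, u k (p k)) * (if (∑ k, c (p k)) - m = 0 then 1 else 0) := by
  classical
  have h1 : ∀ a : R, ψ (-(a * m)) * ∏ k, (∑ z : β, u k z * ψ (a * c z))
      = ∑ p : Fin 5 → β, (∏ k, u k (p k)) * ψ (a * ((∑ k, c (p k)) - m)) := by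
    intro a
    rw [Finset.prod_univ_sum, Fintype.piFinset_univ, Finset.mul_sum]
    refine Finset.sum_congr rfl fun p _ => ?_
    rw [Finset.prod_mul_distrib]
    have h3 : a * ((∑ k, c (p k)) - m) = -(a * m) + ∑ k, a * c (p k) := by
      rw [mul_sub, Finset.mul_sum]
      ring
    rw [h3, AddChar.map_add_eq_mul]
    have h4 : ψ (∑ k, a * c (p k)) = ∏ k, ψ (a * c (p k)) :=
      (map_prod ψ.toMonoidHom (fun k => Multiplicative.ofAdd (a * c (p k))) univ)
    rw [h4]
    ring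
  simp_rw [h1]
  rw [Finset.sum_comm, Finset.mul_sum]
  refine Finset.sum_congr rfl fun p _ => ?_
  rw [← Finset.mul_sum, AddChar.sum_mulShift _ hψ]
  split_ifs
  · simp
    ring
  · simp

/-- Covering with a small set of forbidden pairs. -/
theorem covering5 {ι : Type*} [Fintype ι] [DecidableEq ι] (r : ι → ℕ) (hr : ∀ i, (r i).Prime)
    {α : Type*} [Fintype α] [Nonempty α] (f g : α → ℕ) (K : Finset ι → ℝ)
    (hf : ∀ J : Finset ι, J.Nonempty → ((univ.filter fun p : α × α =>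
      ∀ i ∈ J, (f p.1 : ZMod (r i)) = (f p.2 : ZMod (r i))).card : ℝ) ≤ K J)
    (hg : ∀ J : Finset ι, J.Nonempty → ((univ.filter fun p : α × α =>
      ∀ i ∈ J, (g p.1 : ZMod (r i)) = (g p.2 : ZMod (r i))).card : ℝ) ≤ K J)
    (hK : ∑ J ∈ univ.filter (fun J : Finset ι => J.Nonempty),
      ((∏ i ∈ J, r i : ℕ) : ℝ) ^ 3 * K J ^ 4 ≤ (Fintype.card α : ℝ) ^ 8 / 2)
    (Bad : Finset (α × α)) (hBad : 20 * Bad.card ≤ (Fintype.card α) ^ 2) (m : ℕ) :
    ∃ p : Fin 5 → α × α, (∀ k, p k ∉ Bad) ∧ ∀ i,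
      ((∑ k, f (p k).1 * g (p k).2 : ℕ) : ZMod (r i)) = (m : ZMod (r i)) := by
  classical
  have hNZ : ∀ i, NeZero (r i) := fun i => ⟨(hr i).ne_zero⟩
  by_contra hcon
  push Not at hcon
  set R := ∀ i, ZMod (r i) with hR
  set ψ := prodChar r with hψ
  have hprim : ψ.IsPrimitive := prodChar_primitive r
  let c : α × α → R := fun z => (f z.1 : R) * g z.2
  let I : (Fin 5 → α × α) → ℝ := fun p => if (∑ k, c (p k)) - (m : R) = 0 then 1 else 0
  have hI0 : ∀ p, 0 ≤ I p := by
    intro p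
    simp only [I]
    split_ifs <;> norm_num
  have hzero : ∀ p : Fin 5 → α × α, (∑ k, c (p k)) - (m : R) = 0 → ∃ k, p k ∈ Bad := by
    intro p hp
    by_contra hno
    push Not at hno
    obtain ⟨i, hi⟩ := hcon p hno
    apply hi
    have h1 := congrFun hp i
    simp only [c, Pi.sub_apply, Finset.sum_apply, Pi.mul_apply, Pi.natCast_apply,
      Pi.zero_apply] at h1
    push_cast
    exact sub_eq_zero.mp h1
  -- pointwise bound
  have hpt : ∀ p, I p ≤ ∑ k : Fin 5, (if p k ∈ Bad then I p else 0) := by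
    intro p
    by_cases hp : (∑ k, c (p k)) - (m : R) = 0
    · obtain ⟨k, hk⟩ := hzero p hp
      calc I p = (if p k ∈ Bad then I p else 0) := by rw [if_pos hk]
        _ ≤ ∑ k : Fin 5, (if p k ∈ Bad then I p else 0) := by
            apply Finset.single_le_sum (f := fun k : Fin 5 => if p k ∈ Bad then I p else 0)
              _ (Finset.mem_univ k)
            intro k _
            split_ifs
            · exact hI0 p
            · exact le_rfl
    · have : I p = 0 := by simp only [I]; rw [if_neg hp]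
      rw [this]
      simp
  have hsumI : ∑ p, I p ≤ ∑ k : Fin 5, ∑ p, (if p k ∈ Bad then I p else 0) := by
    rw [Finset.sum_comm]
    exact Finset.sum_le_sum fun p _ => hpt p
  -- the exponential sums
  let S : R → ℂ := fun a => ∑ z : α × α, ψ (a * c z)
  let SB : R → ℂ := fun a => ∑ z ∈ Bad, ψ (a * c z)
  set Q : ℝ := (Fintype.card α : ℝ) with hQ
  have hQ1 : 1 ≤ Q := by
    have : 1 ≤ Fintype.card α := Fintype.card_pos
    rw [hQ]
    exact_mod_cast this
  have hS4 : ∑ a ∈ univ.erase (0 : R), ‖S a‖ ^ 4 ≤ Q ^ 8 / 2 :=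
    (sum_fourth r hr f g K hf hg).trans hK
  have hSle : ∀ a, ‖S a‖ ≤ Q ^ 2 := by
    intro a
    refine (norm_sum_le _ _).trans ?_
    simp only [AddChar.norm_apply]
    rw [Finset.sum_const, Finset.card_univ, Fintype.card_prod]
    simp [hQ, sq]
  have hSBle : ∀ a, ‖SB a‖ ≤ Bad.card := by
    intro a
    refine (norm_sum_le _ _).trans ?_
    simp only [AddChar.norm_apply]
    rw [Finset.sum_const]
    simp
  have hS0 : S 0 = (Q : ℂ) ^ 2 := by
    simp only [S, zero_mul, AddChar.map_zero_eq_one]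
    simp [hQ, sq]
  -- main count
  have hmain : (Fintype.card R : ℝ) * ∑ p, I p ≥ Q ^ 10 / 2 := by
    have h1 := weighted_count ψ hprim c (m : R) (fun _ _ => 1)
    simp only [one_mul, Finset.prod_const, Finset.card_univ, Fintype.card_fin, one_pow] at h1
    have h2 : ((Fintype.card R : ℂ) * ∑ p : Fin 5 → α × α,
        (if (∑ k, c (p k)) - (m : R) = 0 then (1 : ℂ) else 0))
        = (((Fintype.card R : ℝ) * ∑ p, I p : ℝ) : ℂ) := by
      push_cast
      congr 1
      refine Finset.sum_congr rfl fun p _ => ?_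
      simp only [I]
      split_ifs <;> simp
    rw [h2] at h1
    rw [← Finset.add_sum_erase univ _ (Finset.mem_univ (0 : R))] at h1
    have h3 : ψ (-(0 * (m : R))) * (∑ z : α × α, ψ (0 * c z)) ^ 5 = (Q : ℂ) ^ 10 := by
      have : (∑ z : α × α, ψ (0 * c z)) = (Q : ℂ) ^ 2 := hS0
      rw [this]
      simp
      ring
    rw [h3] at h1
    have h4 : ‖∑ a ∈ univ.erase (0 : R), ψ (-(a * (m : R))) * (∑ z : α × α, ψ (a * c z)) ^ 5‖
        ≤ Q ^ 10 / 2 := by
      refine (norm_sum_le _ _).trans ?_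
      calc ∑ a ∈ univ.erase (0 : R), ‖ψ (-(a * (m : R))) * (∑ z : α × α, ψ (a * c z)) ^ 5‖
          ≤ ∑ a ∈ univ.erase (0 : R), Q ^ 2 * ‖S a‖ ^ 4 := by
            apply Finset.sum_le_sum
            intro a _
            rw [norm_mul, AddChar.norm_apply, one_mul, norm_pow]
            have : ‖∑ z : α × α, ψ (a * c z)‖ ^ 5 = ‖S a‖ * ‖S a‖ ^ 4 := by
              simp only [S]; ring
            rw [this]
            apply mul_le_mul_of_nonneg_right (hSle a) (by positivity)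
        _ = Q ^ 2 * ∑ a ∈ univ.erase (0 : R), ‖S a‖ ^ 4 := by rw [Finset.mul_sum]
        _ ≤ Q ^ 2 * (Q ^ 8 / 2) := by gcongr
        _ = Q ^ 10 / 2 := by ring
    have h5 : (((Fintype.card R : ℝ) * ∑ p, I p - Q ^ 10 : ℝ) : ℂ)
        = ∑ a ∈ univ.erase (0 : R), ψ (-(a * (m : R))) * (∑ z : α × α, ψ (a * c z)) ^ 5 := by
      push_cast
      push_cast at h1
      rw [← h1]
      ring
    rw [← h5, Complex.norm_real, Real.norm_eq_abs, abs_le] at h4
    linarith [h4.1]
  have hbadk : ∀ k : Fin 5, (Fintype.card R : ℝ) * ∑ p, (if p k ∈ Bad then I p else 0)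
      ≤ Bad.card * (3 / 2 * Q ^ 8) := by
    intro k
    have h1 := weighted_count ψ hprim c (m : R)
      (fun k' z => if k' = k then (if z ∈ Bad then 1 else 0) else 1)
    have h2 : ((Fintype.card R : ℂ) * ∑ p : Fin 5 → α × α,
        (∏ k', (if k' = k then (if p k' ∈ Bad then (1 : ℂ) else 0) else 1))
          * (if (∑ k, c (p k)) - (m : R) = 0 then (1 : ℂ) else 0))
        = (((Fintype.card R : ℝ) * ∑ p, (if p k ∈ Bad then I p else 0) : ℝ) : ℂ) := by
      push_cast
      congr 1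
      refine Finset.sum_congr rfl fun p _ => ?_
      have h3 : (∏ k', (if k' = k then (if p k' ∈ Bad then (1 : ℂ) else 0) else 1))
          = if p k ∈ Bad then 1 else 0 := by
        rw [Finset.prod_ite_eq' univ k (fun k' => if p k' ∈ Bad then (1 : ℂ) else 0)]
        simp
      rw [h3]
      simp only [I]
      split_ifs <;> simp
    rw [h2] at h1
    have h4 : ∀ a : R, ∏ k', (∑ z : α × α,
        (if k' = k then (if z ∈ Bad then (1 : ℂ) else 0) else 1) * ψ (a * c z))
        = SB a * S a ^ 4 := by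
      intro a
      rw [← Finset.mul_prod_erase univ _ (Finset.mem_univ k)]
      congr 1
      · simp only [if_true, SB]
        rw [← Finset.sum_filter_add_sum_filter_not univ (fun z => z ∈ Bad)]
        have e1 : ∑ z ∈ univ.filter (fun z => ¬ z ∈ Bad),
            (if z ∈ Bad then (1 : ℂ) else 0) * ψ (a * c z) = 0 := by
          apply Finset.sum_eq_zero
          intro z hz
          rw [if_neg (Finset.mem_filter.mp hz).2, zero_mul]
        rw [e1, add_zero]
        have e2 : univ.filter (fun z => z ∈ Bad) = Bad := by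
          ext z; simp
        rw [e2]
        refine Finset.sum_congr rfl fun z hz => ?_
        rw [if_pos hz, one_mul]
      · have e3 : ∀ k' ∈ univ.erase k, (∑ z : α × α,
            (if k' = k then (if z ∈ Bad then (1 : ℂ) else 0) else 1) * ψ (a * c z)) = S a := by
          intro k' hk'
          have : k' ≠ k := Finset.ne_of_mem_erase hk'
          simp [this, S]
        rw [Finset.prod_congr rfl e3, Finset.prod_const,
          Finset.card_erase_of_mem (Finset.mem_univ k), Finset.card_univ, Fintype.card_fin]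
    simp_rw [h4] at h1
    have h5 : ‖∑ a : R, ψ (-(a * (m : R))) * (SB a * S a ^ 4)‖ ≤ Bad.card * (3 / 2 * Q ^ 8) := by
      refine (norm_sum_le _ _).trans ?_
      rw [← Finset.add_sum_erase univ _ (Finset.mem_univ (0 : R))]
      have h6 : ‖ψ (-(0 * (m : R))) * (SB 0 * S 0 ^ 4)‖ ≤ Bad.card * Q ^ 8 := by
        rw [norm_mul, AddChar.norm_apply, one_mul, norm_mul, norm_pow]
        calc ‖SB 0‖ * ‖S 0‖ ^ 4 ≤ Bad.card * (Q ^ 2) ^ 4 := by
              gcongr
              · exact hSBle 0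
              · exact hSle 0
          _ = _ := by ring
      have h7 : ∑ a ∈ univ.erase (0 : R), ‖ψ (-(a * (m : R))) * (SB a * S a ^ 4)‖
          ≤ Bad.card * (Q ^ 8 / 2) := by
        calc ∑ a ∈ univ.erase (0 : R), ‖ψ (-(a * (m : R))) * (SB a * S a ^ 4)‖
            ≤ ∑ a ∈ univ.erase (0 : R), Bad.card * ‖S a‖ ^ 4 := by
              apply Finset.sum_le_sum
              intro a _
              rw [norm_mul, AddChar.norm_apply, one_mul, norm_mul, norm_pow]
              exact mul_le_mul_of_nonneg_right (hSBle a) (by positivity)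
          _ = Bad.card * ∑ a ∈ univ.erase (0 : R), ‖S a‖ ^ 4 := by rw [Finset.mul_sum]
          _ ≤ Bad.card * (Q ^ 8 / 2) := by gcongr
      calc _ ≤ (Bad.card : ℝ) * Q ^ 8 + Bad.card * (Q ^ 8 / 2) := add_le_add h6 h7
        _ = _ := by ring
    rw [h1, Complex.norm_real, Real.norm_eq_abs] at h5
    exact (le_abs_self _).trans h5
  have hR0 : (0 : ℝ) ≤ (Fintype.card R : ℝ) := Nat.cast_nonneg _
  have h6 : Q ^ 10 / 2 ≤ 5 * (Bad.card * (3 / 2 * Q ^ 8)) := by
    calc Q ^ 10 / 2 ≤ (Fintype.card R : ℝ) * ∑ p, I p := hmain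
      _ ≤ (Fintype.card R : ℝ) * ∑ k : Fin 5, ∑ p, (if p k ∈ Bad then I p else 0) := by
          gcongr
      _ = ∑ k : Fin 5, (Fintype.card R : ℝ) * ∑ p, (if p k ∈ Bad then I p else 0) := by
          rw [Finset.mul_sum]
      _ ≤ ∑ _k : Fin 5, Bad.card * (3 / 2 * Q ^ 8) := Finset.sum_le_sum fun k _ => hbadk k
      _ = _ := by
          rw [Finset.sum_const, Finset.card_univ, Fintype.card_fin, nsmul_eq_mul]
          norm_num
  have h7 : (20 : ℝ) * Bad.card ≤ Q ^ 2 := by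
    rw [hQ]
    exact_mod_cast hBad
  have h8 : 0 < Q ^ 8 := by positivity
  have h9 : 5 * ((Bad.card : ℝ) * (3 / 2 * Q ^ 8)) ≤ 5 * (Q ^ 2 / 20 * (3 / 2 * Q ^ 8)) := by
    have : (Bad.card : ℝ) ≤ Q ^ 2 / 20 := by linarith
    gcongr
  have h10 : 5 * (Q ^ 2 / 20 * (3 / 2 * Q ^ 8)) = 3 / 8 * Q ^ 10 := by ring
  have h11 : 0 < Q ^ 10 := by positivity
  linarith

end Vale.Agent.P012
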