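import Vale.Agent.P012.Good

namespace Vale.Agent.P012

open Finset

/-- The product over one prime from each pool determines the choice. -/
theorem pool_prod_injective {ι : Type*} [Fintype ι] [DecidableEq ι] {M : ℕ}
    (Q : ι × Fin M → ℕ) (hQinj : Function.Injective Q) (hQ : ∀ x, (Q x).Prime) :
    Function.Injective (fun x : ι → Fin M => ∏ i, Q (i, x i)) := by
  intro x y hxy
  simp only at hxy
  funext i
  have h1 : Q (i, x i) ∣ ∏ j, Q (j, y j) := by
    rw [← hxy]
    exact Finset.dvd_prod_of_mem _ (Finset.mem_univ i)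
  rw [Prime.dvd_finsetProd_iff (hQ _).prime] at h1
  obtain ⟨j, _, hj⟩ := h1
  have h2 := hQinj ((Nat.prime_dvd_prime_iff_eq (hQ _) (hQ _)).mp hj)
  have h3 : i = j := (Prod.mk.inj h2).1
  have h4 : x i = y j := (Prod.mk.inj h2).2
  rw [h4, h3]

/-- Every residue class modulo `B` contains a small number `C` with `C / N` a sum of twenty
unit fractions. -/
theorem digit (l t T g : ℕ) (hl : 10 ≤ l) (ht : 1 ≤ t) (hTdef : T = 2 ^ l) (hll : 2 * g = T)
    (hpar : 5 + 91 * l * (t + t) ≤ 4 * g)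
    (E : Fin g ⊕ Fin g → ℕ) (hEinj : Function.Injective E)
    (hE : ∀ i, (E i).Prime ∧ E i ≤ T ^ 30) :
    ∃ B : ℕ, 2 ^ (29 * l * t) ≤ B ∧ B ≤ 2 ^ (30 * l * t) ∧ ∀ m : ℕ, ∃ C : ℕ,
      C ≤ 5 * 2 ^ (60 * l * t) ∧ (B : ℤ) ∣ (m : ℤ) - C ∧
      UF 20 ((C : ℚ) / ((∏ i, E i : ℕ) : ℚ)) := by
  classical
  have hsp : 91 * (l + 1) ≤ T := hTdef ▸ small_param l hl
  have htT : t + t < T := by
    have h1 : 910 * (t + t) ≤ 91 * l * (t + t) := Nat.mul_le_mul_right _ (by omega)
    omega
  have hT1024 : 1024 ≤ T := by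
    rw [hTdef]
    calc 1024 = 2 ^ 10 := by norm_num
      _ ≤ 2 ^ l := Nat.pow_le_pow_right (by norm_num) hl
  obtain ⟨Q, hQinj, hQ, Bad, hBad1, hBad2⟩ := good_numbers l t T g hl hTdef hll hpar E hEinj hE
  obtain ⟨P, hPinj, hP⟩ := pools3 l t T hl hTdef (by omega)
  have hT30 : 1 ≤ T ^ 30 := Nat.one_le_pow _ _ (by omega)
  have hMpos : 0 < T ^ 28 := by positivity
  haveI : Nonempty (Fin (T ^ 28)) := ⟨⟨0, hMpos⟩⟩
  let QA : Fin t × Fin (T ^ 28) → ℕ := fun x => Q (Sum.inl x.1, x.2)
  let QB : Fin t × Fin (T ^ 28) → ℕ := fun x => Q (Sum.inr x.1, x.2)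
  have hQAinj : Function.Injective QA := by
    intro x y hxy
    have h1 := Prod.mk.inj (hQinj hxy)
    exact Prod.ext (Sum.inl_injective h1.1) h1.2
  have hQBinj : Function.Injective QB := by
    intro x y hxy
    have h1 := Prod.mk.inj (hQinj hxy)
    exact Prod.ext (Sum.inr_injective h1.1) h1.2
  let f : (Fin t → Fin (T ^ 28)) → ℕ := fun x => ∏ i, QA (i, x i)
  let h : (Fin t → Fin (T ^ 28)) → ℕ := fun x => ∏ i, QB (i, x i)
  have hfinj : Function.Injective f := pool_prod_injective QA hQAinj fun x => (hQ _).1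
  have hhinj : Function.Injective h := pool_prod_injective QB hQBinj fun x => (hQ _).1
  have hpow : ∀ c : ℕ, (T ^ 30) ^ c = 2 ^ (30 * l * c) := by
    intro c
    rw [hTdef, ← pow_mul, ← pow_mul]
    congr 1
    ring
  have hTpow : (T ^ 30) ^ t < 2 ^ (T ^ 2) := by
    rw [hpow]
    apply Nat.pow_lt_pow_right (by norm_num)
    rw [sq]
    calc 30 * l * t < T * t := by
          apply Nat.mul_lt_mul_of_pos_right _ (by omega)
          omega
      _ ≤ T * T := Nat.mul_le_mul_left _ (by omega)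
  have hfle : ∀ x, f x ≤ (T ^ 30) ^ t := by
    intro x
    calc f x ≤ (T ^ 30) ^ (univ : Finset (Fin t)).card :=
          Finset.prod_le_pow_card _ _ _ (fun k _ => (hQ _).2.2)
      _ = (T ^ 30) ^ t := by simp
  have hhle : ∀ x, h x ≤ (T ^ 30) ^ t := by
    intro x
    calc h x ≤ (T ^ 30) ^ (univ : Finset (Fin t)).card :=
          Finset.prod_le_pow_card _ _ _ (fun k _ => (hQ _).2.2)
      _ = (T ^ 30) ^ t := by simp
  let φ : Bool → (Fin t → Fin (T ^ 28)) → ℕ := fun b => if b then f else h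
  have hφinj : ∀ b, Function.Injective (φ b) := by
    intro b
    cases b
    · exact hhinj
    · exact hfinj
  have hφlt : ∀ b x, φ b x < 2 ^ (T ^ 2) := by
    intro b x
    cases b
    · exact lt_of_le_of_lt (hhle x) hTpow
    · exact lt_of_le_of_lt (hfle x) hTpow
  have hcardι : Fintype.card (Fin t) = t := by simp
  obtain ⟨Bad1, hB1, hB2⟩ := coll_most T (by omega) (ι := Fin t)
    (by rw [hcardι]; omega) φ hφinj hφlt P hPinj (fun x => (hP x).1)
  rw [hcardι] at hB1
  have hcardα' : Fintype.card (Fin t → Fin (T ^ 28)) = (T ^ 28) ^ t := by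
    rw [Fintype.card_fun, Fintype.card_fin, Fintype.card_fin]
  obtain ⟨β, hβ⟩ : ∃ β, β ∉ Bad1 := by
    by_contra hcon
    push Not at hcon
    have h1 : Bad1 = univ := Finset.eq_univ_iff_forall.mpr hcon
    rw [h1, Finset.card_univ, hcardα'] at hB1
    have h2 : 0 < (T ^ 28) ^ t := by positivity
    omega
  have hcardα : (Fintype.card (Fin t → Fin (T ^ 28)) : ℝ) = (2 : ℝ) ^ (28 * l * t) := by
    rw [hcardα', hTdef]
    push_cast
    rw [← pow_mul, ← pow_mul]
    congr 1
    ring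
  have hpar2 : 5 + 91 * l * t ≤ 4 * (28 * l * t) := by
    have h1 : 10 * 1 ≤ l * t := Nat.mul_le_mul hl ht
    nlinarith
  have herr := error_bound_half t hcardι (fun i => P (i, β i)) ((T : ℝ) ^ 30)
    ((2 : ℝ) ^ (28 * l * t))
    ((T : ℝ) ^ 24) (one_le_pow₀ (by norm_num)) (by positivity) (by positivity)
    (fun i => by exact_mod_cast (hP (i, β i)).2.2)
    (by
      have h1 := param_A l t (28 * l * t) (by omega) hpar2
      rw [← hTdef] at h1
      exact h1) (param_two T t (by omega) (by omega))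
  rw [← hcardα] at herr
  -- bad pairs
  let Bad2 : Finset ((Fin t → Fin (T ^ 28)) × (Fin t → Fin (T ^ 28))) :=
    univ.filter fun z => (Sum.elim z.1 z.2 : Fin t ⊕ Fin t → Fin (T ^ 28)) ∈ Bad
  have hBad2card : 20 * Bad2.card ≤ (Fintype.card (Fin t → Fin (T ^ 28))) ^ 2 := by
    have h1 : Bad2.card ≤ Bad.card := by
      apply Finset.card_le_card_of_injOn
        (fun z => (Sum.elim z.1 z.2 : Fin t ⊕ Fin t → Fin (T ^ 28)))
      · intro z hz
        exact (Finset.mem_filter.mp (Finset.mem_coe.mp hz)).2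
      · intro z _ w _ hzw
        simp only at hzw
        apply Prod.ext
        · funext i
          exact congrFun hzw (Sum.inl i)
        · funext i
          exact congrFun hzw (Sum.inr i)
    rw [hcardα', sq, ← pow_add]
    omega
  refine ⟨∏ i, P (i, β i), ?_, ?_, ?_⟩
  · calc 2 ^ (29 * l * t) = ∏ _i : Fin t, T ^ 29 := by
          rw [Finset.prod_const, Finset.card_univ, Fintype.card_fin, hTdef, ← pow_mul, ← pow_mul]
          congr 1
          ring
      _ ≤ ∏ i, P (i, β i) := Finset.prod_le_prod' fun i _ => (hP _).2.1.le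
  · calc ∏ i, P (i, β i) ≤ (T ^ 30) ^ (univ : Finset (Fin t)).card :=
          Finset.prod_le_pow_card _ _ _ (fun k _ => (hP _).2.2)
      _ = 2 ^ (30 * l * t) := by rw [Finset.card_univ, Fintype.card_fin, hpow]
  intro m
  obtain ⟨p, hp1, hp2⟩ := covering5 (fun i => P (i, β i)) (fun i => (hP (i, β i)).1) f h
    (fun J => (Fintype.card (Fin t → Fin (T ^ 28)) : ℝ)
      + 2 * (Fintype.card (Fin t → Fin (T ^ 28)) : ℝ) ^ 2 / ((T : ℝ) ^ 24) ^ J.card)
    (fun J hJ => filter_card_of_ncard _ _ _ (hB2 β hβ true J hJ))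
    (fun J hJ => filter_card_of_ncard _ _ _ (hB2 β hβ false J hJ))
    herr Bad2 hBad2card m
  refine ⟨∑ k, f (p k).1 * h (p k).2, ?_, ?_, ?_⟩
  · calc ∑ k, f (p k).1 * h (p k).2 ≤ ∑ _k : Fin 5, 2 ^ (60 * l * t) := by
          apply Finset.sum_le_sum
          intro k _
          calc f (p k).1 * h (p k).2 ≤ (T ^ 30) ^ t * (T ^ 30) ^ t :=
                Nat.mul_le_mul (hfle _) (hhle _)
            _ = 2 ^ (60 * l * t) := by
                rw [hpow, ← pow_add]
                congr 1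
                ring
      _ = 5 * 2 ^ (60 * l * t) := by simp
  · push_cast
    apply Fintype.prod_dvd_of_coprime
    · intro i j hij
      simp only [Function.onFun]
      rw [Nat.isCoprime_iff_coprime]
      apply (Nat.coprime_primes (hP _).1 (hP _).1).mpr
      intro heq
      exact hij (Prod.mk.inj (hPinj heq)).1
    · intro i
      have h1 := hp2 i
      rw [← ZMod.intCast_zmod_eq_zero_iff_dvd]
      push_cast
      push_cast at h1
      rw [h1, sub_self]
  · have h1 : UF ((univ : Finset (Fin 5)).card * 4)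
        (∑ k : Fin 5, ((f (p k).1 * h (p k).2 : ℕ) : ℚ) / ((∏ i, E i : ℕ) : ℚ)) := by
      apply UF.sum
      intro k _
      have h2 := hBad2 (Sum.elim (p k).1 (p k).2) (by
        intro hmem
        exact hp1 k (Finset.mem_filter.mpr ⟨Finset.mem_univ _, hmem⟩))
      rw [Fintype.prod_sum_type] at h2
      exact h2
    rw [← Finset.sum_div] at h1
    have h2 : (∑ k : Fin 5, ((f (p k).1 * h (p k).2 : ℕ) : ℚ))
        = ((∑ k : Fin 5, f (p k).1 * h (p k).2 : ℕ) : ℚ) := by
      push_cast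
      rfl
    rw [h2] at h1
    exact h1.mono (by simp)

end Vale.Agent.P012
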