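import Vale.Agent.P012.UF

namespace Vale.Agent.P012

open Finset

theorem sum_unit_pos (s : Multiset ℕ) (hs : ∀ n ∈ s, 0 < n) (hne : s ≠ 0) :
    0 < (s.map fun n : ℕ => (1 : ℚ) / n).sum := by
  obtain ⟨a, ha⟩ := Multiset.exists_mem_of_ne_zero hne
  obtain ⟨t, rfl⟩ := Multiset.exists_cons_of_mem ha
  rw [Multiset.map_cons, Multiset.sum_cons]
  have h1 : (0 : ℚ) < 1 / a := by
    have := hs a ha
    positivity
  have h2 : (0 : ℚ) ≤ (t.map fun n : ℕ => (1 : ℚ) / n).sum := by
    apply Multiset.sum_nonneg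
    intro x hx
    obtain ⟨n, _, rfl⟩ := Multiset.mem_map.mp hx
    positivity
  linarith

/-- Only finitely many representations of a given length. -/
theorem finite_reps (j : ℕ) : ∀ ρ : ℚ, {s : Multiset ℕ | s.card = j ∧ (∀ n ∈ s, 0 < n) ∧
    (s.map fun n : ℕ => (1 : ℚ) / n).sum = ρ}.Finite := by
  induction j with
  | zero =>
    intro ρ
    apply (Set.finite_singleton (0 : Multiset ℕ)).subset
    intro s hs
    exact Multiset.card_eq_zero.mp hs.1
  | succ j ih =>
    intro ρ
    rcases le_or_gt ρ 0 with hρ | hρ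
    · apply Set.finite_empty.subset
      rintro s ⟨h1, h2, h3⟩
      exfalso
      have hne : s ≠ 0 := by
        rintro rfl
        simp at h1
      have := sum_unit_pos s h2 hne
      linarith
    · obtain ⟨N0, hN0⟩ := exists_nat_gt (((j : ℚ) + 1) / ρ)
      have hN0pos : (0 : ℚ) < N0 := lt_trans (by positivity) hN0
      refine Set.Finite.subset (Set.Finite.biUnion (Finset.finite_toSet (Finset.range N0))
        fun n _ => (ih (ρ - 1 / n)).image (Multiset.cons n)) ?_
      rintro s ⟨h1, h2, h3⟩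
      have h4 : ∃ n ∈ s, n < N0 := by
        by_contra hcon
        push Not at hcon
        have h5 := Multiset.sum_le_card_nsmul (s.map fun n : ℕ => (1 : ℚ) / n) (1 / N0) (by
          intro x hx
          obtain ⟨n, hn, rfl⟩ := Multiset.mem_map.mp hx
          have h6 : (N0 : ℚ) ≤ n := by exact_mod_cast hcon n hn
          exact one_div_le_one_div_of_le hN0pos h6)
        rw [h3, Multiset.card_map, h1, nsmul_eq_mul] at h5
        push_cast at h5
        rw [div_lt_iff₀ hρ] at hN0
        have h7 : ((j : ℚ) + 1) * (1 / N0) < ρ := by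
          rw [mul_one_div, div_lt_iff₀ hN0pos]
          linarith
        linarith
      obtain ⟨n, hn, hnN⟩ := h4
      obtain ⟨t, rfl⟩ := Multiset.exists_cons_of_mem hn
      rw [Set.mem_iUnion₂]
      refine ⟨n, by simpa using hnN, t, ⟨?_, ?_, ?_⟩, rfl⟩
      · rw [Multiset.card_cons] at h1
        omega
      · intro m hm
        exact h2 m (Multiset.mem_cons_of_mem hm)
      · rw [Multiset.map_cons, Multiset.sum_cons] at h3
        linarith

/-- Repeated unit fractions can be removed without increasing the length. -/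
theorem distinct_of_UF {k : ℕ} {ρ : ℚ} (h0 : 0 < ρ) (h1 : ρ < 1) (h : UF k ρ) :
    ∃ S : Finset ℕ, (∀ n ∈ S, 2 ≤ n) ∧ ∑ n ∈ S, (1 : ℚ) / n = ρ ∧ S.card ≤ k := by
  classical
  have hP : ∃ j, ∃ s : Multiset ℕ, s.card = j ∧ (∀ n ∈ s, 0 < n) ∧
      (s.map fun n : ℕ => (1 : ℚ) / n).sum = ρ := by
    obtain ⟨s, _, a2, a3⟩ := h
    exact ⟨s.card, s, rfl, a2, a3⟩
  set j := Nat.find hP with hj
  have hjk : j ≤ k := by
    obtain ⟨s, a1, a2, a3⟩ := h
    exact (Nat.find_min' hP ⟨s, rfl, a2, a3⟩).trans a1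
  have hmin : ∀ s : Multiset ℕ, (∀ n ∈ s, 0 < n) → (s.map fun n : ℕ => (1 : ℚ) / n).sum = ρ →
      j ≤ s.card := fun s a2 a3 => Nat.find_min' hP ⟨s, rfl, a2, a3⟩
  have hne : {s : Multiset ℕ | s.card = j ∧ (∀ n ∈ s, 0 < n) ∧
      (s.map fun n : ℕ => (1 : ℚ) / n).sum = ρ}.Nonempty := Nat.find_spec hP
  obtain ⟨s, ⟨a1, a2, a3⟩, a4⟩ := Set.exists_max_image _
    (fun s : Multiset ℕ => (s.map fun n : ℕ => ((1 : ℚ) / n) ^ 2).sum) (finite_reps j ρ) hne
  have hnodup : s.Nodup := by
    rw [Multiset.nodup_iff_ne_cons_cons]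
    rintro n t rfl
    have hn : 0 < n := a2 n (Multiset.mem_cons_self _ _)
    have ht : ∀ m ∈ t, 0 < m := fun m hm =>
      a2 m (Multiset.mem_cons_of_mem (Multiset.mem_cons_of_mem hm))
    rw [Multiset.map_cons, Multiset.map_cons, Multiset.sum_cons, Multiset.sum_cons] at a3
    rw [Multiset.card_cons, Multiset.card_cons] at a1
    rcases Nat.even_or_odd' n with ⟨m, hm | hm⟩
    · have hm0 : 0 < m := by omega
      have hmq : (m : ℚ) ≠ 0 := by exact_mod_cast hm0.ne'
      have h5 := hmin (m ::ₘ t) (by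
        intro x hx
        rcases Multiset.mem_cons.mp hx with rfl | hx
        · exact hm0
        · exact ht x hx) (by
        rw [Multiset.map_cons, Multiset.sum_cons, ← a3, hm]
        push_cast
        field_simp
        ring)
      rw [Multiset.card_cons] at h5
      omega
    · rcases Nat.eq_zero_or_pos m with hm0 | hm0
      · have hn1 : n = 1 := by omega
        have h6 : (0 : ℚ) ≤ (t.map fun n : ℕ => (1 : ℚ) / n).sum := by
          apply Multiset.sum_nonneg
          intro x hx
          obtain ⟨n, _, rfl⟩ := Multiset.mem_map.mp hx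
          positivity
        have h7 : (1 : ℚ) / ((1 : ℕ) : ℚ) = 1 := by norm_num
        rw [hn1, h7] at a3
        linarith
      · have hmq : (0 : ℚ) < m := by exact_mod_cast hm0
        have h5 := a4 ((m + 1) ::ₘ ((2 * m + 1) * (m + 1)) ::ₘ t) ⟨by
          rw [Multiset.card_cons, Multiset.card_cons]
          exact a1, by
          intro x hx
          rcases Multiset.mem_cons.mp hx with rfl | hx
          · omega
          · rcases Multiset.mem_cons.mp hx with rfl | hx
            · positivity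
            · exact ht x hx, by
          rw [Multiset.map_cons, Multiset.map_cons, Multiset.sum_cons, Multiset.sum_cons, ← a3, hm]
          push_cast
          field_simp
          ring⟩
        simp only [Multiset.map_cons, Multiset.sum_cons] at h5
        rw [hm] at h5
        push_cast at h5
        have h7 : (1 / ((m : ℚ) + 1)) ^ 2 + (1 / ((2 * (m : ℚ) + 1) * ((m : ℚ) + 1))) ^ 2
            - ((1 / (2 * (m : ℚ) + 1)) ^ 2 + (1 / (2 * (m : ℚ) + 1)) ^ 2)
            = 2 * (m : ℚ) ^ 2 / ((2 * (m : ℚ) + 1) ^ 2 * ((m : ℚ) + 1) ^ 2) := by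
          field_simp
          ring
        have h8 : (0 : ℚ) < 2 * (m : ℚ) ^ 2 / ((2 * (m : ℚ) + 1) ^ 2 * ((m : ℚ) + 1) ^ 2) := by
          positivity
        linarith
  have hsum : ∑ n ∈ s.toFinset, (1 : ℚ) / n = ρ := by
    rw [Finset.sum_multiset_map_count] at a3
    rw [← a3]
    refine Finset.sum_congr rfl fun n hn => ?_
    rw [Multiset.count_eq_one_of_mem hnodup (Multiset.mem_toFinset.mp hn), one_nsmul]
  refine ⟨s.toFinset, ?_, hsum, ?_⟩
  · intro n hn
    have hn0 := a2 n (Multiset.mem_toFinset.mp hn)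
    by_contra hlt
    have hn1 : n = 1 := by omega
    have h9 : (1 : ℚ) / n ≤ ∑ n ∈ s.toFinset, (1 : ℚ) / n :=
      Finset.single_le_sum (f := fun n : ℕ => (1 : ℚ) / n) (fun _ _ => by positivity) hn
    rw [hsum, hn1] at h9
    norm_num at h9
    linarith
  · exact (Multiset.toFinset_card_le s).trans (a1.le.trans hjk)

end Vale.Agent.P012
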