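import Mathlib

namespace Vale.Agent.P012

open Finset

theorem one_add_pow_le (L : ℝ) (hL : 0 ≤ L) (n : ℕ) (hn : 1 ≤ n) :
    1 + L ^ n ≤ (1 + L) ^ n := by
  induction n, hn using Nat.le_induction with
  | base => simp
  | succ n _ ih =>
    have h1 : 0 ≤ L ^ n := pow_nonneg hL n
    calc 1 + L ^ (n + 1) ≤ (1 + L ^ n) * (1 + L) := by
          rw [pow_succ]; nlinarith
      _ ≤ (1 + L) ^ n * (1 + L) := by gcongr
      _ = (1 + L) ^ (n + 1) := by rw [pow_succ]

/-- Averaging over all choices of one element from each pool. -/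
theorem selection {t M : ℕ} (hM : 0 < M) {Δ : Type*} [Fintype Δ]
    (D : Fin t → Fin M → Δ → Prop) [∀ i j e, Decidable (D i j e)]
    (B : ℕ) (hB : ∀ i e, (univ.filter fun j => D i j e).card ≤ B) (L : ℝ) (hL : 0 ≤ L)
    (h2 : (1 + B * L / M) ^ t ≤ 2) :
    ∃ s : Fin t → Fin M, ∀ J : Finset (Fin t), J.Nonempty →
      L ^ J.card * ((univ.filter fun e => ∀ i ∈ J, D i (s i) e).card : ℝ)
        ≤ (Fintype.card Δ : ℝ) := by
  classical
  have hM' : (0 : ℝ) < M := by exact_mod_cast hM
  let w : Fin t → Fin M → Δ → ℝ := fun i j e => 1 + if D i j e then L else 0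
  have hw1 : ∀ i j e, 1 ≤ w i j e := by
    intro i j e
    simp only [w]
    split_ifs <;> linarith
  let Φ : (Fin t → Fin M) → ℝ := fun s => ∑ e : Δ, (∏ i, w i (s i) e - 1)
  have hsum : ∑ s, Φ s ≤ ∑ _s : Fin t → Fin M, (Fintype.card Δ : ℝ) := by
    have h3 : ∑ s, Φ s = ∑ e : Δ, (∏ i, (∑ j, w i j e) - (M : ℝ) ^ t) := by
      simp only [Φ]
      rw [Finset.sum_comm]
      refine Finset.sum_congr rfl fun e _ => ?_
      rw [Finset.sum_sub_distrib, Finset.prod_univ_sum, Fintype.piFinset_univ]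
      congr 1
      simp
    rw [h3]
    have h4 : ∀ e : Δ, ∏ i, (∑ j, w i j e) - (M : ℝ) ^ t ≤ (M : ℝ) ^ t := by
      intro e
      have h5 : ∀ i, ∑ j, w i j e ≤ M + B * L := by
        intro i
        simp only [w]
        rw [Finset.sum_add_distrib, ← Finset.sum_filter]
        simp only [Finset.sum_const, Finset.card_univ, Fintype.card_fin, nsmul_eq_mul, mul_one]
        have := hB i e
        have h6 : ((univ.filter fun j => D i j e).card : ℝ) ≤ B := by exact_mod_cast this
        nlinarith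
      have h7 : ∏ i, (∑ j, w i j e) ≤ (M + B * L) ^ t := by
        calc ∏ i, (∑ j, w i j e) ≤ ∏ _i : Fin t, ((M : ℝ) + B * L) := by
              apply Finset.prod_le_prod
              · intro i _
                exact Finset.sum_nonneg fun j _ => le_trans zero_le_one (hw1 i j e)
              · intro i _
                exact h5 i
          _ = _ := by simp
      have h8 : ((M : ℝ) + B * L) ^ t = (M : ℝ) ^ t * (1 + B * L / M) ^ t := by
        rw [← mul_pow]
        congr 1
        field_simp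
      have h9 : (M : ℝ) ^ t * (1 + B * L / M) ^ t ≤ (M : ℝ) ^ t * 2 := by
        gcongr
      linarith
    calc ∑ e : Δ, (∏ i, (∑ j, w i j e) - (M : ℝ) ^ t) ≤ ∑ _e : Δ, (M : ℝ) ^ t :=
          Finset.sum_le_sum fun e _ => h4 e
      _ = _ := by
          simp [mul_comm]
  have : Nonempty (Fin M) := ⟨⟨0, hM⟩⟩
  obtain ⟨s, _, hs⟩ := Finset.exists_le_of_sum_le (Finset.univ_nonempty) hsum
  refine ⟨s, fun J hJ => le_trans ?_ hs⟩
  have h10 : L ^ J.card * ((univ.filter fun e => ∀ i ∈ J, D i (s i) e).card : ℝ)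
      = ∑ e : Δ, if (∀ i ∈ J, D i (s i) e) then L ^ J.card else 0 := by
    rw [← Finset.sum_filter, Finset.sum_const, nsmul_eq_mul, mul_comm]
  rw [h10]
  apply Finset.sum_le_sum
  intro e _
  have hprod1 : 1 ≤ ∏ i, w i (s i) e := by
    apply Finset.one_le_prod
    intro i _
    exact hw1 i (s i) e
  split_ifs with h
  · have h11 : ∏ i ∈ J, w i (s i) e = (1 + L) ^ J.card := by
      rw [← Finset.prod_const]
      refine Finset.prod_congr rfl fun i hi => ?_
      simp only [w]
      rw [if_pos (h i hi)]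
    have h12 : ∏ i ∈ J, w i (s i) e ≤ ∏ i, w i (s i) e := by
      rw [← Finset.prod_sdiff (Finset.subset_univ J)]
      have h14 : 1 ≤ ∏ i ∈ univ \ J, w i (s i) e := by
        apply Finset.one_le_prod
        intro i _
        exact hw1 i (s i) e
      have h15 : 0 ≤ ∏ i ∈ J, w i (s i) e :=
        Finset.prod_nonneg fun i _ => le_trans zero_le_one (hw1 i (s i) e)
      nlinarith
    have h13 := one_add_pow_le L hL J.card hJ.card_pos
    linarith
  · linarith

end Vale.Agent.P012
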