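import Vale.Agent.P012.Covering
import Vale.Agent.P012.Selection
import Vale.Agent.P012.Numeric

namespace Vale.Agent.P012

open Finset

theorem card_primeFactors_lt (n B : ℕ) (hn : n ≠ 0) (h : n < 2 ^ B) :
    n.primeFactors.card < B := by
  have h1 : 2 ^ n.primeFactors.card ≤ ∏ p ∈ n.primeFactors, p := by
    apply Finset.pow_card_le_prod
    intro p hp
    exact (Nat.prime_of_mem_primeFactors hp).two_le
  have h2 : ∏ p ∈ n.primeFactors, p ≤ n :=
    Nat.le_of_dvd (Nat.pos_of_ne_zero hn) (Nat.prod_primeFactors_dvd n)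
  exact (Nat.pow_lt_pow_iff_right (by norm_num : 1 < 2)).mp (lt_of_le_of_lt (h1.trans h2) h)

theorem card_dvd_le {κ : Type*} [Fintype κ] (P : κ → ℕ) (hinj : Function.Injective P)
    (hP : ∀ j, (P j).Prime) (δ : ℤ) (hδ : δ ≠ 0) (B : ℕ) (hB : δ.natAbs < 2 ^ B) :
    (univ.filter fun j => (P j : ℤ) ∣ δ).card ≤ B := by
  classical
  have h0 : δ.natAbs ≠ 0 := Int.natAbs_ne_zero.mpr hδ
  have h1 : (univ.filter fun j => (P j : ℤ) ∣ δ).card ≤ δ.natAbs.primeFactors.card := by
    apply Finset.card_le_card_of_injOn P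
    · intro j hj
      have hj' := (Finset.mem_filter.mp (Finset.mem_coe.mp hj)).2
      rw [Finset.mem_coe, Nat.mem_primeFactors]
      exact ⟨hP j, Int.natCast_dvd.mp hj', h0⟩
    · exact hinj.injOn
  exact h1.trans (card_primeFactors_lt _ _ h0 hB).le

theorem prod_dvd {κ : Type*} (E : κ → ℕ) (hinj : Function.Injective E) (N : ℕ)
    (hE : ∀ k, E k ∈ N.primeFactors) (S : Finset κ) : ∏ k ∈ S, E k ∣ N := by
  classical
  have h1 : ∏ k ∈ S, E k = ∏ p ∈ S.image E, p := by
    rw [Finset.prod_image]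
    intro a _ b _ hab
    exact hinj hab
  rw [h1]
  refine dvd_trans (Finset.prod_dvd_prod_of_subset _ _ _ ?_) (Nat.prod_primeFactors_dvd N)
  intro p hp
  obtain ⟨k, _, rfl⟩ := Finset.mem_image.mp hp
  exact hE k

theorem prime_dvd_prod_iff {κ : Type*} (E : κ → ℕ) (hinj : Function.Injective E)
    (hE : ∀ k, (E k).Prime) (S : Finset κ) (k : κ) : E k ∣ ∏ j ∈ S, E j ↔ k ∈ S := by
  constructor
  · intro h
    rw [Prime.dvd_finsetProd_iff (hE k).prime] at h
    obtain ⟨j, hj, hkj⟩ := h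
    have := (Nat.prime_dvd_prime_iff_eq (hE k) (hE j)).mp hkj
    rw [hinj this]
    exact hj
  · intro h
    exact Finset.dvd_prod_of_mem E h

theorem prod_injective {κ : Type*} (E : κ → ℕ) (hinj : Function.Injective E)
    (hE : ∀ k, (E k).Prime) : Function.Injective (fun S : Finset κ => ∏ j ∈ S, E j) := by
  intro S S' h
  ext k
  rw [← prime_dvd_prod_iff E hinj hE S k, ← prime_dvd_prod_iff E hinj hE S' k]
  simp only at h
  rw [h]

theorem card_filter_le_of_iff {β : Type*} [Fintype β] (P Q : β → Prop) (i1 : DecidablePred P)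
    (i2 : DecidablePred Q) (h : ∀ b, P b ↔ Q b) (K : ℝ)
    (hK : ((@Finset.filter β P i1 univ).card : ℝ) ≤ K) :
    ((@Finset.filter β Q i2 univ).card : ℝ) ≤ K := by
  have h1 : @Finset.filter β P i1 univ = @Finset.filter β Q i2 univ := by
    ext b
    simp [h b]
  rw [← h1]
  exact hK

/-- Existence of the pools. -/
theorem pools (T t N : ℕ) (hT : 15 ≤ T) (ht1 : 1 ≤ t) (ht : 91 * (Nat.log 2 T + 1) * t ≤ T)
    (hN0 : N ≠ 0) (hN : N ≤ 2 ^ (T ^ 2)) :
    ∃ P : Fin t × Fin (T ^ 28) → ℕ, Function.Injective P ∧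
      ∀ x, (P x).Prime ∧ P x ≤ T ^ 30 ∧ ¬ P x ∣ N := by
  classical
  have ht' : 91 * (Nat.log 2 T + 1) ≤ T := le_trans (Nat.le_mul_of_pos_right _ ht1) ht
  have htT : t ≤ T := by
    refine le_trans ?_ ht
    exact Nat.le_mul_of_pos_left _ (by positivity)
  have h1 := param_four T hT ht'
  rw [← Nat.primesLE_card_eq_primeCounting] at h1
  set Q := Nat.primesLE (T ^ 30) \ N.primeFactors with hQ
  have h2 : N.primeFactors.card ≤ T ^ 2 := by
    have : N.primeFactors.card < T ^ 2 + 1 := by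
      apply card_primeFactors_lt N (T ^ 2 + 1) hN0
      calc N ≤ 2 ^ (T ^ 2) := hN
        _ < 2 ^ (T ^ 2 + 1) := Nat.pow_lt_pow_right (by norm_num) (by omega)
    omega
  have h3 : T ^ 29 ≤ Q.card := by
    have := Finset.le_card_sdiff N.primeFactors (Nat.primesLE (T ^ 30))
    rw [← hQ] at this
    omega
  have h4 : Fintype.card (Fin t × Fin (T ^ 28)) ≤ Fintype.card Q := by
    rw [Fintype.card_prod, Fintype.card_fin, Fintype.card_fin, Fintype.card_coe]
    calc t * T ^ 28 ≤ T * T ^ 28 := Nat.mul_le_mul_right _ htT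
      _ = T ^ 29 := by ring
      _ ≤ Q.card := h3
  obtain ⟨e⟩ := Function.Embedding.nonempty_of_card_le h4
  refine ⟨fun x => (e x : ℕ), ?_, ?_⟩
  · intro x y hxy
    exact e.injective (Subtype.ext hxy)
  · intro x
    have hx : (e x : ℕ) ∈ Nat.primesLE (T ^ 30) \ N.primeFactors := (e x).2
    rw [Finset.mem_sdiff, Nat.mem_primesLE] at hx
    refine ⟨hx.1.2, hx.1.1, ?_⟩
    intro hdvd
    exact hx.2 (Nat.mem_primeFactors.mpr ⟨hx.1.2, hdvd, hN0⟩)

/-- The core: new primes such that every residue class is a sum of at most four distinct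
divisors of `N`. -/
theorem core (T t N : ℕ) (hT : 15 ≤ T) (ht1 : 1 ≤ t) (ht : 91 * (Nat.log 2 T + 1) * t ≤ T)
    (hN0 : N ≠ 0) (hN : N ≤ 2 ^ (T ^ 2)) (hω : T ≤ N.primeFactors.card) :
    ∃ r : Fin t → ℕ, Function.Injective r ∧ (∀ i, (r i).Prime ∧ r i ≤ T ^ 30 ∧ ¬ r i ∣ N) ∧
      ∀ m : ℕ, ∃ S : Finset ℕ, S ⊆ N.divisors ∧ S.card ≤ 4 ∧ ∑ d ∈ S, d ≤ N ∧
        ∀ i, ((∑ d ∈ S, d : ℕ) : ZMod (r i)) = (m : ZMod (r i)) := by
  classical
  have htT : t ≤ T := by
    refine le_trans ?_ ht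
    exact Nat.le_mul_of_pos_left _ (by positivity)
  obtain ⟨P, hPinj, hP⟩ := pools T t N hT ht1 ht hN0 hN
  set g := (T - 4) / 2 with hg
  have hcard : Fintype.card ((Fin g ⊕ Fin g) ⊕ Fin 4) ≤ Fintype.card N.primeFactors := by
    rw [Fintype.card_coe, Fintype.card_sum, Fintype.card_sum, Fintype.card_fin, Fintype.card_fin]
    omega
  obtain ⟨e⟩ := Function.Embedding.nonempty_of_card_le hcard
  let E : (Fin g ⊕ Fin g) ⊕ Fin 4 → ℕ := fun k => (e k : ℕ)
  have hEinj : Function.Injective E := fun a b hab => e.injective (Subtype.ext hab)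
  have hEmem : ∀ k, E k ∈ N.primeFactors := fun k => (e k).2
  have hEp : ∀ k, (E k).Prime := fun k => Nat.prime_of_mem_primeFactors (hEmem k)
  let EA : Fin g → ℕ := fun i => E (Sum.inl (Sum.inl i))
  let EB : Fin g → ℕ := fun i => E (Sum.inl (Sum.inr i))
  let q : Fin 4 → ℕ := fun i => E (Sum.inr i)
  have hEAinj : Function.Injective EA := fun a b hab =>
    Sum.inl_injective (Sum.inl_injective (hEinj hab))
  have hEBinj : Function.Injective EB := fun a b hab =>
    Sum.inr_injective (Sum.inl_injective (hEinj hab))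
  have hEAp : ∀ i, (EA i).Prime := fun i => hEp _
  have hEBp : ∀ i, (EB i).Prime := fun i => hEp _
  let f : Finset (Fin g) → ℕ := fun x => ∏ i ∈ x, EA i
  let h : Finset (Fin g) → ℕ := fun x => ∏ i ∈ x, EB i
  have hfinj : Function.Injective f := prod_injective EA hEAinj hEAp
  have hhinj : Function.Injective h := prod_injective EB hEBinj hEBp
  have hfdvd : ∀ x, f x ∣ N := fun x => prod_dvd EA hEAinj N (fun k => hEmem _) x
  have hhdvd : ∀ x, h x ∣ N := fun x => prod_dvd EB hEBinj N (fun k => hEmem _) x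
  have hNpos : 0 < N := Nat.pos_of_ne_zero hN0
  -- selection
  let φ : Bool → Finset (Fin g) → ℕ := fun b => if b then f else h
  have hφinj : ∀ b, Function.Injective (φ b) := by
    intro b
    cases b
    · exact hhinj
    · exact hfinj
  have hφdvd : ∀ b x, φ b x ∣ N := by
    intro b x
    cases b
    · exact hhdvd x
    · exact hfdvd x
  let D : Fin t → Fin (T ^ 28) → (Bool × (Finset (Fin g) × Finset (Fin g))) → Prop :=
    fun i j z => z.2.1 ≠ z.2.2 ∧ (P (i, j) : ℤ) ∣ (φ z.1 z.2.1 : ℤ) - (φ z.1 z.2.2 : ℤ)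
  have hD : ∀ i z, (univ.filter fun j => D i j z).card ≤ T ^ 2 := by
    intro i z
    by_cases hz : z.2.1 = z.2.2
    · have : (univ.filter fun j => D i j z) = ∅ := by
        apply Finset.filter_eq_empty_iff.mpr
        intro j _ hj
        exact hj.1 hz
      rw [this]
      simp
    · have hδ : (φ z.1 z.2.1 : ℤ) - (φ z.1 z.2.2 : ℤ) ≠ 0 := by
        intro h0
        apply hz
        apply hφinj z.1
        exact_mod_cast sub_eq_zero.mp h0
      have hδ2 : ((φ z.1 z.2.1 : ℤ) - (φ z.1 z.2.2 : ℤ)).natAbs < 2 ^ (T ^ 2) := by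
        have h1 : φ z.1 z.2.1 ≤ N := Nat.le_of_dvd hNpos (hφdvd _ _)
        have h2 : φ z.1 z.2.2 ≤ N := Nat.le_of_dvd hNpos (hφdvd _ _)
        have h3 : 0 < φ z.1 z.2.1 := Nat.pos_of_dvd_of_pos (hφdvd _ _) hNpos
        have h4 : 0 < φ z.1 z.2.2 := Nat.pos_of_dvd_of_pos (hφdvd _ _) hNpos
        omega
      have h5 := card_dvd_le (fun j => P (i, j)) (fun a b hab => (Prod.mk.inj (hPinj hab)).2)
        (fun j => (hP (i, j)).1) _ hδ _ hδ2
      refine le_trans (Finset.card_le_card ?_) h5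
      intro j hj
      rw [Finset.mem_filter] at hj ⊢
      exact ⟨hj.1, hj.2.2⟩
  have hM : 0 < T ^ 28 := by positivity
  obtain ⟨s, hs⟩ := selection (t := t) (M := T ^ 28) hM D (T ^ 2) hD ((T : ℝ) ^ 24)
    (by positivity) (param_three T t hT htT)
  have hcardΔ : (Fintype.card (Bool × (Finset (Fin g) × Finset (Fin g))) : ℝ)
      = 2 * ((2 : ℝ) ^ g) ^ 2 := by
    simp only [Fintype.card_prod, Fintype.card_bool, Fintype.card_finset, Fintype.card_fin]
    push_cast
    ring
  refine ⟨fun i => P (i, s i), ?_, fun i => hP (i, s i), ?_⟩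
  · intro a b hab
    exact (Prod.mk.inj (hPinj hab)).1
  intro m
  have hTpos : (0 : ℝ) < (T : ℝ) ^ 24 := by positivity
  have hK : ∀ b : Bool, ∀ J : Finset (Fin t), J.Nonempty →
      ((univ.filter fun p : Finset (Fin g) × Finset (Fin g) =>
        ∀ i ∈ J, (φ b p.1 : ZMod (P (i, s i))) = (φ b p.2 : ZMod (P (i, s i)))).card : ℝ)
      ≤ 2 ^ g + 2 * ((2 : ℝ) ^ g) ^ 2 / ((T : ℝ) ^ 24) ^ J.card := by
    intro b J hJ
    have h1 : (univ.filter fun p : Finset (Fin g) × Finset (Fin g) =>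
        ∀ i ∈ J, (φ b p.1 : ZMod (P (i, s i))) = (φ b p.2 : ZMod (P (i, s i))))
        ⊆ (univ.image fun x : Finset (Fin g) => (x, x)) ∪
          ((univ.filter fun z => ∀ i ∈ J, D i (s i) z).image fun z => z.2) := by
      intro p hp
      rw [Finset.mem_filter] at hp
      rw [Finset.mem_union]
      by_cases hpe : p.1 = p.2
      · left
        rw [Finset.mem_image]
        exact ⟨p.1, Finset.mem_univ _, Prod.ext rfl hpe⟩
      · right
        rw [Finset.mem_image]
        refine ⟨(b, p), ?_, rfl⟩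
        rw [Finset.mem_filter]
        refine ⟨Finset.mem_univ _, fun i hi => ⟨hpe, ?_⟩⟩
        have h2 := hp.2 i hi
        have h3 : (((φ b p.1 : ℤ) - (φ b p.2 : ℤ) : ℤ) : ZMod (P (i, s i))) = 0 := by
          push_cast
          rw [h2, sub_self]
        exact (ZMod.intCast_zmod_eq_zero_iff_dvd _ _).mp h3
    have h4 : (univ.filter fun p : Finset (Fin g) × Finset (Fin g) =>
        ∀ i ∈ J, (φ b p.1 : ZMod (P (i, s i))) = (φ b p.2 : ZMod (P (i, s i)))).card
        ≤ 2 ^ g + (univ.filter fun z => ∀ i ∈ J, D i (s i) z).card := by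
      refine (Finset.card_le_card h1).trans ((Finset.card_union_le _ _).trans ?_)
      refine add_le_add (Finset.card_image_le.trans ?_) Finset.card_image_le
      simp
    have h5 : ((univ.filter fun z => ∀ i ∈ J, D i (s i) z).card : ℝ)
        ≤ 2 * ((2 : ℝ) ^ g) ^ 2 / ((T : ℝ) ^ 24) ^ J.card := by
      rw [le_div_iff₀ (by positivity), mul_comm, ← hcardΔ]
      exact hs J hJ
    calc _ ≤ ((2 ^ g + (univ.filter fun z => ∀ i ∈ J, D i (s i) z).card : ℕ) : ℝ) := by
          exact_mod_cast h4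
      _ ≤ _ := by
          push_cast
          linarith
  have hq : ∀ k i, ¬ P (i, s i) ∣ q k := by
    intro k i hdvd
    apply (hP (i, s i)).2.2
    exact hdvd.trans (Nat.dvd_of_mem_primeFactors (hEmem _))
  have herr := error_bound t (fun i => P (i, s i)) ((T : ℝ) ^ 30) ((2 : ℝ) ^ g) ((T : ℝ) ^ 24)
    (one_le_pow₀ (by norm_num)) hTpos (by positivity)
    (fun i => by exact_mod_cast (hP (i, s i)).2.1)
    (param_one T t hT ht) (param_two T t hT htT)
  have hcα : (Fintype.card (Finset (Fin g)) : ℝ) = (2 : ℝ) ^ g := by simp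
  rw [← hcα] at herr
  have hKf : ∀ J : Finset (Fin t), J.Nonempty →
      ((univ.filter fun p : Finset (Fin g) × Finset (Fin g) =>
        ∀ i ∈ J, (f p.1 : ZMod (P (i, s i))) = (f p.2 : ZMod (P (i, s i)))).card : ℝ)
      ≤ 2 ^ g + 2 * ((2 : ℝ) ^ g) ^ 2 / ((T : ℝ) ^ 24) ^ J.card := by
    intro J hJ
    refine le_trans (le_of_eq (congrArg (fun s : Finset (Finset (Fin g) × Finset (Fin g)) =>
      (s.card : ℝ)) (Finset.filter_congr fun p _ => ?_))) (hK true J hJ)
    simp [φ]
  have hKh : ∀ J : Finset (Fin t), J.Nonempty →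
      ((univ.filter fun p : Finset (Fin g) × Finset (Fin g) =>
        ∀ i ∈ J, (h p.1 : ZMod (P (i, s i))) = (h p.2 : ZMod (P (i, s i)))).card : ℝ)
      ≤ 2 ^ g + 2 * ((2 : ℝ) ^ g) ^ 2 / ((T : ℝ) ^ 24) ^ J.card := by
    intro J hJ
    refine le_trans (le_of_eq (congrArg (fun s : Finset (Finset (Fin g) × Finset (Fin g)) =>
      (s.card : ℝ)) (Finset.filter_congr fun p _ => ?_))) (hK false J hJ)
    simp [φ]
  obtain ⟨p, hp⟩ := covering (fun i => P (i, s i)) (fun i => (hP (i, s i)).1) f h q hq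
    (fun J => (Fintype.card (Finset (Fin g)) : ℝ)
      + 2 * (Fintype.card (Finset (Fin g)) : ℝ) ^ 2 / ((T : ℝ) ^ 24) ^ J.card)
    (fun J hJ => by
      rw [hcα]
      exact card_filter_le_of_iff _ _ _ _ (fun _ => Iff.rfl) _ (hKf J hJ))
    (fun J hJ => by
      rw [hcα]
      exact card_filter_le_of_iff _ _ _ _ (fun _ => Iff.rfl) _ (hKh J hJ))
    herr m
  -- assemble the divisors
  let d : Fin 4 → ℕ := fun k => q k * f (p k).1 * h (p k).2
  have hbig : ∀ x y, (f x * h y) * ∏ j, q j ∣ N := by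
    intro x y
    have h1 := prod_dvd E hEinj N hEmem ((x.disjSum y).disjSum univ)
    rw [Finset.prod_disjSum, Finset.prod_disjSum] at h1
    exact h1
  have hddvd : ∀ k, d k ∣ N := by
    intro k
    refine dvd_trans ?_ (hbig (p k).1 (p k).2)
    have h1 : q k ∣ ∏ j, q j := Finset.dvd_prod_of_mem q (Finset.mem_univ k)
    have h2 : d k = (f (p k).1 * h (p k).2) * q k := by
      simp only [d]; ring
    rw [h2]
    exact mul_dvd_mul_left _ h1
  have hd4 : ∀ k, 4 * d k ≤ N := by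
    intro k
    refine le_trans ?_ (Nat.le_of_dvd hNpos (hbig (p k).1 (p k).2))
    have h2 : d k = (f (p k).1 * h (p k).2) * q k := by
      simp only [d]; ring
    have h3 : q k * 2 ^ 3 ≤ ∏ j, q j := by
      rw [← Finset.mul_prod_erase univ q (Finset.mem_univ k)]
      apply Nat.mul_le_mul_left
      have h4 : (univ.erase k).card = 3 := by
        rw [Finset.card_erase_of_mem (Finset.mem_univ k), Finset.card_univ, Fintype.card_fin]
      rw [← h4]
      apply Finset.pow_card_le_prod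
      intro j _
      exact (hEp _).two_le
    rw [h2]
    calc 4 * ((f (p k).1 * h (p k).2) * q k) ≤ (f (p k).1 * h (p k).2) * (q k * 2 ^ 3) := by
          nlinarith [Nat.zero_le ((f (p k).1 * h (p k).2) * q k)]
      _ ≤ _ := Nat.mul_le_mul_left _ h3
  have hdinj : Function.Injective d := by
    intro k j hkj
    have h1 : q k ∣ d j := by
      rw [← hkj]
      exact ⟨f (p k).1 * h (p k).2, by simp only [d]; ring⟩
    simp only [d] at h1
    rw [(hEp _).dvd_mul, (hEp _).dvd_mul] at h1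
    rcases h1 with (h1 | h1) | h1
    · have := (Nat.prime_dvd_prime_iff_eq (hEp _) (hEp _)).mp h1
      exact Sum.inr_injective (hEinj this)
    · exfalso
      have h1' : q k ∣ ∏ i ∈ (p j).1, EA i := h1
      rw [Prime.dvd_finsetProd_iff (hEp _).prime] at h1'
      obtain ⟨i, _, hi⟩ := h1'
      have := hEinj ((Nat.prime_dvd_prime_iff_eq (hEp _) (hEp _)).mp hi)
      exact Sum.inr_ne_inl this
    · exfalso
      have h1' : q k ∣ ∏ i ∈ (p j).2, EB i := h1
      rw [Prime.dvd_finsetProd_iff (hEp _).prime] at h1'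
      obtain ⟨i, _, hi⟩ := h1'
      have := hEinj ((Nat.prime_dvd_prime_iff_eq (hEp _) (hEp _)).mp hi)
      exact Sum.inr_ne_inl this
  have hsumd : ∑ x ∈ univ.image d, x = ∑ k, d k := by
    rw [Finset.sum_image]
    intro a _ b _ hab
    exact hdinj hab
  refine ⟨univ.image d, ?_, ?_, ?_, ?_⟩
  · intro x hx
    obtain ⟨k, _, rfl⟩ := Finset.mem_image.mp hx
    exact Nat.mem_divisors.mpr ⟨hddvd k, hN0⟩
  · exact Finset.card_image_le.trans (by simp)
  · rw [hsumd, Fin.sum_univ_four]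
    have h0 := hd4 0
    have h1 := hd4 1
    have h2 := hd4 2
    have h3 := hd4 3
    omega
  · intro i
    rw [hsumd]
    exact hp i

end Vale.Agent.P012
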