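import Vale.Agent.P012.Selection
import Vale.Agent.P012.Step

namespace Vale.Agent.P012

open Finset

/-- Most choices of one element from each pool are fine. -/
theorem selection_most {ι : Type*} [Fintype ι] [DecidableEq ι] {M : ℕ} (hM : 0 < M)
    {Δ : Type*} [Fintype Δ] [Nonempty Δ]
    (D : ι → Fin M → Δ → Prop) [∀ i j e, Decidable (D i j e)]
    (B : ℕ) (hB : ∀ i e, (univ.filter fun j => D i j e).card ≤ B) (L : ℝ) (hL : 0 ≤ L)
    (h2 : (1 + B * L / M) ^ (Fintype.card ι) ≤ 1 + 1 / 20) :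
    ∃ Bad : Finset (ι → Fin M), 20 * Bad.card ≤ M ^ (Fintype.card ι) ∧
      ∀ s, s ∉ Bad → ∀ J : Finset ι, J.Nonempty →
      L ^ J.card * ((univ.filter fun e => ∀ i ∈ J, D i (s i) e).card : ℝ)
        ≤ (Fintype.card Δ : ℝ) := by
  classical
  have hM' : (0 : ℝ) < M := by exact_mod_cast hM
  let w : ι → Fin M → Δ → ℝ := fun i j e => 1 + if D i j e then L else 0
  have hw1 : ∀ i j e, 1 ≤ w i j e := by
    intro i j e
    simp only [w]
    split_ifs <;> linarith
  let Φ : (ι → Fin M) → ℝ := fun s => ∑ e : Δ, (∏ i, w i (s i) e - 1)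
  have hprod1 : ∀ s : ι → Fin M, ∀ e, 1 ≤ ∏ i, w i (s i) e := by
    intro s e
    apply Finset.one_le_prod
    intro i _
    exact hw1 i (s i) e
  have hΦ0 : ∀ s, 0 ≤ Φ s := by
    intro s
    apply Finset.sum_nonneg
    intro e _
    have := hprod1 s e
    linarith
  have hsum : ∑ s, Φ s ≤ (Fintype.card Δ : ℝ) * ((M : ℝ) ^ (Fintype.card ι) / 20) := by
    have h3 : ∑ s, Φ s = ∑ e : Δ, (∏ i, (∑ j, w i j e) - (M : ℝ) ^ (Fintype.card ι)) := by
      simp only [Φ]
      rw [Finset.sum_comm]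
      refine Finset.sum_congr rfl fun e _ => ?_
      rw [Finset.sum_sub_distrib, Finset.prod_univ_sum, Fintype.piFinset_univ]
      congr 1
      simp
    rw [h3]
    have h4 : ∀ e : Δ, ∏ i, (∑ j, w i j e) - (M : ℝ) ^ (Fintype.card ι)
        ≤ (M : ℝ) ^ (Fintype.card ι) / 20 := by
      intro e
      have h5 : ∀ i, ∑ j, w i j e ≤ M + B * L := by
        intro i
        simp only [w]
        rw [Finset.sum_add_distrib, ← Finset.sum_filter]
        simp only [Finset.sum_const, Finset.card_univ, Fintype.card_fin, nsmul_eq_mul, mul_one]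
        have := hB i e
        have h6 : ((univ.filter fun j => D i j e).card : ℝ) ≤ B := by exact_mod_cast this
        nlinarith
      have h7 : ∏ i, (∑ j, w i j e) ≤ (M + B * L) ^ (Fintype.card ι) := by
        calc ∏ i, (∑ j, w i j e) ≤ ∏ _i : ι, ((M : ℝ) + B * L) := by
              apply Finset.prod_le_prod
              · intro i _
                exact Finset.sum_nonneg fun j _ => le_trans zero_le_one (hw1 i j e)
              · intro i _
                exact h5 i
          _ = _ := by simp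
      have h8 : ((M : ℝ) + B * L) ^ (Fintype.card ι)
          = (M : ℝ) ^ (Fintype.card ι) * (1 + B * L / M) ^ (Fintype.card ι) := by
        rw [← mul_pow]
        congr 1
        field_simp
      have h9 : (M : ℝ) ^ (Fintype.card ι) * (1 + B * L / M) ^ (Fintype.card ι)
          ≤ (M : ℝ) ^ (Fintype.card ι) * (1 + 1 / 20) := by
        gcongr
      linarith
    calc ∑ e : Δ, (∏ i, (∑ j, w i j e) - (M : ℝ) ^ (Fintype.card ι))
        ≤ ∑ _e : Δ, (M : ℝ) ^ (Fintype.card ι) / 20 := Finset.sum_le_sum fun e _ => h4 e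
      _ = _ := by
          rw [Finset.sum_const, Finset.card_univ, nsmul_eq_mul]
  have hΔ : (0 : ℝ) < (Fintype.card Δ : ℝ) := by
    have : 0 < Fintype.card Δ := Fintype.card_pos
    exact_mod_cast this
  refine ⟨univ.filter fun s => (Fintype.card Δ : ℝ) < Φ s, ?_, ?_⟩
  · have h3 : ((univ.filter fun s => (Fintype.card Δ : ℝ) < Φ s).card : ℝ) * (Fintype.card Δ : ℝ)
        ≤ ∑ s, Φ s := by
      calc ((univ.filter fun s => (Fintype.card Δ : ℝ) < Φ s).card : ℝ) * (Fintype.card Δ : ℝ)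
          = ∑ _s ∈ univ.filter (fun s => (Fintype.card Δ : ℝ) < Φ s), (Fintype.card Δ : ℝ) := by
            rw [Finset.sum_const, nsmul_eq_mul]
        _ ≤ ∑ s ∈ univ.filter (fun s => (Fintype.card Δ : ℝ) < Φ s), Φ s := by
            apply Finset.sum_le_sum
            intro s hs
            exact (Finset.mem_filter.mp hs).2.le
        _ ≤ ∑ s, Φ s := by
            apply Finset.sum_le_sum_of_subset_of_nonneg (Finset.subset_univ _)
            intro s _ _
            exact hΦ0 s
    have h4 : ((univ.filter fun s => (Fintype.card Δ : ℝ) < Φ s).card : ℝ)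
        ≤ (M : ℝ) ^ (Fintype.card ι) / 20 := by
      have h5 := h3.trans hsum
      rw [mul_comm] at h5
      exact le_of_mul_le_mul_left h5 hΔ
    have h5 : (20 : ℝ) * ((univ.filter fun s => (Fintype.card Δ : ℝ) < Φ s).card : ℝ)
        ≤ (M : ℝ) ^ (Fintype.card ι) := by linarith
    exact_mod_cast h5
  · intro s hs J hJ
    have hs' : Φ s ≤ (Fintype.card Δ : ℝ) := by
      by_contra hcon
      push Not at hcon
      exact hs (Finset.mem_filter.mpr ⟨Finset.mem_univ _, hcon⟩)
    refine le_trans ?_ hs'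
    have h10 : L ^ J.card * ((univ.filter fun e => ∀ i ∈ J, D i (s i) e).card : ℝ)
        = ∑ e : Δ, if (∀ i ∈ J, D i (s i) e) then L ^ J.card else 0 := by
      rw [← Finset.sum_filter, Finset.sum_const, nsmul_eq_mul, mul_comm]
    rw [h10]
    apply Finset.sum_le_sum
    intro e _
    have hp1 := hprod1 s e
    split_ifs with h
    · have h11 : ∏ i ∈ J, w i (s i) e = (1 + L) ^ J.card := by
        rw [← Finset.prod_const]
        refine Finset.prod_congr rfl fun i hi => ?_
        simp only [w]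
        rw [if_pos (h i hi)]
      have h12 : ∏ i ∈ J, w i (s i) e ≤ ∏ i, w i (s i) e := by
        rw [← Finset.prod_sdiff (Finset.subset_univ J)]
        have h14 : 1 ≤ ∏ i ∈ univ \ J, w i (s i) e := by
          apply Finset.one_le_prod
          intro i _
          exact hw1 i (s i) e
        have h15 : 0 ≤ ∏ i ∈ J, w i (s i) e :=
          Finset.prod_nonneg fun i _ => le_trans zero_le_one (hw1 i (s i) e)
        nlinarith
      have h13 := one_add_pow_le L hL J.card hJ.card_pos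
      linarith
    · linarith

theorem param_three' (T t : ℕ) (hT : 40 ≤ T) (ht : t ≤ T) :
    (1 + ((T ^ 2 : ℕ) : ℝ) * (T : ℝ) ^ 24 / ((T ^ 28 : ℕ) : ℝ)) ^ t ≤ 1 + 1 / 20 := by
  have hT' : (40 : ℝ) ≤ T := by exact_mod_cast hT
  have ht' : (t : ℝ) ≤ T := by exact_mod_cast ht
  have hT0 : (0 : ℝ) < T := by linarith
  have h1 : ((T ^ 2 : ℕ) : ℝ) * (T : ℝ) ^ 24 / ((T ^ 28 : ℕ) : ℝ) = 1 / (T : ℝ) ^ 2 := by
    push_cast
    field_simp
  rw [h1]
  have h2 : (t : ℝ) * (1 / (T : ℝ) ^ 2) ≤ 1 / 40 := by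
    calc (t : ℝ) * (1 / (T : ℝ) ^ 2) ≤ T * (1 / (T : ℝ) ^ 2) := by gcongr
      _ = 1 / (T : ℝ) := by field_simp
      _ ≤ 1 / (40 : ℝ) := by gcongr
  have h3 := one_add_pow_le_linear (1 / (T : ℝ) ^ 2) (by positivity) t (by linarith)
  linarith

/-- For most choices from the pools, all collision numbers are small. -/
theorem coll_most (T : ℕ) (hT : 40 ≤ T) {ι : Type*} [Fintype ι] [DecidableEq ι]
    (hι : Fintype.card ι ≤ T) {α : Type*} [Fintype α] [Nonempty α]
    (φ : Bool → α → ℕ) (hφinj : ∀ b, Function.Injective (φ b))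
    (hφlt : ∀ b x, φ b x < 2 ^ (T ^ 2))
    (P : ι × Fin (T ^ 28) → ℕ) (hPinj : Function.Injective P) (hP : ∀ x, (P x).Prime) :
    ∃ Bad : Finset (ι → Fin (T ^ 28)), 20 * Bad.card ≤ (T ^ 28) ^ (Fintype.card ι) ∧
      ∀ s, s ∉ Bad → ∀ (b : Bool) (J : Finset ι), J.Nonempty →
        (Set.ncard {p : α × α | ∀ i ∈ J,
          (φ b p.1 : ZMod (P (i, s i))) = (φ b p.2 : ZMod (P (i, s i)))} : ℝ)
        ≤ (Fintype.card α : ℝ)
          + 2 * (Fintype.card α : ℝ) ^ 2 / ((T : ℝ) ^ 24) ^ J.card := by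
  classical
  let D : ι → Fin (T ^ 28) → (Bool × (α × α)) → Prop :=
    fun i j z => z.2.1 ≠ z.2.2 ∧ (P (i, j) : ℤ) ∣ (φ z.1 z.2.1 : ℤ) - (φ z.1 z.2.2 : ℤ)
  have hD : ∀ i z, (univ.filter fun j => D i j z).card ≤ T ^ 2 := by
    intro i z
    by_cases hz : z.2.1 = z.2.2
    · have : (univ.filter fun j => D i j z) = ∅ := by
        apply Finset.filter_eq_empty_iff.mpr
        intro j _ hj
        exact hj.1 hz
      rw [this]
      simp
    · have hδ : (φ z.1 z.2.1 : ℤ) - (φ z.1 z.2.2 : ℤ) ≠ 0 := by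
        intro h0
        apply hz
        apply hφinj z.1
        exact_mod_cast sub_eq_zero.mp h0
      have hδ2 : ((φ z.1 z.2.1 : ℤ) - (φ z.1 z.2.2 : ℤ)).natAbs < 2 ^ (T ^ 2) := by
        have h1 := hφlt z.1 z.2.1
        have h2 := hφlt z.1 z.2.2
        omega
      have h5 := card_dvd_le (fun j => P (i, j)) (fun a b hab => (Prod.mk.inj (hPinj hab)).2)
        (fun j => hP (i, j)) _ hδ _ hδ2
      refine le_trans (Finset.card_le_card ?_) h5
      intro j hj
      rw [Finset.mem_filter] at hj ⊢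
      exact ⟨hj.1, hj.2.2⟩
  have hM : 0 < T ^ 28 := by positivity
  obtain ⟨Bad, hBad1, hBad2⟩ := selection_most (M := T ^ 28) hM D (T ^ 2) hD ((T : ℝ) ^ 24)
    (by positivity) (param_three' T _ hT hι)
  have hcardΔ : (Fintype.card (Bool × (α × α)) : ℝ) = 2 * (Fintype.card α : ℝ) ^ 2 := by
    simp only [Fintype.card_prod, Fintype.card_bool]
    push_cast
    ring
  refine ⟨Bad, hBad1, fun s hs b J hJ => ?_⟩
  rw [Set.ncard_eq_toFinset_card']
  have h1 : {p : α × α | ∀ i ∈ J,
      (φ b p.1 : ZMod (P (i, s i))) = (φ b p.2 : ZMod (P (i, s i)))}.toFinset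
      ⊆ (univ.image fun x : α => (x, x)) ∪
        ((univ.filter fun z => ∀ i ∈ J, D i (s i) z).image fun z => z.2) := by
    intro p hp
    rw [Set.mem_toFinset, Set.mem_setOf_eq] at hp
    rw [Finset.mem_union]
    by_cases hpe : p.1 = p.2
    · left
      rw [Finset.mem_image]
      exact ⟨p.1, Finset.mem_univ _, Prod.ext rfl hpe⟩
    · right
      rw [Finset.mem_image]
      refine ⟨(b, p), ?_, rfl⟩
      rw [Finset.mem_filter]
      refine ⟨Finset.mem_univ _, fun i hi => ⟨hpe, ?_⟩⟩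
      have h2 := hp i hi
      have h3 : (((φ b p.1 : ℤ) - (φ b p.2 : ℤ) : ℤ) : ZMod (P (i, s i))) = 0 := by
        push_cast
        rw [h2, sub_self]
      exact (ZMod.intCast_zmod_eq_zero_iff_dvd _ _).mp h3
  have h4 : ({p : α × α | ∀ i ∈ J,
      (φ b p.1 : ZMod (P (i, s i))) = (φ b p.2 : ZMod (P (i, s i)))}.toFinset.card : ℝ)
      ≤ Fintype.card α + ((univ.filter fun z => ∀ i ∈ J, D i (s i) z).card : ℝ) := by
    have h5 := (Finset.card_le_card h1).trans (Finset.card_union_le _ _)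
    have h6 : (univ.image fun x : α => (x, x)).card
        ≤ Fintype.card α := Finset.card_image_le.trans (by simp)
    have h7 : ((univ.filter fun z => ∀ i ∈ J, D i (s i) z).image fun z => z.2).card
        ≤ (univ.filter fun z => ∀ i ∈ J, D i (s i) z).card := Finset.card_image_le
    exact_mod_cast h5.trans (add_le_add h6 h7)
  have h5 : ((univ.filter fun z => ∀ i ∈ J, D i (s i) z).card : ℝ)
      ≤ 2 * (Fintype.card α : ℝ) ^ 2 / ((T : ℝ) ^ 24) ^ J.card := by
    rw [le_div_iff₀ (by positivity), mul_comm, ← hcardΔ]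
    exact hBad2 s hs J hJ
  linarith

theorem filter_card_of_ncard {β : Type*} [Fintype β] (Q : β → Prop) (i : DecidablePred Q) (K : ℝ)
    (h : (Set.ncard {p : β | Q p} : ℝ) ≤ K) :
    ((@Finset.filter β Q i univ).card : ℝ) ≤ K := by
  classical
  have h1 : Set.ncard {p : β | Q p} = (@Finset.filter β Q i univ).card := by
    rw [Set.ncard_eq_toFinset_card']
    congr 1
    ext p
    simp
  rw [← h1]
  exact h

end Vale.Agent.P012
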