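import Vale.Agent.P012.Covering5
import Vale.Agent.P012.Selection2
import Vale.Agent.P012.Core2
import Vale.Agent.P012.Distinct

namespace Vale.Agent.P012

open Finset

theorem small_param (l : ℕ) (hl : 10 ≤ l) : 91 * (l + 1) ≤ 2 ^ l := by
  induction l, hl using Nat.le_induction with
  | base => norm_num
  | succ n hn ih =>
    rw [pow_succ]
    omega

/-- Pools indexed by a sum type. -/
theorem pools3 (l t T : ℕ) (hl : 10 ≤ l) (hT2 : T = 2 ^ l) (ht : t < T) :
    ∃ P : Fin t × Fin (T ^ 28) → ℕ, Function.Injective P ∧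
      ∀ x, (P x).Prime ∧ T ^ 29 < P x ∧ P x ≤ T ^ 30 := by
  subst hT2
  have hT : 15 ≤ 2 ^ l := by
    calc 15 ≤ 2 ^ 10 := by norm_num
      _ ≤ 2 ^ l := Nat.pow_le_pow_right (by norm_num) hl
  have h91 : 91 * (Nat.log 2 (2 ^ l) + 1) ≤ 2 ^ l := by
    rw [Nat.log_pow (by norm_num)]
    exact small_param l hl
  obtain ⟨P, hP1, hP2⟩ := pools2 (2 ^ l) t 1 hT ht h91 one_ne_zero Nat.one_le_two_pow
  exact ⟨P, hP1, fun x => ⟨(hP2 x).1, (hP2 x).2.1, (hP2 x).2.2.1⟩⟩

/-- Most products of one prime from each of `2 t` pools are good. -/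
theorem good_numbers (l t T g : ℕ) (hl : 10 ≤ l) (hTdef : T = 2 ^ l) (hll : 2 * g = T)
    (hpar : 5 + 91 * l * (t + t) ≤ 4 * g)
    (E : Fin g ⊕ Fin g → ℕ) (hEinj : Function.Injective E)
    (hE : ∀ i, (E i).Prime ∧ E i ≤ T ^ 30) :
    ∃ Q : (Fin t ⊕ Fin t) × Fin (T ^ 28) → ℕ, Function.Injective Q ∧
      (∀ x, (Q x).Prime ∧ T ^ 29 < Q x ∧ Q x ≤ T ^ 30) ∧
      ∃ Bad : Finset ((Fin t ⊕ Fin t) → Fin (T ^ 28)),
        20 * Bad.card ≤ (T ^ 28) ^ (t + t) ∧
        ∀ s, s ∉ Bad → UF 4 (((∏ i, Q (i, s i) : ℕ) : ℚ) / ((∏ i, E i : ℕ) : ℚ)) := by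
  classical
  have hsp : 91 * (l + 1) ≤ T := hTdef ▸ small_param l hl
  have htT : t + t < T := by
    have h1 : 910 * (t + t) ≤ 91 * l * (t + t) := Nat.mul_le_mul_right _ (by omega)
    omega
  obtain ⟨P, hPinj, hP⟩ := pools3 l (t + t) T hl hTdef htT
  have hT1024 : 1024 ≤ T := by
    rw [hTdef]
    calc 1024 = 2 ^ 10 := by norm_num
      _ ≤ 2 ^ l := Nat.pow_le_pow_right (by norm_num) hl
  let Q : (Fin t ⊕ Fin t) × Fin (T ^ 28) → ℕ := fun x => P (finSumFinEquiv x.1, x.2)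
  have hQinj : Function.Injective Q := by
    intro x y hxy
    have h1 := Prod.mk.inj (hPinj hxy)
    exact Prod.ext (finSumFinEquiv.injective h1.1) h1.2
  have hQ : ∀ x, (Q x).Prime ∧ T ^ 29 < Q x ∧ Q x ≤ T ^ 30 := fun x => hP _
  let EA : Fin g → ℕ := fun i => E (Sum.inl i)
  let EB : Fin g → ℕ := fun i => E (Sum.inr i)
  have hEAinj : Function.Injective EA := fun a b hab => Sum.inl_injective (hEinj hab)
  have hEBinj : Function.Injective EB := fun a b hab => Sum.inr_injective (hEinj hab)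
  let f : Finset (Fin g) → ℕ := fun x => ∏ i ∈ x, EA i
  let h : Finset (Fin g) → ℕ := fun x => ∏ i ∈ x, EB i
  have hfinj : Function.Injective f := prod_injective EA hEAinj fun i => (hE _).1
  have hhinj : Function.Injective h := prod_injective EB hEBinj fun i => (hE _).1
  have hTpow : (T ^ 30) ^ g < 2 ^ (T ^ 2) := by
    have h1 : (T ^ 30) ^ g = 2 ^ (30 * l * g) := by
      rw [hTdef, ← pow_mul, ← pow_mul]
      congr 1
      ring
    rw [h1]
    apply Nat.pow_lt_pow_right (by norm_num)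
    have h2 : 30 * l * g = 15 * l * T := by rw [← hll]; ring
    rw [h2, sq]
    apply Nat.mul_lt_mul_of_pos_right _ (by omega)
    omega
  have hT30 : 1 ≤ T ^ 30 := Nat.one_le_pow _ _ (by omega)
  have hprodle : ∀ (F : Fin g → ℕ) (hF : ∀ i, F i ≤ T ^ 30) (x : Finset (Fin g)),
      ∏ i ∈ x, F i < 2 ^ (T ^ 2) := by
    intro F hF x
    refine lt_of_le_of_lt ?_ hTpow
    calc ∏ i ∈ x, F i ≤ (T ^ 30) ^ x.card := Finset.prod_le_pow_card _ _ _ (fun k _ => hF k)
      _ ≤ (T ^ 30) ^ g := by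
          apply Nat.pow_le_pow_right hT30
          simpa using Finset.card_le_univ x
  let φ : Bool → Finset (Fin g) → ℕ := fun b => if b then f else h
  have hφinj : ∀ b, Function.Injective (φ b) := by
    intro b
    cases b
    · exact hhinj
    · exact hfinj
  have hφlt : ∀ b x, φ b x < 2 ^ (T ^ 2) := by
    intro b x
    cases b
    · exact hprodle EB (fun i => (hE _).2) x
    · exact hprodle EA (fun i => (hE _).2) x
  have hcardι : Fintype.card (Fin t ⊕ Fin t) = t + t := by simp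
  obtain ⟨Bad, hBad1, hBad2⟩ := coll_most T (by omega) (ι := Fin t ⊕ Fin t)
    (by rw [hcardι]; exact htT.le) φ hφinj hφlt Q hQinj (fun x => (hQ x).1)
  rw [hcardι] at hBad1
  refine ⟨Q, hQinj, hQ, Bad, hBad1, fun s hs => ?_⟩
  have hcardα : (Fintype.card (Finset (Fin g)) : ℝ) = (2 : ℝ) ^ g := by
    simp
  have herr := error_bound_half (t + t) hcardι (fun i => Q (i, s i)) ((T : ℝ) ^ 30) ((2 : ℝ) ^ g)
    ((T : ℝ) ^ 24) (one_le_pow₀ (by norm_num)) (by positivity) (by positivity)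
    (fun i => by exact_mod_cast (hQ (i, s i)).2.2)
    (by
      have h1 := param_A l (t + t) g (by omega) hpar
      rw [← hTdef] at h1
      exact h1) (param_two T (t + t) (by omega) htT.le)
  rw [← hcardα] at herr
  have hαpos : (0 : ℝ) < (Fintype.card (Finset (Fin g)) : ℝ) := by
    rw [hcardα]; positivity
  obtain ⟨p, hp⟩ := covering (fun i => Q (i, s i)) (fun i => (hQ (i, s i)).1) f h (fun _ => 1)
    (fun _ i hdvd => (hQ (i, s i)).1.one_lt.ne' (Nat.dvd_one.mp hdvd))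
    (fun J => (Fintype.card (Finset (Fin g)) : ℝ)
      + 2 * (Fintype.card (Finset (Fin g)) : ℝ) ^ 2 / ((T : ℝ) ^ 24) ^ J.card)
    (fun J hJ => filter_card_of_ncard _ _ _ (hBad2 s hs true J hJ))
    (fun J hJ => filter_card_of_ncard _ _ _ (hBad2 s hs false J hJ))
    (lt_of_le_of_lt herr (by
      have : (0 : ℝ) < (Fintype.card (Finset (Fin g)) : ℝ) ^ 8 := by positivity
      linarith)) 0
  have hNpos : 0 < ∏ i, E i := Finset.prod_pos fun i _ => (hE i).1.pos
  refine UF.good hNpos (fun k => f (p k).1 * h (p k).2) ?_ ?_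
  · intro k
    have h1 : f (p k).1 * h (p k).2 = ∏ i ∈ (p k).1.disjSum (p k).2, E i := by
      rw [Finset.prod_disjSum]
    rw [h1]
    exact Finset.prod_dvd_prod_of_subset _ _ _ (Finset.subset_univ _)
  · have h1 : ∏ i, Q (i, s i) = ∏ q ∈ univ.image (fun i => Q (i, s i)), q := by
      rw [Finset.prod_image]
      intro a _ b _ hab
      exact (Prod.mk.inj (hQinj hab)).1
    rw [h1]
    apply Finset.prod_primes_dvd
    · intro q hq
      obtain ⟨i, _, rfl⟩ := Finset.mem_image.mp hq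
      exact (hQ _).1.prime
    · intro q hq
      obtain ⟨i, _, rfl⟩ := Finset.mem_image.mp hq
      have h2 := hp i
      simp only [one_mul] at h2
      rw [Nat.cast_zero] at h2
      exact (ZMod.natCast_eq_zero_iff _ _).mp h2

end Vale.Agent.P012
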