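import Vale.Agent.P012.Recursion

namespace Vale.Agent.P012

open Finset

/-- The base of the recursion: for each `T ≥ 2` a starting number. -/
theorem base (T : ℕ) (hT : 2 ≤ T) :
    ∃ N h, St T N h ∧ 2 ^ (T + 1) ≤ N ∧ ∀ p ∈ N.primeFactors, p ≤ 2 ^ T := by
  induction T, hT using Nat.le_induction with
  | base =>
    refine ⟨12, 3, ⟨by norm_num, ?_, by norm_num, ?_⟩, by norm_num, ?_⟩
    · have : ({2, 3} : Finset ℕ) ⊆ Nat.primeFactors 12 := by
        intro p hp
        simp only [Finset.mem_insert, Finset.mem_singleton] at hp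
        rw [Nat.mem_primeFactors]
        rcases hp with rfl | rfl <;> norm_num
      have h2 := Finset.card_le_card this
      have h3 : ({2, 3} : Finset ℕ).card = 2 := by decide
      omega
    · intro m hm
      have hd : ∀ S : Finset ℕ, (∀ x ∈ S, x ∣ 12) → S ⊆ Nat.divisors 12 := by
        intro S hS x hx
        exact Nat.mem_divisors.mpr ⟨hS x hx, by norm_num⟩
      interval_cases m
      · exact ⟨∅, hd _ (by decide), by decide, by decide⟩
      · exact ⟨{1}, hd _ (by decide), by decide, by decide⟩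
      · exact ⟨{2}, hd _ (by decide), by decide, by decide⟩
      · exact ⟨{3}, hd _ (by decide), by decide, by decide⟩
      · exact ⟨{4}, hd _ (by decide), by decide, by decide⟩
      · exact ⟨{1, 4}, hd _ (by decide), by decide, by decide⟩
      · exact ⟨{6}, hd _ (by decide), by decide, by decide⟩
      · exact ⟨{1, 6}, hd _ (by decide), by decide, by decide⟩
      · exact ⟨{2, 6}, hd _ (by decide), by decide, by decide⟩
      · exact ⟨{3, 6}, hd _ (by decide), by decide, by decide⟩
      · exact ⟨{4, 6}, hd _ (by decide), by decide, by decide⟩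
      · exact ⟨{1, 4, 6}, hd _ (by decide), by decide, by decide⟩
    · intro p hp
      have h1 := Nat.prime_of_mem_primeFactors hp
      have h2 := Nat.dvd_of_mem_primeFactors hp
      have h3 : p ≤ 12 := Nat.le_of_dvd (by norm_num) h2
      interval_cases p <;> first | omega | (exfalso; revert h1; norm_num) | (exfalso; revert h2; norm_num)
  | succ T hT ih =>
    obtain ⟨N, h, ⟨hN0, hω, hN, hG⟩, hNge, hNp⟩ := ih
    obtain ⟨p, hp, hp1, hp2⟩ := Nat.exists_prime_lt_and_le_two_mul (2 ^ T) (by positivity)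
    have hpN : ¬ p ∣ N := by
      intro hdvd
      have := hNp p (Nat.mem_primeFactors.mpr ⟨hp, hdvd, hN0⟩)
      omega
    have hp3 : p ≤ 2 ^ (T + 1) := by rw [pow_succ]; omega
    have hle : p ≤ N := hp3.trans hNge
    refine ⟨N * p, 2 * h, ⟨mul_ne_zero hN0 hp.ne_zero, ?_, ?_, good_mul N h p hN0 hG hp hpN hle⟩,
      ?_, ?_⟩
    · have h3 : insert p N.primeFactors ⊆ (N * p).primeFactors := by
        intro x hx
        rw [Nat.mem_primeFactors]
        rcases Finset.mem_insert.mp hx with rfl | hx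
        · exact ⟨hp, dvd_mul_left _ _, mul_ne_zero hN0 hp.ne_zero⟩
        · exact ⟨Nat.prime_of_mem_primeFactors hx,
            dvd_mul_of_dvd_left (Nat.dvd_of_mem_primeFactors hx) _, mul_ne_zero hN0 hp.ne_zero⟩
      have h4 := Finset.card_le_card h3
      rw [Finset.card_insert_of_notMem (fun hx => hpN (Nat.dvd_of_mem_primeFactors hx))] at h4
      omega
    · calc N * p ≤ 2 ^ (T ^ 2) * 2 ^ (T + 1) := Nat.mul_le_mul hN hp3
        _ = 2 ^ (T ^ 2 + (T + 1)) := (pow_add 2 (T ^ 2) (T + 1)).symm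
        _ ≤ 2 ^ ((T + 1) ^ 2) := by
            apply Nat.pow_le_pow_right (by norm_num)
            nlinarith
    · have : 2 ≤ p := hp.two_le
      calc 2 ^ (T + 1 + 1) = 2 ^ (T + 1) * 2 := pow_succ _ _
        _ ≤ N * p := Nat.mul_le_mul hNge this
    · intro x hx
      have hxp := Nat.prime_of_mem_primeFactors hx
      have hxd := Nat.dvd_of_mem_primeFactors hx
      rcases (hxp.dvd_mul).mp hxd with h1 | h1
      · have := hNp x (Nat.mem_primeFactors.mpr ⟨hxp, h1, hN0⟩)
        exact this.trans (Nat.pow_le_pow_right (by norm_num) (by omega))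
      · exact (Nat.le_of_dvd hp.pos h1).trans hp3

/-- The sequence of lower bounds for the number of prime factors. -/
def Tseq : ℕ → ℕ
  | 0 => 1024
  | j + 1 => Tseq j + Tseq j / (91 * (Nat.log 2 (Tseq j) + 1))

theorem Tseq_ge (j : ℕ) : 1024 ≤ Tseq j := by
  induction j with
  | zero => exact le_rfl
  | succ j ih =>
    have : Tseq (j + 1) = Tseq j + Tseq j / (91 * (Nat.log 2 (Tseq j) + 1)) := rfl
    rw [this]
    exact le_trans ih (Nat.le_add_right _ _)

theorem Tseq_st : ∃ h0, ∀ j, ∃ N, St (Tseq j) N (h0 + 4 * j) := by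
  obtain ⟨N, h0, hS, _⟩ := base 1024 (by norm_num)
  refine ⟨h0, fun j => ?_⟩
  induction j with
  | zero => exact ⟨N, hS⟩
  | succ j ih =>
    obtain ⟨N', hN'⟩ := ih
    obtain ⟨N'', hN''⟩ := st_step (Tseq j) N' _ (Tseq_ge j) hN'
    exact ⟨N'', hN''⟩

theorem step_growth (T : ℕ) (hT : 1024 ≤ T) :
    (Real.log T) ^ 2 + 1 / 600
      ≤ (Real.log ((T + T / (91 * (Nat.log 2 T + 1)) : ℕ) : ℝ)) ^ 2 := by
  set l := Nat.log 2 T with hl
  set t := T / (91 * (l + 1)) with ht
  have hl10 : 10 ≤ l := by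
    rw [hl]
    exact Nat.le_log_of_pow_le (by norm_num) (by norm_num; exact hT)
  have h2l : 2 ^ l ≤ T := Nat.pow_log_le_self 2 (by omega)
  have h91 : 91 * (l + 1) ≤ T := (log_bound l hl10).trans h2l
  have ht1 : 1 ≤ t := by
    rw [ht, Nat.one_le_div_iff (by omega)]
    exact h91
  have htmul : 91 * (l + 1) * t ≤ T := Nat.mul_div_le _ _
  have htT : t ≤ T := le_trans (Nat.le_mul_of_pos_left _ (by positivity)) htmul
  -- lower bound for t
  have h1 : T < 91 * (l + 1) * (t + 1) := by
    have := Nat.lt_mul_div_succ T (show 0 < 91 * (l + 1) by positivity)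
    exact this
  have h2 : T ≤ 182 * (l + 1) * t := by
    have : 91 * (l + 1) * (t + 1) ≤ 182 * (l + 1) * t := by nlinarith
    omega
  have hTr : (1024 : ℝ) ≤ T := by exact_mod_cast hT
  have hT0 : (0 : ℝ) < T := by linarith
  have ht0 : (0 : ℝ) < t := by exact_mod_cast ht1
  have hl0 : (10 : ℝ) ≤ l := by exact_mod_cast hl10
  have h2r : (T : ℝ) ≤ 182 * (l + 1) * t := by exact_mod_cast h2
  have htTr : (t : ℝ) ≤ T := by exact_mod_cast htT
  -- log difference
  have h3 : (t : ℝ) / (T + t) ≤ Real.log ((T : ℝ) + t) - Real.log T := by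
    rw [← Real.log_div (by linarith) (by linarith)]
    have h4 := Real.one_sub_inv_le_log_of_pos (x := ((T : ℝ) + t) / T) (by positivity)
    have h5 : 1 - (((T : ℝ) + t) / T)⁻¹ = (t : ℝ) / (T + t) := by
      field_simp
      ring
    linarith
  have h4 : 1 / (364 * ((l : ℝ) + 1)) ≤ (t : ℝ) / (T + t) := by
    rw [div_le_div_iff₀ (by positivity) (by positivity)]
    nlinarith
  have hlog2 : (0.6931 : ℝ) < Real.log 2 := by
    have := Real.log_two_gt_d9
    linarith
  have h5 : (l : ℝ) * Real.log 2 ≤ Real.log T := by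
    have : Real.log ((2 : ℝ) ^ l) ≤ Real.log T := by
      apply Real.log_le_log (by positivity)
      exact_mod_cast h2l
    rwa [Real.log_pow] at this
  have h6 : (l : ℝ) + 1 ≤ 1.6 * Real.log T := by nlinarith
  have hlogpos : 0 < Real.log T := by
    have : 0 < (l : ℝ) + 1 := by linarith
    linarith
  have h7 : 1 / (364 * ((l : ℝ) + 1)) * (2 * Real.log T) ≥ 1 / 600 := by
    rw [ge_iff_le, div_mul_eq_mul_div, one_mul, div_le_div_iff₀ (by norm_num) (by positivity)]
    nlinarith
  have h8 : (Real.log ((T : ℝ) + t)) ^ 2 - (Real.log T) ^ 2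
      = (Real.log ((T : ℝ) + t) - Real.log T) * (Real.log ((T : ℝ) + t) + Real.log T) := by ring
  have h9 : Real.log T ≤ Real.log ((T : ℝ) + t) := Real.log_le_log hT0 (by linarith)
  have h10 : 1 / (364 * ((l : ℝ) + 1)) * (2 * Real.log T)
      ≤ (Real.log ((T : ℝ) + t) - Real.log T) * (Real.log ((T : ℝ) + t) + Real.log T) := by
    apply mul_le_mul (by linarith) (by linarith) (by positivity) (by linarith)
  push_cast
  linarith

theorem Tseq_growth (j : ℕ) : (j : ℝ) ≤ 600 * (Real.log (Tseq j)) ^ 2 := by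
  induction j with
  | zero => simp; positivity
  | succ j ih =>
    have h1 := step_growth (Tseq j) (Tseq_ge j)
    have h2 : Tseq (j + 1) = Tseq j + Tseq j / (91 * (Nat.log 2 (Tseq j) + 1)) := rfl
    rw [h2]
    push_cast at h1 ⊢
    linarith

theorem Tseq_lt (j : ℕ) : Tseq j < Tseq (j + 1) := by
  have h2 : Tseq (j + 1) = Tseq j + Tseq j / (91 * (Nat.log 2 (Tseq j) + 1)) := rfl
  have hT := Tseq_ge j
  set T := Tseq j with hTdef
  have hl10 : 10 ≤ Nat.log 2 T := Nat.le_log_of_pow_le (by norm_num) (by norm_num; exact hT)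
  have h2l : 2 ^ Nat.log 2 T ≤ T := Nat.pow_log_le_self 2 (by omega)
  have h91 : 91 * (Nat.log 2 T + 1) ≤ T := (log_bound _ hl10).trans h2l
  have ht1 : 1 ≤ T / (91 * (Nat.log 2 T + 1)) := by
    rw [Nat.one_le_div_iff (by omega)]
    exact h91
  omega

theorem Tseq_ge_self (j : ℕ) : j ≤ Tseq j := by
  induction j with
  | zero => exact Nat.zero_le _
  | succ j ih =>
    have := Tseq_lt j
    omega

/-- For each `Y` there is a good number at least `2 ^ Y` with few divisors needed. -/
theorem good_exists : ∃ h0 : ℕ, ∀ Y : ℕ, 1 ≤ Y → ∃ N h : ℕ, 2 ^ Y ≤ N ∧ Good N h ∧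
    (h : ℝ) ≤ h0 + 2400 * (Real.log Y) ^ 2 := by
  classical
  obtain ⟨h0, hst⟩ := Tseq_st
  refine ⟨h0 + 4, fun Y hY => ?_⟩
  have hex : ∃ j, Y ≤ Tseq j := ⟨Y, Tseq_ge_self Y⟩
  set j := Nat.find hex with hj
  have hj1 : Y ≤ Tseq j := Nat.find_spec hex
  obtain ⟨N, hN0, hω, hN, hG⟩ := hst j
  refine ⟨N, h0 + 4 * j, ?_, hG, ?_⟩
  · have h1 : 2 ^ N.primeFactors.card ≤ ∏ p ∈ N.primeFactors, p := by
      apply Finset.pow_card_le_prod
      intro p hp
      exact (Nat.prime_of_mem_primeFactors hp).two_le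
    have h2 : ∏ p ∈ N.primeFactors, p ≤ N :=
      Nat.le_of_dvd (Nat.pos_of_ne_zero hN0) (Nat.prod_primeFactors_dvd N)
    calc 2 ^ Y ≤ 2 ^ N.primeFactors.card :=
          Nat.pow_le_pow_right (by norm_num) (hj1.trans hω)
      _ ≤ N := h1.trans h2
  · have hlogY : 0 ≤ (Real.log Y) ^ 2 := sq_nonneg _
    rcases Nat.eq_zero_or_pos j with h0' | hpos
    · rw [h0']
      push_cast
      nlinarith
    · have h3 : ¬ Y ≤ Tseq (j - 1) := Nat.find_min hex (by omega)
      push Not at h3
      have h4 := Tseq_growth (j - 1)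
      have h5 : Real.log (Tseq (j - 1)) ≤ Real.log Y := by
        apply Real.log_le_log
        · have := Tseq_ge (j - 1)
          have : 0 < Tseq (j - 1) := by omega
          exact_mod_cast this
        · exact_mod_cast h3.le
      have h6 : 0 ≤ Real.log (Tseq (j - 1)) := by
        apply Real.log_nonneg
        have := Tseq_ge (j - 1)
        have : 1 ≤ Tseq (j - 1) := by omega
        exact_mod_cast this
      have h7 : (Real.log (Tseq (j - 1))) ^ 2 ≤ (Real.log Y) ^ 2 := by gcongr
      have h8 : ((j - 1 : ℕ) : ℝ) = (j : ℝ) - 1 := by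
        rw [Nat.cast_sub hpos]
        simp
      rw [h8] at h4
      push_cast
      linarith

end Vale.Agent.P012
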