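import Vale.Agent.P012.Step

namespace Vale.Agent.P012

open Finset

/-- `m` is a sum of at most `h` distinct divisors of `N`. -/
def Rep (N h m : ℕ) : Prop :=
  ∃ S : Finset ℕ, S ⊆ N.divisors ∧ S.card ≤ h ∧ ∑ d ∈ S, d = m

/-- Every number below `N` is a sum of at most `h` distinct divisors of `N`. -/
def Good (N h : ℕ) : Prop := ∀ m < N, Rep N h m

theorem combine (N W : ℕ) (hN : N ≠ 0) (hW : 1 < W) (hcop : Nat.Coprime N W)
    (S1 S2 : Finset ℕ) (h1 : S1 ⊆ N.divisors) (h2 : S2 ⊆ N.divisors) :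
    ∃ S : Finset ℕ, S ⊆ (N * W).divisors ∧ S.card ≤ S1.card + S2.card ∧
      ∑ d ∈ S, d = ∑ d ∈ S1, d + W * ∑ d ∈ S2, d := by
  classical
  have hdisj : Disjoint S1 (S2.image fun d => W * d) := by
    rw [Finset.disjoint_left]
    intro x hx hx'
    obtain ⟨y, _, rfl⟩ := Finset.mem_image.mp hx'
    have h3 : W * y ∣ N := (Nat.mem_divisors.mp (h1 hx)).1
    have h4 : W ∣ N := dvd_trans (Dvd.intro _ rfl) h3
    have h5 : W ∣ Nat.gcd N W := Nat.dvd_gcd h4 dvd_rfl
    rw [hcop] at h5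
    have := Nat.le_of_dvd one_pos h5
    omega
  refine ⟨S1 ∪ S2.image fun d => W * d, ?_, ?_, ?_⟩
  · intro x hx
    rw [Nat.mem_divisors]
    refine ⟨?_, mul_ne_zero hN (by omega)⟩
    rcases Finset.mem_union.mp hx with hx | hx
    · exact dvd_mul_of_dvd_left (Nat.mem_divisors.mp (h1 hx)).1 _
    · obtain ⟨y, hy, rfl⟩ := Finset.mem_image.mp hx
      rw [mul_comm N W]
      exact mul_dvd_mul_left W (Nat.mem_divisors.mp (h2 hy)).1
  · exact (Finset.card_union_le _ _).trans (Nat.add_le_add_left Finset.card_image_le _)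
  · rw [Finset.sum_union hdisj, Finset.sum_image, Finset.mul_sum]
    intro a _ b _ hab
    exact Nat.eq_of_mul_eq_mul_left (by omega) hab

theorem Rep.mono {N h h' m : ℕ} (hh : h ≤ h') (hr : Rep N h m) : Rep N h' m := by
  obtain ⟨S, h1, h2, h3⟩ := hr
  exact ⟨S, h1, h2.trans hh, h3⟩

theorem good_mul (N h p : ℕ) (hN : N ≠ 0) (hG : Good N h) (hp : p.Prime) (hpN : ¬ p ∣ N)
    (hle : p ≤ N) : Good (N * p) (2 * h) := by
  intro m hm
  have hcop : Nat.Coprime N p := (Nat.coprime_comm.mp ((Nat.Prime.coprime_iff_not_dvd hp).mpr hpN))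
  have hdec : ∃ r q, r < N ∧ q < N ∧ m = r + p * q := by
    by_cases h1 : m < N
    · exact ⟨m, 0, h1, Nat.pos_of_ne_zero hN, by simp⟩
    · push Not at h1
      set q := (m - N) / p + 1 with hq
      have h2 : p * ((m - N) / p) + (m - N) % p = m - N := Nat.div_add_mod _ _
      have h3 : (m - N) % p < p := Nat.mod_lt _ hp.pos
      have h4 : p * q = p * ((m - N) / p) + p := by rw [hq]; ring
      have h5 : p * q ≤ m := by omega
      have h6 : m - p * q < N := by omega
      refine ⟨m - p * q, q, h6, ?_, by omega⟩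
      have h7 : p * q < p * N := by
        calc p * q ≤ m := h5
          _ < N * p := hm
          _ = p * N := mul_comm _ _
      exact Nat.lt_of_mul_lt_mul_left h7
  obtain ⟨r, q, hr, hq, hmrq⟩ := hdec
  obtain ⟨S1, a1, a2, a3⟩ := hG r hr
  obtain ⟨S2, b1, b2, b3⟩ := hG q hq
  obtain ⟨S, c1, c2, c3⟩ := combine N p hN hp.one_lt hcop S1 S2 a1 b1
  refine ⟨S, c1, by omega, ?_⟩
  rw [c3, a3, b3, hmrq]

theorem good_step (N h W k : ℕ) (hN : N ≠ 0) (hG : Good N h) (hW : 1 < W)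
    (hcop : Nat.Coprime N W)
    (hS : ∀ m : ℕ, ∃ S : Finset ℕ, S ⊆ N.divisors ∧ S.card ≤ k ∧ ∑ d ∈ S, d ≤ N ∧
      (∑ d ∈ S, d) ≡ m [MOD W]) :
    Good (N * W) (h + k) := by
  intro m hm
  by_cases h1 : m < N
  · obtain ⟨S1, a1, a2, a3⟩ := hG m h1
    obtain ⟨S, c1, c2, c3⟩ := combine N W hN hW hcop S1 ∅ a1 (by simp)
    refine ⟨S, c1, ?_, ?_⟩
    · rw [Finset.card_empty] at c2
      omega
    · rw [c3, a3]
      simp
  · push Not at h1
    obtain ⟨S1, a1, a2, a3, a4⟩ := hS m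
    set D := ∑ d ∈ S1, d with hD
    have h2 : W ∣ m - D := (Nat.modEq_iff_dvd' (a3.trans h1)).mp a4
    obtain ⟨q, hq⟩ := h2
    have h3 : q < N := by
      have : W * q < W * N := by
        calc W * q = m - D := hq.symm
          _ ≤ m := Nat.sub_le _ _
          _ < N * W := hm
          _ = W * N := mul_comm _ _
      exact Nat.lt_of_mul_lt_mul_left this
    obtain ⟨S2, b1, b2, b3⟩ := hG q h3
    obtain ⟨S, c1, c2, c3⟩ := combine N W hN hW hcop S1 S2 a1 b1
    refine ⟨S, c1, by omega, ?_⟩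
    rw [c3, b3, ← hD, ← hq]
    omega

/-- The state of the recursion. -/
def St (T N h : ℕ) : Prop :=
  N ≠ 0 ∧ T ≤ N.primeFactors.card ∧ N ≤ 2 ^ (T ^ 2) ∧ Good N h

theorem log_bound (l : ℕ) (hl : 10 ≤ l) : 91 * (l + 1) ≤ 2 ^ l := by
  induction l, hl using Nat.le_induction with
  | base => norm_num
  | succ n hn ih =>
    rw [pow_succ]
    omega

theorem st_step (T N h : ℕ) (hT : 1024 ≤ T) (hS : St T N h) :
    ∃ N', St (T + T / (91 * (Nat.log 2 T + 1))) N' (h + 4) := by
  classical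
  obtain ⟨hN0, hω, hN, hG⟩ := hS
  set l := Nat.log 2 T with hl
  set t := T / (91 * (l + 1)) with ht
  have hl10 : 10 ≤ l := by
    rw [hl]
    exact Nat.le_log_of_pow_le (by norm_num) (by norm_num; exact hT)
  have h2l : 2 ^ l ≤ T := Nat.pow_log_le_self 2 (by omega)
  have h91 : 91 * (l + 1) ≤ T := (log_bound l hl10).trans h2l
  have ht1 : 1 ≤ t := by
    rw [ht, Nat.one_le_div_iff (by omega)]
    exact h91
  have htmul : 91 * (l + 1) * t ≤ T := Nat.mul_div_le _ _
  obtain ⟨r, hrinj, hr, hcov⟩ := core T t N (by omega) ht1 htmul hN0 hN hω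
  set W := ∏ i, r i with hW
  have hWimage : W = ∏ p ∈ univ.image r, p := by
    rw [Finset.prod_image]
    intro a _ b _ hab
    exact hrinj hab
  have hr2 : ∀ i, 2 ≤ r i := fun i => (hr i).1.two_le
  have hWpos : 0 < W := Finset.prod_pos fun i _ => (hr i).1.pos
  have hW1 : 1 < W := by
    have : 2 ^ (univ : Finset (Fin t)).card ≤ W := Finset.pow_card_le_prod _ _ _ fun i _ => hr2 i
    rw [Finset.card_univ, Fintype.card_fin] at this
    have h3 : 2 ^ 1 ≤ 2 ^ t := Nat.pow_le_pow_right (by norm_num) ht1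
    omega
  have hcop : Nat.Coprime N W := by
    rw [hW]
    apply Nat.Coprime.prod_right
    intro i _
    exact (Nat.coprime_comm.mp ((Nat.Prime.coprime_iff_not_dvd (hr i).1).mpr (hr i).2.2))
  have hdvdW : ∀ z : ℤ, (∀ i, (r i : ℤ) ∣ z) → (W : ℤ) ∣ z := by
    intro z hz
    rw [← Int.dvd_natAbs, Int.natCast_dvd_natCast, hWimage]
    apply Finset.prod_primes_dvd
    · intro p hp
      obtain ⟨i, _, rfl⟩ := Finset.mem_image.mp hp
      exact (hr i).1.prime
    · intro p hp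
      obtain ⟨i, _, rfl⟩ := Finset.mem_image.mp hp
      exact Int.natCast_dvd.mp (hz i)
  refine ⟨N * W, mul_ne_zero hN0 hWpos.ne', ?_, ?_, ?_⟩
  · -- number of prime factors
    have h3 : N.primeFactors ∪ univ.image r ⊆ (N * W).primeFactors := by
      intro p hp
      rw [Nat.mem_primeFactors]
      rcases Finset.mem_union.mp hp with hp | hp
      · exact ⟨Nat.prime_of_mem_primeFactors hp,
          dvd_mul_of_dvd_left (Nat.dvd_of_mem_primeFactors hp) _, mul_ne_zero hN0 hWpos.ne'⟩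
      · obtain ⟨i, _, rfl⟩ := Finset.mem_image.mp hp
        exact ⟨(hr i).1, dvd_mul_of_dvd_right (Finset.dvd_prod_of_mem r (Finset.mem_univ i)) _,
          mul_ne_zero hN0 hWpos.ne'⟩
    have h4 : Disjoint N.primeFactors (univ.image r) := by
      rw [Finset.disjoint_left]
      intro p hp hp'
      obtain ⟨i, _, rfl⟩ := Finset.mem_image.mp hp'
      exact (hr i).2.2 (Nat.dvd_of_mem_primeFactors hp)
    have h5 := Finset.card_le_card h3
    rw [Finset.card_union_of_disjoint h4, Finset.card_image_of_injective _ hrinj,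
      Finset.card_univ, Fintype.card_fin] at h5
    omega
  · -- size
    have h3 : W ≤ 2 ^ T := by
      have h4 : T < 2 ^ (l + 1) := Nat.lt_pow_succ_log_self (by norm_num) T
      calc W ≤ ∏ _i : Fin t, T ^ 30 := Finset.prod_le_prod' fun i _ => (hr i).2.1
        _ = (T ^ 30) ^ t := by simp
        _ ≤ ((2 ^ (l + 1)) ^ 30) ^ t := by gcongr
        _ = 2 ^ ((l + 1) * 30 * t) := by rw [← pow_mul, ← pow_mul, mul_assoc]
        _ ≤ 2 ^ T := by
            apply Nat.pow_le_pow_right (by norm_num)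
            refine le_trans ?_ htmul
            apply Nat.mul_le_mul_right
            omega
    calc N * W ≤ 2 ^ (T ^ 2) * 2 ^ T := Nat.mul_le_mul hN h3
      _ = 2 ^ (T ^ 2 + T) := by rw [pow_add]
      _ ≤ 2 ^ ((T + t) ^ 2) := by
          apply Nat.pow_le_pow_right (by norm_num)
          nlinarith
  · apply good_step N h W 4 hN0 hG hW1 hcop
    intro m
    obtain ⟨S, s1, s2, s3, s4⟩ := hcov m
    refine ⟨S, s1, s2, s3, ?_⟩
    rw [← Int.natCast_modEq_iff, Int.modEq_iff_dvd]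
    apply hdvdW
    intro i
    have h3 := s4 i
    rw [← sub_eq_zero] at h3
    have h4 : (((m : ℤ) - ((∑ d ∈ S, d : ℕ) : ℤ) : ℤ) : ZMod (r i)) = 0 := by
      push_cast at h3 ⊢
      rw [← neg_eq_zero, neg_sub]
      exact h3
    exact (ZMod.intCast_zmod_eq_zero_iff_dvd _ _).mp h4

end Vale.Agent.P012
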