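import Vale.Agent.P012.Core2
import Vale.Agent.P012.Recursion

namespace Vale.Agent.P012

open Finset

/-- Every number below `2 ^ A` is a sum of at most `h` distinct divisors of `V`. -/
def PR (V h A : ℕ) : Prop := ∀ m < 2 ^ A, Rep V h m

theorem pr_step (V h A W w : ℕ) (hV : V ≠ 0) (hP : PR V h A) (hW : 1 < W) (hWw : 2 ^ w ≤ W)
    (hcop : Nat.Coprime V W)
    (hS : ∀ m : ℕ, ∃ S : Finset ℕ, S ⊆ V.divisors ∧ S.card ≤ 4 ∧ ∑ d ∈ S, d ≤ 2 ^ A ∧
      (∑ d ∈ S, d) ≡ m [MOD W]) :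
    PR (V * W) (h + 4) (A + w) := by
  intro m hm
  by_cases h1 : m < 2 ^ A
  · obtain ⟨S1, a1, a2, a3⟩ := hP m h1
    obtain ⟨S, c1, c2, c3⟩ := combine V W hV hW hcop S1 ∅ a1 (by simp)
    refine ⟨S, c1, ?_, ?_⟩
    · rw [Finset.card_empty] at c2
      omega
    · rw [c3, a3]
      simp
  · push Not at h1
    obtain ⟨S1, a1, a2, a3, a4⟩ := hS m
    set D := ∑ d ∈ S1, d with hD
    have h2 : W ∣ m - D := (Nat.modEq_iff_dvd' (a3.trans h1)).mp a4
    obtain ⟨q, hq⟩ := h2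
    have h3 : q < 2 ^ A := by
      have : W * q < W * 2 ^ A := by
        calc W * q = m - D := hq.symm
          _ ≤ m := Nat.sub_le _ _
          _ < 2 ^ (A + w) := hm
          _ = 2 ^ w * 2 ^ A := by rw [pow_add, mul_comm]
          _ ≤ W * 2 ^ A := Nat.mul_le_mul_right _ hWw
      exact Nat.lt_of_mul_lt_mul_left this
    obtain ⟨S2, b1, b2, b3⟩ := hP q h3
    obtain ⟨S, c1, c2, c3⟩ := combine V W hV hW hcop S1 S2 a1 b1
    refine ⟨S, c1, by omega, ?_⟩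
    rw [c3, b3, ← hD, ← hq]
    omega

/-- The state of the construction. -/
def St2 (Nc V h A Z : ℕ) : Prop := V ≠ 0 ∧ Nc ∣ V ∧ V ≤ 2 ^ Z ∧ PR V h A

theorem level_step (l u s t Nc V h A Z : ℕ) (hl : 10 ≤ l) (ht1 : 1 ≤ t)
    (hpar : 5 + 91 * l * t ≤ 4 * (u * s)) (htT : t < 2 ^ l)
    (hω : 2 * (s * 2 ^ u) + 4 ≤ Nc.primeFactors.card)
    (hNcX : ∀ p ∈ Nc.primeFactors, p ≤ (2 ^ l) ^ 30)
    (hZ : Z ≤ (2 ^ l) ^ 2) (hA : 2 + 30 * l * (2 * s + 1) ≤ A) (hS : St2 Nc V h A Z) :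
    ∃ V', St2 Nc V' (h + 4) (A + 29 * l * t) (Z + 30 * l * t) := by
  classical
  obtain ⟨hV0, hNc, hVZ, hP⟩ := hS
  obtain ⟨r, hrinj, hr, hcov⟩ := core2 l u s t Nc V hl hpar htT hV0
    (hVZ.trans (Nat.pow_le_pow_right (by norm_num) hZ)) hNc hω hNcX
  set W := ∏ i, r i with hW
  have hWimage : W = ∏ p ∈ univ.image r, p := by
    rw [Finset.prod_image]
    intro a _ b _ hab
    exact hrinj hab
  have hWpos : 0 < W := Finset.prod_pos fun i _ => (hr i).1.pos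
  have hWw : 2 ^ (29 * l * t) ≤ W := by
    have h1 : ((2 ^ l) ^ 29) ^ (univ : Finset (Fin t)).card ≤ W :=
      Finset.pow_card_le_prod _ _ _ fun i _ => (hr i).2.1.le
    rw [Finset.card_univ, Fintype.card_fin, ← pow_mul, ← pow_mul] at h1
    have h2 : l * 29 * t = 29 * l * t := by ring
    have h3 : l * (29 * t) = 29 * l * t := by ring
    first
      | rw [h2] at h1; exact h1
      | rw [h3] at h1; exact h1
  have hW1 : 1 < W := by
    have h3 : 2 ^ 1 ≤ 2 ^ (29 * l * t) := by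
      apply Nat.pow_le_pow_right (by norm_num)
      have : 0 < 29 * l * t := by positivity
      omega
    omega
  have hWle : W ≤ 2 ^ (30 * l * t) := by
    calc W ≤ ∏ _i : Fin t, (2 ^ l) ^ 30 := Finset.prod_le_prod' fun i _ => (hr i).2.2.1
      _ = 2 ^ (30 * l * t) := by
          rw [Finset.prod_const, Finset.card_univ, Fintype.card_fin, ← pow_mul, ← pow_mul]
          congr 1
          ring
  have hcop : Nat.Coprime V W := by
    rw [hW]
    apply Nat.Coprime.prod_right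
    intro i _
    exact (Nat.coprime_comm.mp ((Nat.Prime.coprime_iff_not_dvd (hr i).1).mpr (hr i).2.2.2))
  have hdvdW : ∀ z : ℤ, (∀ i, (r i : ℤ) ∣ z) → (W : ℤ) ∣ z := by
    intro z hz
    rw [← Int.dvd_natAbs, Int.natCast_dvd_natCast, hWimage]
    apply Finset.prod_primes_dvd
    · intro p hp
      obtain ⟨i, _, rfl⟩ := Finset.mem_image.mp hp
      exact (hr i).1.prime
    · intro p hp
      obtain ⟨i, _, rfl⟩ := Finset.mem_image.mp hp
      exact Int.natCast_dvd.mp (hz i)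
  refine ⟨V * W, mul_ne_zero hV0 hWpos.ne', hNc.mul_right W, ?_, ?_⟩
  · rw [pow_add]
    exact Nat.mul_le_mul hVZ hWle
  · apply pr_step V h A W (29 * l * t) hV0 hP hW1 hWw hcop
    intro m
    obtain ⟨S, s1, s2, s3, s4⟩ := hcov m
    refine ⟨S, ?_, s2, ?_, ?_⟩
    · intro x hx
      have := Nat.mem_divisors.mp (s1 hx)
      exact Nat.mem_divisors.mpr ⟨this.1.trans hNc, hV0⟩
    · refine s3.trans ?_
      have hpw : ((2 ^ l) ^ 30) ^ (2 * s + 1) = 2 ^ (30 * l * (2 * s + 1)) := by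
        rw [← pow_mul, ← pow_mul]
        congr 1
        ring
      calc 4 * ((2 ^ l) ^ 30) ^ (2 * s + 1) = 2 ^ (2 + 30 * l * (2 * s + 1)) := by
            rw [hpw, pow_add 2 2 (30 * l * (2 * s + 1))]
            norm_num
        _ ≤ 2 ^ A := Nat.pow_le_pow_right (by norm_num) hA
    · rw [← Int.natCast_modEq_iff, Int.modEq_iff_dvd]
      apply hdvdW
      intro i
      have h3 := s4 i
      rw [← sub_eq_zero] at h3
      have h4 : (((m : ℤ) - ((∑ d ∈ S, d : ℕ) : ℤ) : ℤ) : ZMod (r i)) = 0 := by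
        push_cast at h3 ⊢
        rw [← neg_eq_zero, neg_sub]
        exact h3
      exact (ZMod.intCast_zmod_eq_zero_iff_dvd _ _).mp h4

theorem level_iter (l u s t Nc : ℕ) (hl : 10 ≤ l) (ht1 : 1 ≤ t)
    (hpar : 5 + 91 * l * t ≤ 4 * (u * s)) (htT : t < 2 ^ l)
    (hω : 2 * (s * 2 ^ u) + 4 ≤ Nc.primeFactors.card)
    (hNcX : ∀ p ∈ Nc.primeFactors, p ≤ (2 ^ l) ^ 30)
    (V h A Z : ℕ) (hA : 2 + 30 * l * (2 * s + 1) ≤ A) (hS : St2 Nc V h A Z) (J : ℕ)
    (hZ : Z + 30 * l * t * J ≤ (2 ^ l) ^ 2) :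
    ∃ V', St2 Nc V' (h + 4 * J) (A + 29 * l * t * J) (Z + 30 * l * t * J) := by
  induction J with
  | zero => exact ⟨V, hS⟩
  | succ J ih =>
    have h1 : 30 * l * t * (J + 1) = 30 * l * t * J + 30 * l * t := by ring
    obtain ⟨V', hV'⟩ := ih (by omega)
    have h2 : 0 ≤ 29 * l * t * J := Nat.zero_le _
    obtain ⟨V'', hV''⟩ := level_step l u s t Nc V' (h + 4 * J) (A + 29 * l * t * J)
      (Z + 30 * l * t * J) hl ht1 hpar htT hω hNcX (by omega) (by omega) hV'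
    refine ⟨V'', ?_⟩
    have h3 : h + 4 * J + 4 = h + 4 * (J + 1) := by ring
    have h4 : A + 29 * l * t * J + 29 * l * t = A + 29 * l * t * (J + 1) := by ring
    have h5 : Z + 30 * l * t * J + 30 * l * t = Z + 30 * l * t * (J + 1) := by ring
    rw [h3, h4, h5] at hV''
    exact hV''

end Vale.Agent.P012
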