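import Vale.Agent.P012.Levels

namespace Vale.Agent.P012

open Finset

theorem level_size (v : ℕ) (hv : 5 ≤ v) : ∀ u, 1 ≤ u → 25 ≤ u + v + 2 →
    23 * (u + v + 2) ≤ u * 2 ^ v := by
  induction v, hv using Nat.le_induction with
  | base =>
    intro u _ h
    norm_num
    omega
  | succ v hv ih =>
    intro u hu h
    have h1 := ih (u + 1) (by omega) (by omega)
    have h2 : (u + 1) * 2 ^ v ≤ u * 2 ^ (v + 1) := by
      rw [pow_succ]
      nlinarith [Nat.zero_le (2 ^ v)]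
    have h3 : u + 1 + v + 2 = u + (v + 1) + 2 := by ring
    rw [h3] at h1
    exact h1.trans h2

/-- The parameters of one level. -/
theorem level_params (l u v : ℕ) (hl : l = u + v + 2) (hl25 : 25 ≤ l) (hu : 1 ≤ u) (hv : 5 ≤ v) :
    ∃ t, 1 ≤ t ∧ 5 + 91 * l * t ≤ 4 * (u * 2 ^ v) ∧ t < 2 ^ l ∧
      u * 2 ^ v ≤ 46 * l * t ∧ 23 * l * t ≤ u * 2 ^ v := by
  have h0 : 23 * l ≤ u * 2 ^ v := by
    rw [hl]
    exact level_size v hv u hu (by omega)
  set t := (u * 2 ^ v) / (23 * l) with ht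
  have ht1 : 1 ≤ t := by
    rw [ht, Nat.one_le_div_iff (by omega)]
    exact h0
  have h1 : 23 * l * t ≤ u * 2 ^ v := Nat.mul_div_le _ _
  have h2 : u * 2 ^ v < 23 * l * (t + 1) := Nat.lt_mul_div_succ _ (by omega)
  have h3 : u * 2 ^ v ≤ 46 * l * t := by
    have : 23 * l * (t + 1) ≤ 46 * l * t := by nlinarith
    omega
  refine ⟨t, ht1, ?_, ?_, h3, h1⟩
  · have h4 : 92 * l * t ≤ 4 * (u * 2 ^ v) := by linarith
    have h5 : 5 ≤ l * t := by nlinarith
    nlinarith
  · have h6 : t ≤ 2 ^ v := by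
      by_contra hcon
      push Not at hcon
      have h7 : u ≤ 23 * l := by omega
      have h8 : u * 2 ^ v ≤ 23 * l * 2 ^ v := Nat.mul_le_mul_right _ h7
      have h9 : 23 * l * 2 ^ v < 23 * l * t := by
        apply Nat.mul_lt_mul_of_pos_left hcon
        omega
      omega
    exact lt_of_le_of_lt h6 (Nat.pow_lt_pow_right (by norm_num) (by omega))

/-- The invariant at level `v`. -/
def LS (l Nc Z0 E v : ℕ) : Prop :=
  ∃ V h A Z, St2 Nc V h A Z ∧ 2 + 30 * l * (2 * 2 ^ v + 1) ≤ A ∧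
    29 * Z + 30 * E ≤ 30 * A + 29 * Z0 ∧ A + Z0 ≤ Z + E ∧ Z ≤ Z0 + 131 * l * 2 ^ v ∧
    (h : ℚ) ≤ E + 400 * l * (harmonic (l - 7) - harmonic (l - 2 - v))

theorem LS_step (l u v Nc Z0 E : ℕ) (hl : l = u + v + 2) (hl25 : 25 ≤ l) (hu : 1 ≤ u)
    (hv : 5 ≤ v) (hω : 2 * 2 ^ (l - 2) + 4 ≤ Nc.primeFactors.card)
    (hNcX : ∀ p ∈ Nc.primeFactors, p ≤ (2 ^ l) ^ 30)
    (hZ0 : Z0 + 131 * l * 2 ^ (v + 1) ≤ (2 ^ l) ^ 2) (hS : LS l Nc Z0 E v) :
    LS l Nc Z0 E (v + 1) := by
  obtain ⟨V, h, A, Z, hSt, hA, hZA, hAZ, hZ, hh⟩ := hS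
  obtain ⟨t, ht1, hpar, htT, ht46, ht23⟩ := level_params l u v hl hl25 hu hv
  set J := (100 * l) / u with hJ
  have hJ1 : u * J ≤ 100 * l := Nat.mul_div_le _ _
  have hJ2 : 100 * l < u * (J + 1) := Nat.lt_mul_div_succ _ (by omega)
  have hJ3 : 99 * l ≤ u * J := by
    have : u * (J + 1) = u * J + u := by ring
    omega
  have hlpos : 0 < l := by omega
  have hul : 0 < u * l := by positivity
  -- t * J bounds
  have hJt1 : 99 * 2 ^ v ≤ 46 * (t * J) := by
    have h1 : (u * 2 ^ v) * (99 * l) ≤ (46 * l * t) * (u * J) := Nat.mul_le_mul ht46 hJ3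
    have h2 : (u * l) * (99 * 2 ^ v) ≤ (u * l) * (46 * (t * J)) := by
      calc (u * l) * (99 * 2 ^ v) = (u * 2 ^ v) * (99 * l) := by ring
        _ ≤ (46 * l * t) * (u * J) := h1
        _ = (u * l) * (46 * (t * J)) := by ring
    exact Nat.le_of_mul_le_mul_left h2 hul
  have hJt2 : 23 * (t * J) ≤ 100 * 2 ^ v := by
    have h1 : (23 * l * t) * (u * J) ≤ (u * 2 ^ v) * (100 * l) := Nat.mul_le_mul ht23 hJ1
    have h2 : (u * l) * (23 * (t * J)) ≤ (u * l) * (100 * 2 ^ v) := by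
      calc (u * l) * (23 * (t * J)) = (23 * l * t) * (u * J) := by ring
        _ ≤ (u * 2 ^ v) * (100 * l) := h1
        _ = (u * l) * (100 * 2 ^ v) := by ring
    exact Nat.le_of_mul_le_mul_left h2 hul
  have hinc1 : 60 * l * 2 ^ v ≤ 29 * l * t * J := by
    have h1 : 60 * 2 ^ v ≤ 29 * (t * J) := by omega
    calc 60 * l * 2 ^ v = l * (60 * 2 ^ v) := by ring
      _ ≤ l * (29 * (t * J)) := Nat.mul_le_mul_left _ h1
      _ = 29 * l * t * J := by ring
  have hinc2 : 30 * l * t * J ≤ 131 * l * 2 ^ v := by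
    have h1 : 30 * (t * J) ≤ 131 * 2 ^ v := by omega
    calc 30 * l * t * J = l * (30 * (t * J)) := by ring
      _ ≤ l * (131 * 2 ^ v) := Nat.mul_le_mul_left _ h1
      _ = 131 * l * 2 ^ v := by ring
  have hpowv : 131 * l * 2 ^ (v + 1) = 131 * l * 2 ^ v + 131 * l * 2 ^ v := by
    rw [pow_succ]; ring
  have hGpow : 2 ^ v * 2 ^ u = 2 ^ (l - 2) := by
    rw [← pow_add]
    congr 1
    omega
  obtain ⟨V', hV'⟩ := level_iter l u (2 ^ v) t Nc (by omega) ht1 hpar htT
    (by rw [hGpow]; exact hω) hNcX V h A Z hA hSt J (by omega)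
  refine ⟨V', h + 4 * J, A + 29 * l * t * J, Z + 30 * l * t * J, hV', ?_, ?_, ?_, ?_, ?_⟩
  · have h1 : 2 + 30 * l * (2 * 2 ^ (v + 1) + 1)
        = 2 + 30 * l * (2 * 2 ^ v + 1) + 60 * l * 2 ^ v := by
      rw [pow_succ]; ring
    omega
  · have h1 : 29 * (30 * l * t * J) = 30 * (29 * l * t * J) := by ring
    omega
  · have h1 : 29 * l * t * J ≤ 30 * l * t * J := by
      apply Nat.mul_le_mul_right
      apply Nat.mul_le_mul_right
      apply Nat.mul_le_mul_right
      norm_num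
    omega
  · omega
  · have h1 : l - 2 - v = u := by omega
    have h2 : l - 2 - (v + 1) = u - 1 := by omega
    rw [h1] at hh
    rw [h2]
    have h3 : harmonic u = harmonic (u - 1) + ((u : ℚ))⁻¹ := by
      have h4 := harmonic_succ (u - 1)
      have h5 : u - 1 + 1 = u := by omega
      rw [h5] at h4
      exact h4
    have hup : (0 : ℚ) < u := by exact_mod_cast hu
    have h6 : (4 * J : ℚ) ≤ 400 * l * (u : ℚ)⁻¹ := by
      rw [← div_eq_mul_inv, le_div_iff₀ hup]
      have : (u : ℚ) * J ≤ 100 * l := by exact_mod_cast hJ1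
      linarith
    rw [h3] at hh
    push_cast
    linarith

theorem LS_all (l Nc Z0 E : ℕ) (hl25 : 25 ≤ l)
    (hω : 2 * 2 ^ (l - 2) + 4 ≤ Nc.primeFactors.card)
    (hNcX : ∀ p ∈ Nc.primeFactors, p ≤ (2 ^ l) ^ 30)
    (hZ0 : Z0 + 131 * l * 2 ^ (l - 2) ≤ (2 ^ l) ^ 2) (hS : LS l Nc Z0 E 5) :
    ∀ v, 5 ≤ v → v + 2 ≤ l → LS l Nc Z0 E v := by
  intro v hv
  induction v, hv using Nat.le_induction with
  | base => intro _; exact hS
  | succ v hv ih =>
    intro hvl
    refine LS_step l (l - 2 - v) v Nc Z0 E (by omega) hl25 (by omega) hv hω hNcX ?_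
      (ih (by omega))
    refine le_trans ?_ hZ0
    have : 2 ^ (v + 1) ≤ 2 ^ (l - 2) := Nat.pow_le_pow_right (by norm_num) (by omega)
    have h2 : 131 * l * 2 ^ (v + 1) ≤ 131 * l * 2 ^ (l - 2) := Nat.mul_le_mul_left _ this
    omega

/-- Binary expansions. -/
theorem binary (E : ℕ) : ∀ m < 2 ^ E, ∃ S : Finset ℕ, S ⊆ (range E).image (fun i => 2 ^ i) ∧
    ∑ d ∈ S, d = m := by
  induction E with
  | zero =>
    intro m hm
    refine ⟨∅, by simp, ?_⟩
    simp at hm
    simp [hm]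
  | succ E ih =>
    intro m hm
    have hsub : (range E).image (fun i => 2 ^ i) ⊆ (range (E + 1)).image (fun i => 2 ^ i) :=
      Finset.image_subset_image (Finset.range_subset_range.mpr (Nat.le_succ E))
    by_cases h1 : m < 2 ^ E
    · obtain ⟨S, s1, s2⟩ := ih m h1
      exact ⟨S, s1.trans hsub, s2⟩
    · push Not at h1
      have h2 : m - 2 ^ E < 2 ^ E := by
        rw [pow_succ] at hm
        omega
      obtain ⟨S, s1, s2⟩ := ih _ h2
      have h3 : 2 ^ E ∉ S := by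
        intro h4
        obtain ⟨i, hi, hie⟩ := Finset.mem_image.mp (s1 h4)
        have := Nat.pow_right_injective (le_refl 2) hie
        rw [Finset.mem_range] at hi
        omega
      refine ⟨insert (2 ^ E) S, ?_, ?_⟩
      · intro x hx
        rcases Finset.mem_insert.mp hx with rfl | hx
        · exact Finset.mem_image.mpr ⟨E, Finset.mem_range.mpr (Nat.lt_succ_self E), rfl⟩
        · exact hsub (s1 hx)
      · rw [Finset.sum_insert h3, s2]
        omega

theorem PR_base (E Nc : ℕ) (hNc : Nc ≠ 0) : PR (2 ^ E * Nc) E E := by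
  intro m hm
  obtain ⟨S, s1, s2⟩ := binary E m hm
  refine ⟨S, ?_, ?_, s2⟩
  · intro x hx
    obtain ⟨i, hi, rfl⟩ := Finset.mem_image.mp (s1 hx)
    rw [Finset.mem_range] at hi
    rw [Nat.mem_divisors]
    refine ⟨dvd_mul_of_dvd_left (pow_dvd_pow 2 hi.le) _, mul_ne_zero (by positivity) hNc⟩
  · refine (Finset.card_le_card s1).trans (Finset.card_image_le.trans ?_)
    simp

theorem pow_bound (l : ℕ) (hl : 25 ≤ l) : 100 * l ≤ 2 ^ (l - 3) := by
  induction l, hl using Nat.le_induction with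
  | base => norm_num
  | succ n hn ih =>
    have h1 : 2 ^ (n + 1 - 3) = 2 * 2 ^ (n - 3) := by
      rw [← pow_succ']
      congr 1
      omega
    omega

/-- The final outcome of the construction for the parameter `l`. -/
theorem construct (l : ℕ) (hl25 : 25 ≤ l) :
    ∃ V h A Z, V ≠ 0 ∧ PR V h A ∧ V ≤ 2 ^ Z ∧ Z < A + A / 3 ∧ 128 * l * 2 ^ l ≤ A ∧
      A ≤ (2 ^ l) ^ 2 ∧ (h : ℝ) ≤ 10000 * l * (1 + Real.log l) := by
  classical
  set P := 2 ^ (l - 3) with hP
  have hPl : 100 * l ≤ P := pow_bound l hl25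
  have hp2 : 2 ^ (l - 2) = 2 * P := by
    rw [hP, ← pow_succ']
    congr 1
    omega
  have hp8 : 2 ^ l = 8 * P := by
    rw [hP]
    have : 8 = 2 ^ 3 := by norm_num
    rw [this, ← pow_add]
    congr 1
    omega
  set T := 2 ^ l with hT
  have hT15 : 15 ≤ T := by omega
  have hlogT : Nat.log 2 T = l := by
    rw [hT]
    exact Nat.log_pow (by norm_num) l
  have h91 : 91 * (Nat.log 2 T + 1) ≤ T := by
    rw [hlogT]
    omega
  have hpi := param_four' T hT15 h91
  rw [← Nat.primesLE_card_eq_primeCounting] at hpi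
  have hT29 : T ≤ T ^ 29 := by
    calc T = T ^ 1 := (pow_one T).symm
      _ ≤ T ^ 29 := Nat.pow_le_pow_right (by omega) (by norm_num)
  obtain ⟨Q, hQsub, hQcard⟩ := Finset.exists_subset_card_eq
    (s := Nat.primesLE (T ^ 30)) (n := 2 * 2 ^ (l - 2) + 4) (by omega)
  have hQp : ∀ p ∈ Q, p.Prime := fun p hp => (Nat.mem_primesLE.mp (hQsub hp)).2
  have hQle : ∀ p ∈ Q, p ≤ T ^ 30 := fun p hp => (Nat.mem_primesLE.mp (hQsub hp)).1
  set Nc := ∏ p ∈ Q, p with hNc
  have hNcpf : Nc.primeFactors = Q := Nat.primeFactors_prod hQp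
  have hNc0 : Nc ≠ 0 := by
    rw [hNc, Finset.prod_ne_zero_iff]
    intro p hp
    exact (hQp p hp).ne_zero
  have hNcle : Nc ≤ 2 ^ (30 * l * T) := by
    calc Nc ≤ (T ^ 30) ^ Q.card := Finset.prod_le_pow_card _ _ _ hQle
      _ ≤ (T ^ 30) ^ T := by
          apply Nat.pow_le_pow_right (Nat.one_le_pow _ _ (by omega))
          rw [hQcard, hp2]
          omega
      _ = 2 ^ (30 * l * T) := by
          rw [hT, ← pow_mul, ← pow_mul]
          congr 1
          ring
  have hω : 2 * 2 ^ (l - 2) + 4 ≤ Nc.primeFactors.card := by rw [hNcpf, hQcard]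
  have hNcX : ∀ p ∈ Nc.primeFactors, p ≤ (2 ^ l) ^ 30 := by
    rw [hNcpf]
    exact hQle
  set E := 2 + 1950 * l with hE
  set Z0 := E + 30 * l * T with hZ0
  have hZ0T : Z0 + 131 * l * 2 ^ (l - 2) + 2218 * l * P ≤ (2 ^ l) ^ 2 := by
    rw [hZ0, hE, hp2, ← hT, hp8]
    nlinarith
  have hLS5 : LS l Nc Z0 E 5 := by
    refine ⟨2 ^ E * Nc, E, E, Z0, ⟨mul_ne_zero (by positivity) hNc0, Dvd.intro_left _ rfl, ?_,
      PR_base E Nc hNc0⟩, ?_, ?_, ?_, ?_, ?_⟩
    · rw [hZ0, pow_add 2 E (30 * l * T)]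
      exact Nat.mul_le_mul_left _ hNcle
    · rw [hE]
      norm_num
      omega
    · omega
    · omega
    · omega
    · have : l - 2 - 5 = l - 7 := by omega
      rw [this]
      simp
  have hLS := LS_all l Nc Z0 E hl25 hω hNcX (by omega) hLS5 (l - 2) (by omega) (by omega)
  obtain ⟨V, h, A, Z, hSt, hA, hZA, hAZ, hZ, hh⟩ := hLS
  obtain ⟨t, ht1, hpar, htT, ht46, ht23⟩ := level_params l 1 (l - 3) (by omega) hl25 le_rfl
    (by omega)
  rw [one_mul, ← hP] at ht46 ht23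
  rw [← hP] at hpar
  have hinc2 : 30 * l * t * (1700 * l) ≤ 2218 * l * P := by
    have h1 : 23 * (30 * l * t * (1700 * l)) ≤ 23 * (2218 * l * P) := by
      calc 23 * (30 * l * t * (1700 * l)) = (23 * l * t) * (51000 * l) := by ring
        _ ≤ P * (51000 * l) := Nat.mul_le_mul_right _ ht23
        _ = (51000 * l) * P := by ring
        _ ≤ (23 * 2218 * l) * P := by
            apply Nat.mul_le_mul_right
            omega
        _ = 23 * (2218 * l * P) := by ring
    omega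
  have hinc1 : 128 * l * T ≤ 29 * l * t * (1700 * l) := by
    have h1 : 46 * (128 * l * T) ≤ 46 * (29 * l * t * (1700 * l)) := by
      calc 46 * (128 * l * T) = (47104 * l) * P := by rw [hp8]; ring
        _ ≤ (49300 * l) * P := by
            apply Nat.mul_le_mul_right
            omega
        _ ≤ (49300 * l) * (46 * l * t) := Nat.mul_le_mul_left _ ht46
        _ = 46 * (29 * l * t * (1700 * l)) := by ring
    omega
  have hPv : 2 ^ (l - 2) = 2 * P := hp2
  obtain ⟨V', hV'⟩ := level_iter l 1 P t Nc (by omega) ht1 hpar htT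
    (by rw [pow_one, mul_comm P 2, ← hp2]; exact hω) hNcX V h A Z
    (by
      refine le_trans ?_ hA
      rw [hPv]
      have : 2 * P + 1 ≤ 2 * (2 * P) + 1 := by omega
      have h2 := Nat.mul_le_mul_left (30 * l) this
      omega) hSt (1700 * l) (by omega)
  obtain ⟨hV0, _, hVZ, hPR⟩ := hV'
  refine ⟨V', h + 4 * (1700 * l), A + 29 * l * t * (1700 * l), Z + 30 * l * t * (1700 * l),
    hV0, hPR, hVZ, ?_, ?_, ?_, ?_⟩
  · -- Z < A + A / 3
    have key : ∀ X1 X2 lT E' Z0' : ℕ, 29 * X2 = 30 * X1 → 128 * lT ≤ X1 → 1 ≤ lT →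
        29 * Z + 30 * E' ≤ 30 * A + 29 * Z0' → Z0' = E' + 30 * lT →
        Z + X2 < A + X1 + (A + X1) / 3 := by
      intro X1 X2 lT E' Z0' k1 k2 k3 k4 k5
      omega
    apply key _ _ (l * T) E Z0
    · ring
    · calc 128 * (l * T) = 128 * l * T := by ring
        _ ≤ _ := hinc1
    · have : 0 < l * T := by positivity
      omega
    · exact hZA
    · rw [hZ0]; ring
  · omega
  · have hx12 : 29 * l * t * (1700 * l) ≤ 30 * l * t * (1700 * l) := by
      apply Nat.mul_le_mul_right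
      apply Nat.mul_le_mul_right
      apply Nat.mul_le_mul_right
      norm_num
    have hk : T ^ 2 = (2 ^ l) ^ 2 := by rw [hT]
    rw [hk]
    omega
  · have h1 : l - 2 - (l - 2) = 0 := by omega
    rw [h1, harmonic_zero, sub_zero] at hh
    have hh' : (h : ℝ) ≤ E + 400 * l * ((harmonic (l - 7) : ℚ) : ℝ) := by exact_mod_cast hh
    have h2 := harmonic_le_one_add_log (l - 7)
    have h3 : Real.log ((l - 7 : ℕ) : ℝ) ≤ Real.log l := by
      apply Real.log_le_log
      · have : 0 < l - 7 := by omega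
        exact_mod_cast this
      · have : l - 7 ≤ l := Nat.sub_le _ _
        exact_mod_cast this
    have hl0 : (25 : ℝ) ≤ l := by exact_mod_cast hl25
    have hlog0 : 0 ≤ Real.log l := Real.log_nonneg (by linarith)
    have h4 : ((harmonic (l - 7) : ℚ) : ℝ) ≤ 1 + Real.log l := by linarith
    have h5 : 400 * (l : ℝ) * ((harmonic (l - 7) : ℚ) : ℝ) ≤ 400 * l * (1 + Real.log l) := by
      gcongr
    have hE' : (E : ℝ) = 2 + 1950 * l := by rw [hE]; push_cast; ring
    rw [hE'] at hh'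
    push_cast
    nlinarith

end Vale.Agent.P012
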