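import Vale.Agent.P012.UF

namespace Vale.Agent.P012

open Finset

/-- Sums of few unit fractions cannot approach a rational from below too closely. -/
theorem gap (K : ℕ) (hK : 1 ≤ K) (k : ℕ) : k ≤ K → ∀ (s : Multiset ℕ) (c D : ℕ), s.card = k →
    (∀ n ∈ s, 0 < n) → 0 < D → (s.map fun n : ℕ => (1 : ℚ) / n).sum < (c : ℚ) / D →
    1 / ((2 * K * D : ℕ) : ℚ) ^ (2 ^ k) ≤ (c : ℚ) / D - (s.map fun n : ℕ => (1 : ℚ) / n).sum := by
  induction k with
  | zero =>
    intro _ s c D hs _ hD hlt
    rw [Multiset.card_eq_zero] at hs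
    subst hs
    simp only [Multiset.map_zero, Multiset.sum_zero] at hlt ⊢
    have hDq : (0 : ℚ) < D := by exact_mod_cast hD
    have hc : 0 < c := by
      rcases Nat.eq_zero_or_pos c with h0 | h0
      · rw [h0] at hlt
        simp at hlt
      · exact h0
    have hcq : (1 : ℚ) ≤ c := by exact_mod_cast hc
    have hKq : (1 : ℚ) ≤ K := by exact_mod_cast hK
    rw [pow_zero, pow_one, sub_zero]
    push_cast
    rw [div_le_div_iff₀ (by positivity) hDq]
    nlinarith [mul_pos (mul_pos (by linarith : (0 : ℚ) < c) (by linarith : (0 : ℚ) < K)) hDq,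
      mul_le_mul hcq hKq (by norm_num) (by linarith)]
  | succ k ih =>
    intro hkK s c D hs hpos hD hlt
    have hDq : (0 : ℚ) < D := by exact_mod_cast hD
    have hKq : (1 : ℚ) ≤ K := by exact_mod_cast hK
    have hKpos : (0 : ℚ) < K := by linarith
    have hS0 : (0 : ℚ) ≤ (s.map fun n : ℕ => (1 : ℚ) / n).sum := by
      apply Multiset.sum_nonneg
      intro x hx
      obtain ⟨n, _, rfl⟩ := Multiset.mem_map.mp hx
      positivity
    have hc : 0 < c := by
      rcases Nat.eq_zero_or_pos c with h0 | h0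
      · rw [h0] at hlt
        simp only [Nat.cast_zero, zero_div] at hlt
        linarith
      · exact h0
    have hcq : (1 : ℚ) ≤ c := by exact_mod_cast hc
    have h2KD : 1 ≤ 2 * K * D := Nat.mul_pos (by omega) hD
    have h2KDq : (1 : ℚ) ≤ ((2 * K * D : ℕ) : ℚ) := by exact_mod_cast h2KD
    by_cases hcase : ∃ n ∈ s, n < 2 * K * D
    · obtain ⟨n, hn, hnlt⟩ := hcase
      obtain ⟨t, rfl⟩ := Multiset.exists_cons_of_mem hn
      have hn0 := hpos n hn
      have hnq : (0 : ℚ) < n := by exact_mod_cast hn0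
      rw [Multiset.map_cons, Multiset.sum_cons] at hlt ⊢
      rw [Multiset.card_cons] at hs
      have ht0 : (0 : ℚ) ≤ (t.map fun n : ℕ => (1 : ℚ) / n).sum := by
        apply Multiset.sum_nonneg
        intro x hx
        obtain ⟨n, _, rfl⟩ := Multiset.mem_map.mp hx
        positivity
      have hcn : D < c * n := by
        have h1 : (1 : ℚ) / n < c / D := by linarith
        rw [div_lt_div_iff₀ hnq hDq] at h1
        have h2 : (D : ℚ) < c * n := by linarith
        exact_mod_cast h2
      have hfrac : ((c * n - D : ℕ) : ℚ) / ((D * n : ℕ) : ℚ) = (c : ℚ) / D - 1 / n := by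
        rw [Nat.cast_sub hcn.le]
        push_cast
        field_simp
      have h1 := ih (by omega) t (c * n - D) (D * n) (by omega)
        (fun m hm => hpos m (Multiset.mem_cons_of_mem hm)) (Nat.mul_pos hD hn0)
        (by rw [hfrac]; linarith)
      rw [hfrac] at h1
      have h2 : 1 / ((2 * K * D : ℕ) : ℚ) ^ (2 ^ (k + 1))
          ≤ 1 / ((2 * K * (D * n) : ℕ) : ℚ) ^ (2 ^ k) := by
        have h3 : 0 < 2 * K * (D * n) := Nat.mul_pos (by omega) (Nat.mul_pos hD hn0)
        have h3q : (0 : ℚ) < ((2 * K * (D * n) : ℕ) : ℚ) := by exact_mod_cast h3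
        apply one_div_le_one_div_of_le (by positivity)
        have h4 : (2 * K * (D * n)) ^ (2 ^ k) ≤ (2 * K * D) ^ (2 ^ (k + 1)) := by
          calc (2 * K * (D * n)) ^ (2 ^ k) ≤ ((2 * K * D) ^ 2) ^ (2 ^ k) := by
                apply Nat.pow_le_pow_left
                calc 2 * K * (D * n) = 2 * K * D * n := by ring
                  _ ≤ 2 * K * D * (2 * K * D) := Nat.mul_le_mul_left _ hnlt.le
                  _ = (2 * K * D) ^ 2 := by ring
            _ = _ := by
                rw [← pow_mul]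
                congr 1
                rw [pow_succ]
                ring
        exact_mod_cast h4
      linarith
    · push Not at hcase
      have h5 := Multiset.sum_le_card_nsmul (s.map fun n : ℕ => (1 : ℚ) / n)
        (1 / ((2 * K * D : ℕ) : ℚ)) (by
          intro x hx
          obtain ⟨n, hn, rfl⟩ := Multiset.mem_map.mp hx
          have h6 : ((2 * K * D : ℕ) : ℚ) ≤ n := by exact_mod_cast hcase n hn
          exact one_div_le_one_div_of_le (by linarith) h6)
      rw [Multiset.card_map, hs, nsmul_eq_mul] at h5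
      have h6 : ((k + 1 : ℕ) : ℚ) * (1 / ((2 * K * D : ℕ) : ℚ)) ≤ 1 / (2 * D) := by
        have h7 : ((k + 1 : ℕ) : ℚ) ≤ K := by exact_mod_cast hkK
        calc ((k + 1 : ℕ) : ℚ) * (1 / ((2 * K * D : ℕ) : ℚ))
            ≤ K * (1 / ((2 * K * D : ℕ) : ℚ)) := by gcongr
          _ = 1 / (2 * D) := by
              push_cast
              field_simp
      have h7 : (c : ℚ) / D ≥ 1 / D := by gcongr
      have h8 : (1 : ℚ) / D = 1 / (2 * D) + 1 / (2 * D) := by
        field_simp
        norm_num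
      have h9 : 1 / ((2 * K * D : ℕ) : ℚ) ^ (2 ^ (k + 1)) ≤ 1 / (2 * D) := by
        apply one_div_le_one_div_of_le (by positivity)
        calc (2 * (D : ℚ)) ≤ ((2 * K * D : ℕ) : ℚ) := by
              push_cast
              nlinarith
          _ = ((2 * K * D : ℕ) : ℚ) ^ 1 := (pow_one _).symm
          _ ≤ ((2 * K * D : ℕ) : ℚ) ^ (2 ^ (k + 1)) :=
              pow_le_pow_right₀ h2KDq Nat.one_le_two_pow
      linarith

/-- The lower bound for expansions of `(b - 1) / b`. -/
theorem lower_bound (b : ℕ) (hb : 16 ≤ b) (S : Finset ℕ) (hS : ∀ n ∈ S, 2 ≤ n)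
    (hsum : ∑ n ∈ S, (1 : ℚ) / n = ((b - 1 : ℕ) : ℚ) / b) :
    1 / 3 * Real.log (Real.log b) ≤ (S.card : ℝ) := by
  have hbq : (0 : ℚ) < b := by
    have : 0 < b := by omega
    exact_mod_cast this
  have hb1 : ((b - 1 : ℕ) : ℚ) / b = 1 - 1 / b := by
    rw [Nat.cast_sub (by omega)]
    push_cast
    field_simp
  have hK : 1 ≤ S.card := by
    rw [Nat.one_le_iff_ne_zero, Ne, Finset.card_eq_zero]
    rintro rfl
    rw [Finset.sum_empty, hb1] at hsum
    have h1 : (1 : ℚ) / b < 1 := by
      rw [div_lt_one hbq]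
      have : 1 < b := by omega
      exact_mod_cast this
    linarith
  have hgap := gap S.card hK S.card le_rfl S.val 1 1 rfl (fun n hn => by
    have := hS n hn
    omega) one_pos (by
      have : (S.val.map fun n : ℕ => (1 : ℚ) / n).sum = ((b - 1 : ℕ) : ℚ) / b := hsum
      rw [this, hb1]
      have h0 : (0 : ℚ) < 1 / b := by positivity
      have h1 : ((1 : ℕ) : ℚ) / ((1 : ℕ) : ℚ) = 1 := by norm_num
      rw [h1]
      linarith)
  have h1 : (S.val.map fun n : ℕ => (1 : ℚ) / n).sum = ((b - 1 : ℕ) : ℚ) / b := hsum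
  rw [h1, hb1] at hgap
  have h2 : (b : ℚ) ≤ ((2 * S.card : ℕ) : ℚ) ^ (2 ^ S.card) := by
    have h3 : 1 / ((2 * S.card * 1 : ℕ) : ℚ) ^ (2 ^ S.card) ≤ 1 / b := by
      refine hgap.trans (le_of_eq ?_)
      norm_num
    rw [mul_one] at h3
    exact (one_div_le_one_div (by positivity) hbq).mp h3
  have h3 : (b : ℝ) ≤ ((2 * S.card : ℕ) : ℝ) ^ (2 ^ S.card) := by
    have : b ≤ (2 * S.card) ^ (2 ^ S.card) := by exact_mod_cast h2
    exact_mod_cast this
  set k := S.card with hk
  have hkr : (1 : ℝ) ≤ k := by exact_mod_cast hK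
  have hbr : (16 : ℝ) ≤ b := by exact_mod_cast hb
  have h4 : Real.log b ≤ 2 ^ k * Real.log ((2 * k : ℕ) : ℝ) := by
    have := Real.log_le_log (by linarith) h3
    rw [Real.log_pow] at this
    push_cast at this ⊢
    exact this
  have hlogb : 0 < Real.log b := Real.log_pos (by linarith)
  have h2k : (2 : ℝ) ≤ ((2 * k : ℕ) : ℝ) := by
    push_cast
    linarith
  have hlog2k : 0 < Real.log ((2 * k : ℕ) : ℝ) := Real.log_pos (by linarith)
  have h5 : Real.log (Real.log b) ≤ k * Real.log 2 + Real.log (Real.log ((2 * k : ℕ) : ℝ)) := by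
    have h6 := Real.log_le_log hlogb h4
    rw [Real.log_mul (by positivity) hlog2k.ne', Real.log_pow] at h6
    exact h6
  have h6 : Real.log (Real.log ((2 * k : ℕ) : ℝ)) ≤ Real.log ((2 * k : ℕ) : ℝ) - 1 :=
    Real.log_le_sub_one_of_pos hlog2k
  have h7 : Real.log ((2 * k : ℕ) : ℝ) ≤ ((2 * k : ℕ) : ℝ) - 1 :=
    Real.log_le_sub_one_of_pos (by linarith)
  have h8 : Real.log 2 < 0.6932 := by
    have := Real.log_two_lt_d9
    linarith
  have h9 : ((2 * k : ℕ) : ℝ) = 2 * k := by push_cast; ring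
  have h10 : (k : ℝ) * Real.log 2 ≤ k * 0.6932 := by gcongr
  linarith

end Vale.Agent.P012
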