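import Mathlib

namespace Vale.Agent.P012

open Finset

/-- `ρ` is a sum of at most `k` unit fractions (repetitions allowed). -/
def UF (k : ℕ) (ρ : ℚ) : Prop :=
  ∃ s : Multiset ℕ, s.card ≤ k ∧ (∀ n ∈ s, 0 < n) ∧ (s.map fun n : ℕ => (1 : ℚ) / n).sum = ρ

theorem UF.zero (k : ℕ) : UF k 0 := ⟨0, by simp, by simp, by simp⟩

theorem UF.add {k l : ℕ} {ρ σ : ℚ} (h1 : UF k ρ) (h2 : UF l σ) : UF (k + l) (ρ + σ) := by
  obtain ⟨s, a1, a2, a3⟩ := h1
  obtain ⟨t, b1, b2, b3⟩ := h2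
  refine ⟨s + t, ?_, ?_, ?_⟩
  · rw [Multiset.card_add]; omega
  · intro n hn
    rcases Multiset.mem_add.mp hn with h | h
    · exact a2 n h
    · exact b2 n h
  · rw [Multiset.map_add, Multiset.sum_add, a3, b3]

theorem UF.mono {k l : ℕ} {ρ : ℚ} (h : UF k ρ) (hkl : k ≤ l) : UF l ρ := by
  obtain ⟨s, a1, a2, a3⟩ := h
  exact ⟨s, a1.trans hkl, a2, a3⟩

theorem UF.unit {n : ℕ} (hn : 0 < n) : UF 1 ((1 : ℚ) / n) :=
  ⟨{n}, by simp, by simpa using hn, by simp⟩

theorem UF.div {k : ℕ} {ρ : ℚ} (h : UF k ρ) {w : ℕ} (hw : 0 < w) : UF k (ρ / w) := by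
  obtain ⟨s, a1, a2, a3⟩ := h
  refine ⟨s.map (fun n => w * n), by rwa [Multiset.card_map], ?_, ?_⟩
  · intro n hn
    obtain ⟨m, hm, rfl⟩ := Multiset.mem_map.mp hn
    exact Nat.mul_pos hw (a2 m hm)
  · rw [Multiset.map_map, ← a3, div_eq_mul_inv, ← Multiset.sum_map_mul_right]
    congr 1
    apply Multiset.map_congr rfl
    intro n _
    simp only [Function.comp_apply]
    push_cast
    rw [one_div, one_div, mul_inv, mul_comm]

theorem UF.sum {ι : Type*} (s : Finset ι) (k : ℕ) (ρ : ι → ℚ) (h : ∀ i ∈ s, UF k (ρ i)) :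
    UF (s.card * k) (∑ i ∈ s, ρ i) := by
  classical
  induction s using Finset.induction_on with
  | empty => simpa using UF.zero 0
  | insert a s ha ih =>
    rw [Finset.sum_insert ha, Finset.card_insert_of_notMem ha]
    have h1 := h a (Finset.mem_insert_self _ _)
    have h2 := ih (fun i hi => h i (Finset.mem_insert_of_mem hi))
    refine (h1.add h2).mono ?_
    apply le_of_eq
    ring

/-- Good numbers: if `c` divides a sum of four divisors of `N`, then `c / N` is a sum of four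
unit fractions. -/
theorem UF.good {N c : ℕ} (hN : 0 < N) (d : Fin 4 → ℕ) (hd : ∀ k, d k ∣ N)
    (hdvd : c ∣ ∑ k, d k) : UF 4 ((c : ℚ) / N) := by
  obtain ⟨g, hg⟩ := hdvd
  have hdpos : ∀ k, 0 < d k := fun k => Nat.pos_of_dvd_of_pos (hd k) hN
  have hsumpos : 0 < ∑ k, d k := Finset.sum_pos (fun k _ => hdpos k) Finset.univ_nonempty
  have hgpos : 0 < g := by
    rcases Nat.eq_zero_or_pos g with h | h
    · rw [h, mul_zero] at hg
      omega
    · exact h
  have hNq : (N : ℚ) ≠ 0 := by exact_mod_cast hN.ne'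
  have hgq : (g : ℚ) ≠ 0 := by exact_mod_cast hgpos.ne'
  have h1 : UF ((univ : Finset (Fin 4)).card * 1) (∑ k : Fin 4, (d k : ℚ) / N / g) := by
    apply UF.sum
    intro k _
    refine UF.div ?_ hgpos
    have h2 : 0 < N / d k := Nat.div_pos (Nat.le_of_dvd hN (hd k)) (hdpos k)
    have h3 := UF.unit h2
    have hdq : (d k : ℚ) ≠ 0 := by exact_mod_cast (hdpos k).ne'
    have h4 : (1 : ℚ) / ((N / d k : ℕ) : ℚ) = (d k : ℚ) / N := by
      rw [Nat.cast_div (hd k) hdq]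
      field_simp
    rw [h4] at h3
    exact h3
  have h2 : ∑ k : Fin 4, (d k : ℚ) / N / g = (c : ℚ) / N := by
    rw [← Finset.sum_div, ← Finset.sum_div]
    have h3 : ((∑ k, d k : ℕ) : ℚ) = (c : ℚ) * g := by
      rw [hg]
      push_cast
      ring
    push_cast at h3
    rw [h3]
    field_simp
  rw [h2] at h1
  exact h1.mono (by simp)

end Vale.Agent.P012
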